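import Vale.Agent.P147.Planar.Defs

/-!
P147: two independent streams of blocks descending side by side, and the interface for the chance
that the blocks of the first do not meet the second.
-/

open MeasureTheory
open scoped ENNReal

noncomputable section

namespace Vale.Agent.P147.Planar

variable {B : Type} {BX BY : Type}

/-- A kind of block: the law, the depth gained, the lateral displacement and the sites, relative to
the start of the block, as depth and lateral position. -/
structure Kind (B : Type) [MeasurableSpace B] where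
  law : Measure B
  depth : B → ℕ
  disp : B → Z2
  sites : B → Finset (ℕ × Z2)

/-- The length of the integer vector. -/
def len (v : Z2) : ℕ := v.1.natAbs + v.2.natAbs

section

variable [MeasurableSpace B] (K : Kind B)

/-- The depth at which block `i` starts. -/
def Kind.level (A : ℕ → B) (i : ℕ) : ℕ := ∑ r ∈ Finset.range i, K.depth (A r)

/-- The lateral position at which block `i` starts. -/
def Kind.shiftAt (A : ℕ → B) (i : ℕ) : Z2 := ∑ r ∈ Finset.range i, K.disp (A r)

/-- The site `z` is used by block `i`. -/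
def Kind.Uses (A : ℕ → B) (i : ℕ) (z : ℕ × Z2) : Prop :=
  ∃ y ∈ K.sites (A i), z = (K.level A i + y.1, K.shiftAt A i + y.2)

/-- The law of the stream of blocks. -/
def Kind.stream : Measure (ℕ → B) := Measure.infinitePi fun _ => K.law

/-- Almost every block gains depth, contains its start, stays within its depths; finite means and
a lower bound on the chance that a depth is the start of a block. -/
structure Kind.Good : Prop where
  prob : IsProbabilityMeasure K.law
  depth_pos : ∀ᵐ b ∂K.law, 1 ≤ K.depth b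
  start_mem : ∀ᵐ b ∂K.law, ((0, 0) : ℕ × Z2) ∈ K.sites b
  depth_le : ∀ᵐ b ∂K.law, ∀ y ∈ K.sites b, y.1 ≤ K.depth b
  depth_mean : ∫⁻ b, (K.depth b : ℝ≥0∞) ∂K.law ≠ ∞
  disp_mean : ∫⁻ b, (len (K.disp b) : ℝ≥0∞) ∂K.law ≠ ∞
  sites_mean : ∫⁻ b, ((K.sites b).card : ℝ≥0∞) ∂K.law ≠ ∞
  dense : ∃ c : ℝ≥0∞, c ≠ 0 ∧ ∀ h : ℕ, c ≤ K.stream {A | ∃ i, K.level A i = h}

end

variable [MeasurableSpace BX] [MeasurableSpace BY]

/-- The first `N` blocks of `A`, moved laterally by `v`, share no site with the stream `B`. -/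
def NoMeet (X : Kind BX) (Y : Kind BY) (N : ℕ) (v : Z2) (A : ℕ → BX) (B : ℕ → BY) : Prop :=
  ∀ i < N, ∀ k z w, X.Uses A i z → Y.Uses B k w → z.1 = w.1 → z.2 + v ≠ w.2

/-- The chance of no meeting. -/
def noMeetProb (X : Kind BX) (Y : Kind BY) (N : ℕ) (v : Z2) : ℝ≥0∞ :=
  (X.stream.prod Y.stream) {q | NoMeet X Y N v q.1 q.2}

/-- What the two kinds need: a straight block above with its only bottom site below its top, bottom
sites of the lower kind only at the end of a block, three short lower blocks, and equal slopes. -/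
structure Pairing (X : Kind BX) (Y : Kind BY) : Prop where
  goodX : X.Good
  goodY : Y.Good
  straight : ∃ a, X.law {a} ≠ 0 ∧ X.depth a = 1 ∧ X.disp a = 0 ∧
    ∀ y ∈ X.sites a, y.1 = 1 → y.2 = 0
  bottom : ∀ᵐ b ∂Y.law, ∀ y ∈ Y.sites b, y.1 = Y.depth b → y.2 = Y.disp b
  short : ∀ u ∈ ({0, (-1, 0), (0, -1)} : Finset Z2),
    ∃ b, Y.law {b} ≠ 0 ∧ Y.depth b = 1 ∧ Y.disp b = u
  slope₁ : (∫ b, ((X.disp b).1 : ℝ) ∂X.law) * (∫ b, (Y.depth b : ℝ) ∂Y.law)
    = (∫ b, ((Y.disp b).1 : ℝ) ∂Y.law) * (∫ b, (X.depth b : ℝ) ∂X.law)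
  slope₂ : (∫ b, ((X.disp b).2 : ℝ) ∂X.law) * (∫ b, (Y.depth b : ℝ) ∂Y.law)
    = (∫ b, ((Y.disp b).2 : ℝ) ∂Y.law) * (∫ b, (X.depth b : ℝ) ∂X.law)

/-- Module Segments, statement: some offset on every ray is avoided with chances summing to
infinity. -/
def AvoidStmt : Prop :=
  ∀ (BX BY : Type) [MeasurableSpace BX] [DiscreteMeasurableSpace BX] [Countable BX]
    [MeasurableSpace BY] [DiscreteMeasurableSpace BY] [Countable BY]
    (X : Kind BX) (Y : Kind BY), Pairing X Y → ∀ e : Z2, e ≠ 0 →
      ∃ l : ℕ, 1 ≤ l ∧ ∑' N, noMeetProb X Y N ((l : ℤ) • e) = ∞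

end Vale.Agent.P147.Planar
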