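import Vale.Agent.P147.Planar.Blocks
import Vale.Agent.P147.Planar.Strands
import Vale.Agent.P147.Dir.Direction
import Vale.Agent.P147.Dir.Regen

/-!
P147: the regeneration blocks along an axis as two kinds of planar blocks, descending from the top.
-/

open MeasureTheory Filter
open scoped ENNReal Topology

noncomputable section

namespace Vale.Agent.P147.Planar

variable {d : ℕ}

/-- The linear form of the signed axis. -/
def ax (δ : Step d) : Fin d → ℝ := Pi.single δ.1 (if δ.2 then 1 else -1)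

lemma ax_opp (δ : Step d) : ax (opp δ) = -ax δ := by
  rcases δ with ⟨a, b⟩
  cases b <;> simp [ax, opp, ← Pi.single_neg]

lemma lht_ax (δ : Step d) (x : Pos d) : Dir.lht (ax δ) x = (ht δ x : ℝ) := by
  rw [Dir.lht, Finset.sum_eq_single δ.1 (fun i _ hi => by simp [ax, hi]) (by simp)]
  rcases δ with ⟨a, b⟩
  cases b <;> simp [ax, ht]

lemma lh_ax (δ : Step d) (η : ℕ → Step d) (n : ℕ) : Dir.lh (ax δ) η n = (hgt δ η n : ℝ) := lht_ax δ _

lemma abs_ht_vec (δ e : Step d) : |ht δ (vec e)| ≤ 1 := by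
  rw [abs_le]
  refine ⟨?_, ht_vec_le δ e⟩
  have := ht_vec_le (opp δ) e
  rw [ht_opp] at this
  omega

lemma norm_ax (δ : Step d) : Dir.Norm (ax δ) δ :=
  ⟨by rw [lht_ax, ht_vec_self, Int.cast_one], fun e => by
    rw [lht_ax, ← Int.cast_abs]; exact_mod_cast abs_ht_vec δ e⟩

lemma fwd_ax (δ : Step d) {η : ℕ → Step d} (h : η ∈ Dir.Fwd (ax δ)) (t : ℕ) : 0 ≤ hgt δ η t := by
  have := h.1 t
  rw [lh_ax] at this
  exact_mod_cast this

lemma cand_ax {δ : Step d} {η : ℕ → Step d} {t : ℕ} :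
    Dir.Cand (ax δ) η t ↔ 1 ≤ hgt δ η t ∧ ∀ s < t, hgt δ η s < hgt δ η t := by
  simp only [Dir.Cand, lh_ax, Int.cast_lt]
  refine and_congr ?_ Iff.rfl
  exact_mod_cast Iff.rfl

/-- The two lateral coordinates of a site. -/
def pr (j₁ j₂ : Fin d) (x : Pos d) : Z2 := (x j₁, x j₂)

lemma pr_add (j₁ j₂ : Fin d) (x y : Pos d) : pr j₁ j₂ (x + y) = pr j₁ j₂ x + pr j₁ j₂ y := rfl

lemma pr_sub (j₁ j₂ : Fin d) (x y : Pos d) : pr j₁ j₂ (x - y) = pr j₁ j₂ x - pr j₁ j₂ y := rfl

lemma pr_neg (j₁ j₂ : Fin d) (x : Pos d) : pr j₁ j₂ (-x) = -pr j₁ j₂ x := rfl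

lemma pr_zero (j₁ j₂ : Fin d) : pr j₁ j₂ (0 : Pos d) = 0 := rfl

/-- The position after `s` steps of a block. -/
def bpos (δ : Step d) (b : Blk d) (s : ℕ) : Pos d := pos (fun t => List.getD b t δ) s

/-- The number of steps of a block. -/
def blen (b : Blk d) : ℕ := List.length b

lemma blen_blk (l : Fin d → ℝ) (η : ℕ → Step d) : blen (blk l η) = Dir.tau l η := length_blk l η

lemma bpos_blk (δ : Step d) (l : Fin d → ℝ) (η : ℕ → Step d) {s : ℕ} (hs : s ≤ Dir.tau l η) :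
    bpos δ (blk l η) s = pos η s := pos_congr fun t ht' => by
  have h : t < List.length (List.ofFn fun i : Fin (Dir.tau l η) => η i) := by
    rw [List.length_ofFn]; omega
  show List.getD (List.ofFn fun i : Fin (Dir.tau l η) => η i) t δ = η t
  rw [List.getD_eq_getElem _ _ h, List.getElem_ofFn]

variable [NeZero d]

/-- The blocks of the walk climbing along `δ`, read from their top. -/
def kindX (μ : Measure (Step d → ℝ)) (δ : Step d) (j₁ j₂ : Fin d) : Kind (Blk d) where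
  law := (Dir.fwdLaw μ (ax δ)).map (blk (ax δ))
  depth b := (ht δ (bpos δ b (blen b))).toNat
  disp b := -pr j₁ j₂ (bpos δ b (blen b))
  sites b := (Finset.range (blen b + 1)).image fun s =>
    ((ht δ (bpos δ b (blen b) - bpos δ b s)).toNat, pr j₁ j₂ (bpos δ b s - bpos δ b (blen b)))

/-- The blocks of the walk descending along `δ`, in order. -/
def kindY (μ : Measure (Step d → ℝ)) (δ : Step d) (j₁ j₂ : Fin d) : Kind (Blk d) where
  law := (Dir.fwdLaw μ (ax (opp δ))).map (blk (ax (opp δ)))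
  depth b := (ht (opp δ) (bpos δ b (blen b))).toNat
  disp b := pr j₁ j₂ (bpos δ b (blen b))
  sites b := (Finset.range (blen b + 1)).image fun s =>
    ((ht (opp δ) (bpos δ b s)).toNat, pr j₁ j₂ (bpos δ b s))

variable {μ : Measure (Step d → ℝ)} {δ : Step d} {j₁ j₂ : Fin d}

lemma ae_blk (hR : Dir.Regen μ (ax δ)) : ∀ᵐ η ∂Dir.fwdLaw μ (ax δ),
    η ∈ Dir.Fwd (ax δ) ∧ Dir.RegT (ax δ) η (Dir.tau (ax δ) η) := by
  filter_upwards [hR.exists_regT] with η hη
  exact ⟨hη.1, Dir.tau_spec (by simpa using hη.2 0)⟩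

omit [NeZero d] in
lemma blkH_eq (δ : Step d) (η : ℕ → Step d) :
    Dir.blkH (ax δ) η = (hgt δ η (Dir.tau (ax δ) η) : ℝ) := lh_ax δ η _

omit [NeZero d] in
lemma len_pos (η : ℕ → Step d) : ∀ s, len (pr j₁ j₂ (pos η s)) ≤ 2 * s := by
  intro s
  induction s with
  | zero => simp [len, pos, pr_zero]
  | succ s ih =>
    have h1 : ∀ i, (vec (η s) i).natAbs ≤ 1 := fun i => by
      rcases eq_or_ne i (η s).1 with rfl | h
      · simp [vec]; split <;> simp
      · simp [vec, Pi.single_eq_of_ne h]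
    have h2 := h1 j₁
    have h3 := h1 j₂
    simp only [len, pr, pos, Pi.add_apply] at ih ⊢
    have := Int.natAbs_add_le (pos η s j₁) (vec (η s) j₁)
    have := Int.natAbs_add_le (pos η s j₂) (vec (η s) j₂)
    omega

lemma lintegral_law (hR : Dir.Regen μ (ax δ)) (f : Blk d → ℕ) :
    ∫⁻ b, (f b : ℝ≥0∞) ∂(Dir.fwdLaw μ (ax δ)).map (blk (ax δ)) =
      ∫⁻ η, (f (blk (ax δ) η) : ℝ≥0∞) ∂Dir.fwdLaw μ (ax δ) :=
  lintegral_map Measurable.of_discrete (measurable_blk hR.measurable_tau)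

lemma ae_law (hR : Dir.Regen μ (ax δ)) {p : Blk d → Prop}
    (h : ∀ᵐ η ∂Dir.fwdLaw μ (ax δ), p (blk (ax δ) η)) :
    ∀ᵐ b ∂(Dir.fwdLaw μ (ax δ)).map (blk (ax δ)), p b :=
  (ae_map_iff (measurable_blk hR.measurable_tau).aemeasurable MeasurableSet.of_discrete).mpr h

lemma depth_blk (η : ℕ → Step d) :
    (kindX μ δ j₁ j₂).depth (blk (ax δ) η) = (hgt δ η (Dir.tau (ax δ) η)).toNat := by
  simp only [kindX, blen_blk, bpos_blk δ (ax δ) η le_rfl, hgt]

lemma disp_blk (η : ℕ → Step d) :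
    (kindX μ δ j₁ j₂).disp (blk (ax δ) η) = -pr j₁ j₂ (pos η (Dir.tau (ax δ) η)) := by
  simp only [kindX, blen_blk, bpos_blk δ (ax δ) η le_rfl]

lemma mem_sitesX {η : ℕ → Step d} {z : ℕ × Z2} : z ∈ (kindX μ δ j₁ j₂).sites (blk (ax δ) η) ↔
    ∃ s ≤ Dir.tau (ax δ) η, z = ((hgt δ η (Dir.tau (ax δ) η) - hgt δ η s).toNat,
      pr j₁ j₂ (pos η s - pos η (Dir.tau (ax δ) η))) := by
  simp only [kindX, blen_blk, Finset.mem_image, Finset.mem_range, Nat.lt_succ_iff]
  refine exists_congr fun s => and_congr_right fun hs => ?_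
  rw [bpos_blk δ (ax δ) η le_rfl, bpos_blk δ (ax δ) η hs, ht_sub]
  exact eq_comm

lemma depthY_blk (η : ℕ → Step d) :
    (kindY μ δ j₁ j₂).depth (blk (ax (opp δ)) η)
      = (hgt (opp δ) η (Dir.tau (ax (opp δ)) η)).toNat := by
  simp only [kindY, blen_blk, bpos_blk δ (ax (opp δ)) η le_rfl, hgt]

lemma dispY_blk (η : ℕ → Step d) :
    (kindY μ δ j₁ j₂).disp (blk (ax (opp δ)) η) = pr j₁ j₂ (pos η (Dir.tau (ax (opp δ)) η)) := by
  simp only [kindY, blen_blk, bpos_blk δ (ax (opp δ)) η le_rfl]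

lemma mem_sitesY {η : ℕ → Step d} {z : ℕ × Z2} :
    z ∈ (kindY μ δ j₁ j₂).sites (blk (ax (opp δ)) η) ↔
      ∃ s ≤ Dir.tau (ax (opp δ)) η, z = ((hgt (opp δ) η s).toNat, pr j₁ j₂ (pos η s)) := by
  simp only [kindY, blen_blk, Finset.mem_image, Finset.mem_range, Nat.lt_succ_iff]
  refine exists_congr fun s => and_congr_right fun hs => ?_
  rw [bpos_blk δ (ax (opp δ)) η hs]
  exact eq_comm

omit [NeZero d] in
lemma cand_mem {η : ℕ → Step d} (hb : ∀ k, ∃ t, Dir.RegT (ax δ) ((Dir.next (ax δ))^[k] η) t)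
    {p : ℕ} (hp : Dir.RegT (ax δ) η p) :
    ∃ k, Dir.ctime (ax δ) k η = p := by
  classical
  obtain ⟨k, h1, h2⟩ := Dir.exists_block hb p
  refine ⟨k, h1.eq_or_lt.resolve_right fun hlt => ?_⟩
  obtain ⟨u, rfl⟩ := Nat.exists_eq_add_of_le h1
  rw [Dir.ctime_succ] at h2
  set c := Dir.ctime (ax δ) k η
  have hu : 0 < u := by omega
  set η' := (Dir.next (ax δ))^[k] η with hη'
  have hs : η' = shift c η := Dir.next_iterate k η
  have hcand : Dir.Cand (ax δ) η' u := by
    rw [cand_ax]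
    have h3 := cand_ax.mp hp.1
    have h4 : ∀ s, hgt δ η' s = hgt δ η (c + s) - hgt δ η c := fun s => by
      rw [hs, hgt_add]; ring
    refine ⟨?_, fun s hs' => ?_⟩
    · have := h3.2 c (by omega)
      rw [h4]
      omega
    · have := h3.2 (c + s) (by omega)
      rw [h4, h4]
      omega
  have hreg : Dir.RegT (ax δ) η' u := ⟨hcand, by
    rw [hs, Dir.shift_shift]; exact hp.2⟩
  have h5 : Dir.tau (ax δ) η' ≤ u := by
    rw [Dir.tau, dif_pos ⟨u, hreg⟩]
    exact Nat.find_le hreg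
  omega

/-- A lower bound on the chance that a given height is a regeneration. -/
lemma regen_at (hμ : Elliptic μ) (hR : Dir.Regen μ (ax δ)) (h : ℕ) (h1 : 1 ≤ h) :
    nu μ (Dir.Fwd (ax δ)) ≤ Dir.fwdLaw μ (ax δ)
      {η | ∃ p, hgt δ η p = h ∧ Dir.RegT (ax δ) η p} := by
  have := isProbabilityMeasure_nu hμ
  set P := nu μ (Dir.Fwd (ax δ)) with hP
  set G : ℕ → Set (ℕ → Step d) := fun p => Hit δ (h : ℤ) p ∩ {η | ∀ s ≤ p, 0 ≤ hgt δ η s} with hG
  have hGd : ∀ p, DetBy p (G p) := fun p => (detBy_hit δ _ le_rfl).inter fun η η' he hη s hs => by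
    rw [← hgt_congr δ fun t ht' => he t (by omega)]
    exact hη s hs
  have hsum : P * P ≤ nu μ (⋃ p, G p ∩ shift p ⁻¹' Dir.Fwd (ax δ)) := by
    rw [measure_iUnion (fun a b hab => Set.disjoint_left.mpr fun η ha hb =>
        hab (hit_unique ha.1.1 hb.1.1))
      fun p => (hGd p).measurableSet.inter (measurable_shift p Dir.measurableSet_fwd)]
    calc P * P ≤ (∑' p, nu μ (G p)) * P := by
          gcongr
          refine le_trans (measure_mono fun η hη => ?_) (measure_iUnion_le G)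
          obtain ⟨n, hn⟩ := (hη.2.eventually_ge_atTop (h : ℝ)).exists
          rw [lh_ax] at hn
          obtain ⟨p, -, hp⟩ := exists_hit δ (η := η) (j := h) (n := n) (by exact_mod_cast hn)
          exact Set.mem_iUnion.mpr ⟨p, hp, fun s _ => fwd_ax δ hη s⟩
      _ = _ := by
          rw [← ENNReal.tsum_mul_right]
          refine tsum_congr fun p => ?_
          have h2 := Dir.RegenPf.split_fwd (l := ax δ) hμ (hGd p) (fun ξ hξ s hs => ?_)
            MeasurableSet.univ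
          · rw [Set.univ_inter] at h2
            exact h2.symm
          · have h3 := hξ.1.2 s hs
            rw [← hξ.1.1] at h3
            simp only [hgt] at h3
            simp only [Dir.RegenPf.Above, Set.mem_ofPred_eq, lht_ax, ht_sub, not_le]
            exact_mod_cast (by omega : ht δ (pos ξ s) - ht δ (pos ξ p) < 0)
  rw [Dir.RegenPf.fwdLaw_apply, ← hP]
  calc P = P⁻¹ * (P * P) := by
        rw [← mul_assoc, ENNReal.inv_mul_cancel hR.pos.ne' (measure_ne_top _ _), one_mul]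
    _ ≤ _ := by
        refine mul_le_mul' le_rfl (hsum.trans (measure_mono ?_))
        refine Set.iUnion_subset fun p η ⟨⟨hhit, hnn⟩, hfw⟩ => ?_
        refine ⟨⟨p, hhit.1, cand_ax.mpr ⟨by rw [hhit.1]; exact_mod_cast h1,
          fun s hs => by rw [hhit.1]; exact hhit.2 s hs⟩, hfw⟩,
          fun t => ?_, (Dir.RegenPf.escape_shift p).1 hfw.2⟩
        rw [lh_ax]
        refine Int.cast_nonneg ?_
        rcases le_or_gt t p with h' | h'
        · exact hnn t h'
        · obtain ⟨u, rfl⟩ := Nat.exists_eq_add_of_le h'.le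
          have := fwd_ax δ hfw u
          rw [hgt_add, hhit.1]
          omega

/-- A single block of a given shape has positive chance. -/
lemma blk_pos (hμ : Elliptic μ) (hR : Dir.Regen μ (ax δ)) (n : ℕ) (ρ : ℕ → Step d)
    (hn : 1 ≤ hgt δ ρ n) (hlow : ∀ s < n, 0 ≤ hgt δ ρ s ∧ hgt δ ρ s < 1) :
    Dir.fwdLaw μ (ax δ) {η | blk (ax δ) η = List.ofFn fun i : Fin n => ρ i} ≠ 0 := by
  have := isProbabilityMeasure_nu hμ
  rw [Dir.RegenPf.fwdLaw_apply]
  refine mul_ne_zero (ENNReal.inv_ne_zero.mpr (measure_ne_top _ _)) ?_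
  have hlt : ∀ s < n, hgt δ ρ s < hgt δ ρ n := fun s hs => by have := hlow s hs; omega
  refine ne_of_gt (lt_of_lt_of_le ?_ (measure_mono
    (s := cyl n ρ ∩ shift n ⁻¹' (Set.univ ∩ Dir.Fwd (ax δ))) ?_))
  · rw [Dir.RegenPf.split_fwd hμ (detBy_cyl le_rfl ρ) (fun ξ hξ s hs => ?_) MeasurableSet.univ,
      Set.univ_inter]
    · exact ENNReal.mul_pos (w_ne_zero hμ n ρ) hR.pos.ne'
    · have h1 := hlt s hs
      rw [hgt, hgt, ← pos_congr (fun t ht' => hξ t (by omega)),
        ← pos_congr (fun t ht' => hξ t ht')] at h1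
      simp only [Dir.RegenPf.Above, Set.mem_ofPred_eq, lht_ax, ht_sub, not_le]
      exact_mod_cast (by omega : ht δ (pos ξ s) - ht δ (pos ξ n) < 0)
  · rintro η ⟨hc, -, hf⟩
    have hh : ∀ s ≤ n, hgt δ η s = hgt δ ρ s := fun s hs => hgt_congr δ fun t ht' => hc t (by omega)
    have hreg : Dir.RegT (ax δ) η n := ⟨cand_ax.mpr ⟨by rw [hh n le_rfl]; exact hn,
      fun s hs => by rw [hh n le_rfl, hh s hs.le]; exact hlt s hs⟩, hf⟩
    have htau : Dir.tau (ax δ) η = n := by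
      refine Dir.RegenPf.tau_eq hreg fun s hs hr => ?_
      have := (cand_ax.mp hr.1).1
      rw [hh s hs.le] at this
      have := hlow s hs
      omega
    refine ⟨?_, fun t => ?_, (Dir.RegenPf.escape_shift n).1 hf.2⟩
    · show List.ofFn (fun i : Fin (Dir.tau (ax δ) η) => η i) = List.ofFn fun i : Fin n => ρ i
      rw [List.ofFn_congr htau]
      refine congrArg List.ofFn (funext fun i => ?_)
      exact hc i i.2
    · rw [lh_ax]
      refine Int.cast_nonneg ?_
      rcases lt_or_ge t n with h' | h'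
      · rw [hh t h'.le]; exact (hlow t h').1
      · obtain ⟨u, rfl⟩ := Nat.exists_eq_add_of_le h'
        have := fwd_ax δ hf u
        rw [hgt_add, hh n le_rfl]
        omega

end Vale.Agent.P147.Planar
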