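import Vale.Agent.P147.Planar.FromWalk
import Vale.Agent.P147.Dir.Main

/-!
P147: in dimension at least three two opposite escapes cannot both have positive upper speed.
-/

open MeasureTheory Filter
open scoped ENNReal Topology

noncomputable section

namespace Vale.Agent.P147.Planar

variable {d : ℕ}

/-- Escape along `l` with positive upper speed. -/
def Fast (l : Fin d → ℝ) : Set (ℕ → Step d) :=
  {η | η ∈ Dir.Escape l ∧ ∃ c > (0 : ℝ), ∃ᶠ n : ℕ in atTop, c * (n : ℝ) ≤ Dir.lh l η n}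

/-- Zero speed along `l`. -/
def Slow (l : Fin d → ℝ) : Set (ℕ → Step d) :=
  {η | Tendsto (fun n : ℕ => Dir.lh l η n / n) atTop (𝓝 0)}

lemma measurableSet_slow (l : Fin d → ℝ) : MeasurableSet (Slow l) :=
  measurableSet_tendsto _ fun n => (Dir.measurable_lh n).div_const _

lemma slow_of_shift {l : Fin d → ℝ} {η : ℕ → Step d} {n : ℕ} (h : shift n η ∈ Slow l) :
    η ∈ Slow l := by
  refine (tendsto_add_atTop_iff_nat n).mp ?_
  have h1 : Tendsto (fun t : ℕ => ((t + n : ℕ) : ℝ)) atTop atTop :=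
    tendsto_natCast_atTop_atTop.comp (tendsto_add_atTop_nat n)
  have h2 : Tendsto (fun t : ℕ => Dir.lh l (shift n η) t / ((t + n : ℕ) : ℝ)) atTop (𝓝 0) := by
    refine squeeze_zero_norm' ?_ (tendsto_zero_iff_norm_tendsto_zero.mp h)
    filter_upwards [eventually_gt_atTop 0] with t ht
    rw [norm_div, norm_div, Real.norm_natCast, Real.norm_natCast]
    refine div_le_div_of_nonneg_left (norm_nonneg _) (by exact_mod_cast ht) ?_
    exact_mod_cast Nat.le_add_right t n
  have h3 := ((tendsto_const_nhds (x := Dir.lh l η n)).div_atTop h1).add h2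
  rw [add_zero] at h3
  refine h3.congr fun t => ?_
  rw [add_comm t n, Dir.lh_add, add_div]

lemma not_fast_of_slow {l : Fin d → ℝ} {η : ℕ → Step d} (h : η ∈ Slow l) : η ∉ Fast l := by
  rintro ⟨-, c, hc, hf⟩
  obtain ⟨n, hn, hlt, hn0⟩ :=
    (hf.and_eventually ((h.eventually_lt_const hc).and (eventually_gt_atTop 0))).exists
  rw [div_lt_iff₀ (by exact_mod_cast hn0)] at hlt
  linarith

/-- A positive slope passes the fast escape on. -/
lemma fast_transfer {l m v : Fin d → ℝ} {η : ℕ → Step d} (h : η ∈ Fast l)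
    (hv : ∀ i, Tendsto (fun n => (pos η n i : ℝ) / Dir.lh l η n) atTop (𝓝 (v i)))
    (ha : 0 < ∑ i, m i * v i) : η ∈ Fast m := by
  obtain ⟨he, c, hc, hf⟩ := h
  have h1 : Tendsto (fun n => Dir.lh m η n / Dir.lh l η n) atTop (𝓝 (∑ i, m i * v i)) := by
    refine (tendsto_finsetSum _ fun i _ => (hv i).const_mul (m i)).congr fun n => ?_
    simp only [Dir.lh, Dir.lht, Finset.sum_div, mul_div_assoc]
  set a := ∑ i, m i * v i
  refine ⟨Dir.escape_of_rate he hv ha, a / 2 * c, by positivity, ?_⟩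
  refine (hf.and_eventually ((h1.eventually_const_lt (half_lt_self ha)).and
    (he.eventually_gt_atTop 0))).mono fun n ⟨hn, hlt, hp⟩ => ?_
  rw [lt_div_iff₀ hp] at hlt
  have := mul_le_mul_of_nonneg_left hn (half_pos ha).le
  linarith

variable [NeZero d] {μ : Measure (Step d → ℝ)} {δ : Step d}

lemma slow_ae (hR : Dir.Regen μ (ax δ))
    (hinf : ∫⁻ η, (Dir.tau (ax δ) η : ℝ≥0∞) ∂Dir.fwdLaw μ (ax δ) = ∞) :
    ∀ᵐ η ∂Dir.fwdLaw μ (ax δ), η ∈ Slow (ax δ) := by
  have := hR.prob
  set P := Dir.fwdLaw μ (ax δ)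
  set TM : ℕ → (ℕ → Step d) → ℝ := fun M η => ((min (Dir.tau (ax δ) η) M : ℕ) : ℝ) with hTM
  have hTMm : ∀ M, Measurable (TM M) := fun M =>
    (measurable_of_countable fun n : ℕ => ((min n M : ℕ) : ℝ)).comp hR.measurable_tau
  have hTMi : ∀ M, Integrable (TM M) P := fun M =>
    Integrable.of_bound (hTMm M).aestronglyMeasurable M (Eventually.of_forall fun η => by
      simp only [hTM, Real.norm_natCast]
      exact_mod_cast min_le_right _ _)
  have hTMb : ∀ M, Dir.BlockFun (ax δ) (TM M) := fun M η η' _ _ _ _ h _ => by simp only [hTM, h]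
  have hsup : ∀ B : ℝ, ∃ M, B < ∫ η, TM M η ∂P := by
    intro B
    by_contra hno
    push Not at hno
    refine ENNReal.ofReal_ne_top (r := B) (top_le_iff.mp (hinf ▸ ?_))
    have hs : ∀ η, (Dir.tau (ax δ) η : ℝ≥0∞) = ⨆ M : ℕ, ENNReal.ofReal (TM M η) := fun η =>
      le_antisymm (le_iSup_of_le (Dir.tau (ax δ) η) (by simp [hTM]))
        (iSup_le fun M => by
          simp only [hTM, ENNReal.ofReal_natCast]
          exact_mod_cast min_le_left _ _)
    rw [lintegral_congr hs, lintegral_iSup (fun M => (hTMm M).ennreal_ofReal) (fun a b hab η =>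
      ENNReal.ofReal_le_ofReal (by simp only [hTM]; exact_mod_cast min_le_min_left _ hab))]
    refine iSup_le fun M => ?_
    rw [← ofReal_integral_eq_lintegral_ofReal (hTMi M)
      (Eventually.of_forall fun η => Nat.cast_nonneg _)]
    exact ENNReal.ofReal_le_ofReal (hno M)
  filter_upwards [hR.blocks, hR.slln (Dir.measurable_blkH hR.measurable_tau) Dir.blockFun_blkH
    hR.integrable_blkH, ae_all_iff.mpr fun M => hR.slln (hTMm M) (hTMb M) (hTMi M)] with η hb hH hM
  have hbk : ∀ k, ∃ t, Dir.RegT (ax δ) ((Dir.next (ax δ))^[k] η) t := fun k => (hb k).2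
  have hmono := (Dir.ctime_strictMono hbk).monotone
  have hT : Tendsto (fun k : ℕ => (Dir.ctime (ax δ) k η : ℝ) / k) atTop atTop := by
    refine tendsto_atTop.mpr fun B => ?_
    obtain ⟨M, hM'⟩ := hsup B
    filter_upwards [(hM M).eventually_const_lt hM'] with k hk
    refine hk.le.trans (div_le_div_of_nonneg_right ?_ (Nat.cast_nonneg _))
    simp only [Dir.ctime, Nat.cast_sum, hTM]
    exact Finset.sum_le_sum fun r _ => by exact_mod_cast min_le_left _ _
  choose κ hκ1 hκ2 using Dir.exists_block hbk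
  have hκ : Tendsto κ atTop atTop := tendsto_atTop.mpr fun K =>
    eventually_atTop.mpr ⟨Dir.ctime (ax δ) K η, fun t ht => by
      by_contra hc
      have h1 : Dir.ctime (ax δ) (κ t + 1) η ≤ Dir.ctime (ax δ) K η := hmono (by omega : κ t + 1 ≤ K)
      have := hκ2 t
      omega⟩
  have hbound := ((Dir.tendsto_succ_div (S := fun k => Dir.lh (ax δ) η (Dir.ctime (ax δ) k η))
    (by simpa only [Dir.lh_ctime_eq] using hH)).mul hT.inv_tendsto_atTop).comp hκ
  rw [mul_zero] at hbound
  refine squeeze_zero' ?_ ?_ hbound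
  · exact Eventually.of_forall fun t => div_nonneg ((by simpa using (hb 0).1.1 t)) (Nat.cast_nonneg t)
  · filter_upwards [hκ.eventually (eventually_gt_atTop 0)] with t ht
    have hk : (0 : ℝ) < κ t := by exact_mod_cast ht
    have hc : (0 : ℝ) < Dir.ctime (ax δ) (κ t) η := by
      have := Dir.ctime_strictMono hbk ht
      simp only [Dir.ctime, Finset.range_zero, Finset.sum_empty] at this ⊢
      exact_mod_cast this
    have h1 : (Dir.ctime (ax δ) (κ t) η : ℝ) ≤ t := by exact_mod_cast hκ1 t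
    have h2 := (Dir.lh_lt_ctime hbk _ (hκ2 t)).le
    have h3 : (0 : ℝ) ≤ Dir.lh (ax δ) η t := by simpa using (hb 0).1.1 t
    simp only [Function.comp_apply, Pi.inv_apply]
    calc Dir.lh (ax δ) η t / t ≤ Dir.lh (ax δ) η (Dir.ctime (ax δ) (κ t + 1) η) /
          (Dir.ctime (ax δ) (κ t) η : ℝ) := div_le_div₀ (h3.trans h2) h2 hc h1
      _ = _ := by field_simp

lemma side_of_fast (hμ : Elliptic μ) (h : 0 < nu μ (Fast (ax δ))) : Side μ δ := by
  have := isProbabilityMeasure_nu hμ
  have hR := Dir.regen μ (ax δ) δ hμ (norm_ax δ) (h.trans_le (measure_mono fun η hη => hη.1))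
  refine ⟨hR, fun hinf => h.ne' (measure_mono_null
    (t := ⋃ n, shift n ⁻¹' (Dir.Fwd (ax δ) \ Slow (ax δ))) (fun η hη => ?_) ?_)⟩
  · obtain ⟨n, hn⟩ := Dir.exists_fwd hη.1
    exact Set.mem_iUnion.mpr ⟨n, hn, fun hs => not_fast_of_slow (slow_of_shift hs) hη⟩
  · have h0 : nu μ (Dir.Fwd (ax δ) \ Slow (ax δ)) = 0 := by
      have h1 := ae_iff.mp (slow_ae hR hinf)
      rw [Dir.RegenPf.fwdLaw_apply, mul_eq_zero, ENNReal.inv_eq_zero] at h1
      refine measure_mono_null ?_ (h1.resolve_left (measure_ne_top _ _))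
      exact fun η hη => ⟨hη.2, hη.1⟩
    exact measure_iUnion_null fun n =>
      Dir.null_shift hμ (Dir.measurableSet_fwd.diff (measurableSet_slow _)) h0 n

lemma noMeetProb_eq (hX : Dir.Regen μ (ax δ)) {j₁ j₂ : Fin d} (Y : Kind (Blk d))
    [SFinite Y.stream] (N : ℕ) (v₀ : Z2) :
    noMeetProb (kindX μ δ j₁ j₂) Y N v₀ = ∫⁻ η, Y.stream
      {B | NoMeet (kindX μ δ j₁ j₂) Y N v₀ (fun i => blks (ax δ) η (rev N i)) B}
        ∂Dir.fwdLaw μ (ax δ) := by
  have := hX.prob
  have := isProbability_blk hX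
  have hm := measurableSet_noMeet (kindX μ δ j₁ j₂) Y N v₀
  have hperm : Measurable fun (A : ℕ → Blk d) i => A (rev N i) :=
    measurable_pi_lambda _ fun i => measurable_pi_apply _
  rw [noMeetProb, Measure.prod_apply hm, Kind.stream,
    show (kindX μ δ j₁ j₂).law = (Dir.fwdLaw μ (ax δ)).map (blk (ax δ)) from rfl]
  conv_lhs => rw [← map_perm _ (rev N)]
  rw [lintegral_map (measurable_measure_prodMk_left hm) hperm, ← map_blks hX]
  exact lintegral_map ((measurable_measure_prodMk_left hm).comp hperm) (measurable_blks hX)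

omit [NeZero d] in
lemma levels_injective {η : ℕ → Step d}
    (hb : ∀ k, ∃ t, Dir.RegT (ax δ) ((Dir.next (ax δ))^[k] η) t) :
    Function.Injective fun N => (hgt δ η (Dir.ctime (ax δ) (N + 1) η)).toNat := by
  have key : ∀ p q, p < q → hgt δ η (Dir.ctime (ax δ) p η) < hgt δ η (Dir.ctime (ax δ) q η) :=
    fun p q hpq => by
      have := Dir.lh_lt_ctime hb q (Dir.ctime_strictMono hb hpq)
      rw [lh_ax, lh_ax] at this
      exact_mod_cast this
  have h0 : ∀ p, 0 ≤ hgt δ η (Dir.ctime (ax δ) p η) := fun p => by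
    have := (Nat.cast_nonneg p).trans (Dir.le_lh_ctime hb p)
    rw [lh_ax] at this
    exact_mod_cast this
  intro a b hab
  by_contra hne
  have := h0 (a + 1)
  have := h0 (b + 1)
  simp only at hab
  rcases lt_or_gt_of_ne hne with h | h
  · have := key (a + 1) (b + 1) (by omega); omega
  · have := key (b + 1) (a + 1) (by omega); omega

lemma noMeet_sum (hμ : Elliptic μ) (hX : Side μ δ) (hY : Side μ (opp δ)) {j₁ j₂ : Fin d}
    (hj₁ : j₁ ≠ δ.1) (hne : j₁ ≠ j₂) {l : ℕ} (hl : 1 ≤ l) :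
    ∑' N, noMeetProb (kindX μ δ j₁ j₂) (kindY μ δ j₁ j₂) (N + 1) ((-(l : ℤ), 0) : Z2) ≠ ∞ := by
  have := isProbabilityMeasure_nu hμ
  have := hX.regen.prob
  have := hY.regen.prob
  set X := kindX μ δ j₁ j₂
  set Y := kindY μ δ j₁ j₂
  set v₀ : Z2 := (-(l : ℤ), 0)
  set c := w μ 1 (fun _ => opp δ) * nu μ (Dir.Fwd (ax (opp δ)))
  have hc0 : c ≠ 0 := mul_ne_zero (w_ne_zero hμ _ _) hY.regen.pos.ne'
  have hcT : c ≠ ∞ := ENNReal.mul_ne_top (w_ne_top hμ _ _) (measure_ne_top _ _)
  have := isProbability_blk hY.regen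
  have : IsProbabilityMeasure Y.stream :=
    inferInstanceAs (IsProbabilityMeasure (Measure.infinitePi fun _ : ℕ =>
      (Dir.fwdLaw μ (ax (opp δ))).map (blk (ax (opp δ)))))
  intro htop
  have hm : ∀ N, Measurable fun η : ℕ → Step d => c * Y.stream
      {B | NoMeet X Y (N + 1) v₀ (fun i => blks (ax δ) η (rev (N + 1) i)) B} := fun N =>
    ((measurable_measure_prodMk_left (measurableSet_noMeet X Y (N + 1) v₀)).comp
      ((measurable_pi_lambda (fun (A : ℕ → Blk d) i => A (rev (N + 1) i))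
        fun i => measurable_pi_apply _).comp (measurable_blks hX.regen))).const_mul c
  have h1 : ∑' N, c * noMeetProb X Y (N + 1) v₀ ≤
      ∫⁻ η, ∑' n, levelAvoid μ δ j₁ l n η ∂Dir.fwdLaw μ (ax δ) := by
    rw [tsum_congr fun N => show c * noMeetProb X Y (N + 1) v₀ = ∫⁻ η, c * Y.stream
      {B | NoMeet X Y (N + 1) v₀ (fun i => blks (ax δ) η (rev (N + 1) i)) B}
        ∂Dir.fwdLaw μ (ax δ) by rw [noMeetProb_eq hX.regen, lintegral_const_mul' c _ hcT],
      ← lintegral_tsum fun N => (hm N).aemeasurable]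
    refine lintegral_mono_ae ?_
    filter_upwards [hX.regen.exists_regT] with η hη
    exact le_trans (ENNReal.tsum_le_tsum fun N => noMeet_le hμ hY hj₁ hne hl hη.2 N)
      (ENNReal.tsum_comp_le_tsum_of_injective (levels_injective hη.2)
        fun n => levelAvoid μ δ j₁ l n η)
  rw [ENNReal.tsum_mul_left, htop, ENNReal.mul_top hc0, top_le_iff, Dir.fwdLaw,
    lintegral_smul_measure, smul_eq_mul] at h1
  refine ENNReal.mul_ne_top (ENNReal.inv_ne_top.mpr hX.regen.pos.ne') ?_ h1
  exact ne_top_of_le_ne_top (levelAvoid_lintegral hμ hj₁ l)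
    (lintegral_mono' Measure.restrict_le_self le_rfl)

/-- Two sides with finite mean block times and opposite directions are impossible. -/
theorem not_both_sides (havoid : AvoidStmt) (hμ : Elliptic μ) (hd : 3 ≤ d) (hX : Side μ δ)
    (hY : Side μ (opp δ)) {v : Fin d → ℝ} (hv : Dir.HasDir μ (ax δ) v)
    (hv' : Dir.HasDir μ (ax (opp δ)) (-v)) : False := by
  classical
  have := hX.regen.prob
  have := hY.regen.prob
  obtain ⟨j₁, hj₁, j₂, hj₂, hne⟩ : ∃ j₁ ∈ Finset.univ.erase δ.1, ∃ j₂ ∈ Finset.univ.erase δ.1,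
      j₁ ≠ j₂ := Finset.one_lt_card.mp (by simp; omega)
  replace hj₁ := Finset.ne_of_mem_erase hj₁
  replace hj₂ := Finset.ne_of_mem_erase hj₂
  obtain ⟨l, hl, hsum⟩ := havoid (Blk d) (Blk d) (kindX μ δ j₁ j₂) (kindY μ δ j₁ j₂)
    (pairing hμ hX hY hj₁ hj₂ hne hv hv') ((-1, 0) : Z2) (by simp)
  rw [show ((l : ℤ) • ((-1, 0) : Z2)) = ((-(l : ℤ), 0) : Z2) from Prod.ext (by simp) (by simp)]
    at hsum
  rw [tsum_eq_zero_add' ENNReal.summable, ENNReal.add_eq_top] at hsum
  refine (hsum.resolve_left ?_ |> noMeet_sum hμ hX hY hj₁ hne hl)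
  have := isProbability_blk hX.regen
  have := isProbability_blk hY.regen
  refine ne_top_of_le_ne_top ENNReal.one_ne_top ?_
  have : IsProbabilityMeasure ((kindX μ δ j₁ j₂).stream.prod (kindY μ δ j₁ j₂).stream) :=
    inferInstanceAs (IsProbabilityMeasure
      ((Measure.infinitePi fun _ : ℕ => (Dir.fwdLaw μ (ax δ)).map (blk (ax δ))).prod
        (Measure.infinitePi fun _ : ℕ => (Dir.fwdLaw μ (ax (opp δ))).map (blk (ax (opp δ))))))
  exact prob_le_one

/-- In dimension at least three opposite escapes are not both fast. -/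
theorem not_both_fast (havoid : AvoidStmt) (hdir : ∀ l, Dir.DirectionStmt μ l) (hμ : Elliptic μ)
    (hd : 3 ≤ d) {l : Fin d → ℝ} (h : 0 < nu μ (Fast l)) (h' : 0 < nu μ (Fast (-l))) : False := by
  have := isProbabilityMeasure_nu hμ
  obtain ⟨v, hv, hv', -⟩ := Dir.two_rays hμ hdir (h.trans_le (measure_mono fun η hη => hη.1))
    (h'.trans_le (measure_mono fun η hη => hη.1))
  obtain ⟨i, hi⟩ : ∃ i, v i ≠ 0 := by
    by_contra hc
    push Not at hc
    simpa [hc] using hv.1
  set δ : Step d := (i, decide (0 < v i)) with hδ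
  have hsum : ∀ (u : Fin d → ℝ), ∑ j, ax δ j * u j = (if 0 < v i then 1 else -1) * u i := fun u => by
    rw [Finset.sum_eq_single i (fun j _ hj => by simp [ax, hδ, hj]) (by simp)]
    by_cases h0 : 0 < v i <;> simp [ax, hδ, h0]
  have hpos : 0 < ∑ j, ax δ j * v j := by
    rw [hsum]
    rcases lt_or_gt_of_ne hi with h0 | h0
    · simp [not_lt.mpr h0.le, h0]
    · simp [h0]
  have hneg : 0 < ∑ j, ax (opp δ) j * (-v) j := by
    simpa [ax_opp, neg_mul_neg] using hpos
  have f1 : 0 < nu μ (Fast (ax δ)) := h.trans_le <| measure_mono_ae <| by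
    filter_upwards [hv.2] with η hη hf using fast_transfer hf (hη hf.1) hpos
  have f2 : 0 < nu μ (Fast (ax (opp δ))) := h'.trans_le <| measure_mono_ae <| by
    filter_upwards [hv'.2] with η hη hf using fast_transfer hf (hη hf.1) hneg
  obtain ⟨u, hu, hu', -⟩ := Dir.two_rays hμ hdir (f1.trans_le (measure_mono fun η hη => hη.1))
    (ax_opp δ ▸ f2.trans_le (measure_mono fun η hη => hη.1))
  exact not_both_sides havoid hμ hd (side_of_fast hμ f1) (side_of_fast hμ f2) hu
    (by rwa [ax_opp])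

end Vale.Agent.P147.Planar
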