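import Vale.Agent.P147.Dir.Blocks

/-!
P147: the regeneration blocks as finite step sequences: they form an iid stream.
-/

open MeasureTheory ProbabilityTheory
open scoped ENNReal

noncomputable section

namespace Vale.Agent.P147.Planar

variable {d : ℕ}

/-- A block, as the list of its steps. -/
def Blk (d : ℕ) := List (Step d)

instance : Countable (Blk d) := inferInstanceAs (Countable (List (Step d)))
instance : MeasurableSpace (Blk d) := ⊤
instance : DiscreteMeasurableSpace (Blk d) := ⟨fun _ => trivial⟩

/-- The first block of a path. -/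
def blk (l : Fin d → ℝ) (η : ℕ → Step d) : Blk d :=
  List.ofFn fun i : Fin (Dir.tau l η) => η i

/-- The blocks of a path, in order. -/
def blks (l : Fin d → ℝ) (η : ℕ → Step d) (k : ℕ) : Blk d := blk l ((Dir.next l)^[k] η)

lemma length_blk (l : Fin d → ℝ) (η : ℕ → Step d) :
    List.length (blk l η) = Dir.tau l η := List.length_ofFn

lemma blockFun_blk (l : Fin d → ℝ) : Dir.BlockFun l (blk l) := fun η η' _ _ _ _ h5 h6 => by
  show List.ofFn (fun i : Fin (Dir.tau l η) => η i) = List.ofFn (fun i : Fin (Dir.tau l η') => η' i)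
  rw [List.ofFn_congr h5]
  refine congrArg List.ofFn (funext fun i => ?_)
  exact h6 i (by simp [h5])

variable [NeZero d] {μ : Measure (Step d → ℝ)} {l : Fin d → ℝ}

lemma measurable_blk (ht : Measurable (Dir.tau (d := d) l)) : Measurable (blk l) :=
  Dir.measurable_at_tau (β := Blk d) ht (F := fun n η => List.ofFn fun i : Fin n => η i) fun n =>
    measurable_of_det (β := Blk d) (H := n) fun _ _ h =>
      congrArg List.ofFn (funext fun i : Fin n => h i i.2)

lemma measurable_blks (hR : Dir.Regen μ l) : Measurable (blks (d := d) l) :=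
  measurable_pi_lambda _ fun k =>
    (measurable_blk hR.measurable_tau).comp (hR.preserving.iterate k).measurable

lemma isProbability_blk (hR : Dir.Regen μ l) :
    IsProbabilityMeasure ((Dir.fwdLaw μ l).map (blk l)) := by
  have := hR.prob
  exact Measure.isProbabilityMeasure_map (measurable_blk hR.measurable_tau).aemeasurable

lemma boxes (hR : Dir.Regen μ l) : ∀ (n : ℕ) (A : ℕ → Set (Blk d)),
    Dir.fwdLaw μ l {η | ∀ k < n, blks l η k ∈ A k} =
      ∏ k ∈ Finset.range n, (Dir.fwdLaw μ l).map (blk l) (A k) := by
  have := hR.prob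
  intro n
  induction n with
  | zero => intro A; simp
  | succ n ih =>
    intro A
    have hm := measurable_blk hR.measurable_tau
    have hset : {η | ∀ k < n + 1, blks l η k ∈ A k} =
        blk l ⁻¹' A 0 ∩ Dir.next l ⁻¹' {η | ∀ k < n, blks l η k ∈ A (k + 1)} := by
      ext η
      simp only [Set.mem_inter_iff, Set.mem_preimage, Set.mem_ofPred_eq]
      refine ⟨fun h => ⟨h 0 (by omega), fun k hk => ?_⟩, fun h k hk => ?_⟩
      · have := h (k + 1) (by omega)
        rwa [blks, Function.iterate_succ_apply] at this
      · rcases k with _ | k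
        · exact h.1
        · rw [blks, Function.iterate_succ_apply]
          exact h.2 k (by omega)
    have hF : MeasurableSet {η | ∀ k < n, blks l η k ∈ A (k + 1)} := by
      rw [show {η | ∀ k < n, blks l η k ∈ A (k + 1)} = ⋂ k, ⋂ (_ : k < n),
        (fun η => blks l η k) ⁻¹' A (k + 1) from by ext η; simp]
      exact MeasurableSet.iInter fun k => MeasurableSet.iInter fun _ =>
        ((measurable_pi_apply k).comp (measurable_blks hR)) MeasurableSet.of_discrete
    rw [hset, hR.product _ _ (hm MeasurableSet.of_discrete) hF ((blockFun_blk l).blockDet _), ih,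
      Finset.prod_range_succ', Measure.map_apply hm MeasurableSet.of_discrete, mul_comm]

/-- The blocks form an iid stream. -/
theorem map_blks (hR : Dir.Regen μ l) :
    (Dir.fwdLaw μ l).map (blks l) =
      Measure.infinitePi fun _ : ℕ => (Dir.fwdLaw μ l).map (blk l) := by
  classical
  have := isProbability_blk hR
  refine Measure.eq_infinitePi _ fun s t ht => ?_
  rw [Measure.map_apply (measurable_blks hR) (MeasurableSet.pi s.countable_toSet fun i _ => ht i)]
  set A : ℕ → Set (Blk d) := fun k => if k ∈ s then t k else Set.univ with hA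
  have hpre : blks l ⁻¹' Set.pi ↑s t = {η | ∀ k < s.sup id + 1, blks l η k ∈ A k} := by
    ext η
    simp only [Set.mem_preimage, Set.mem_pi, Finset.mem_coe, Set.mem_ofPred_eq, hA]
    refine ⟨fun h k _ => ?_, fun h k hk => ?_⟩
    · split_ifs with hk
      · exact h k hk
      · trivial
    · simpa [hk] using h k (Nat.lt_succ_of_le (Finset.le_sup (f := id) hk))
  rw [hpre, boxes hR, ← Finset.prod_subset (s₁ := s) (s₂ := Finset.range (s.sup id + 1))
    (fun k hk => Finset.mem_range.mpr (Nat.lt_succ_of_le (Finset.le_sup (f := id) hk)))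
    (fun k _ hk => by simp [hA, hk])]
  exact Finset.prod_congr rfl fun k hk => by simp [hA, hk]

omit [NeZero d] in
/-- An iid stream is invariant under reindexing. -/
lemma map_perm {B : Type} [MeasurableSpace B] (P : Measure B) [IsProbabilityMeasure P]
    (σ : Equiv.Perm ℕ) :
    (Measure.infinitePi fun _ : ℕ => P).map (fun A i => A (σ i)) =
      Measure.infinitePi fun _ : ℕ => P := by
  refine Measure.eq_infinitePi _ fun s t ht => ?_
  rw [Measure.map_apply (measurable_pi_lambda _ fun i => measurable_pi_apply (σ i))
    (MeasurableSet.pi s.countable_toSet fun i _ => ht i)]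
  have hpre : (fun (A : ℕ → B) i => A (σ i)) ⁻¹' Set.pi ↑s t
      = Set.pi ↑(s.map σ.toEmbedding) fun i => t (σ.symm i) := by
    ext A
    simp only [Set.mem_preimage, Set.mem_pi, Finset.mem_coe, Finset.mem_map,
      Equiv.coe_toEmbedding]
    refine ⟨fun h => ?_, fun h i hi => by simpa using h (σ i) ⟨i, hi, rfl⟩⟩
    rintro _ ⟨i, hi, rfl⟩
    simpa using h i hi
  rw [hpre, Measure.infinitePi_pi _ fun i _ => ht _, Finset.prod_map]
  simp

end Vale.Agent.P147.Planar
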