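import Vale.Agent.P147.Planar.Streams

/-!
P147: common depths of two streams below a straight block of the first: they form a renewal
process with a positive density, so the first segment has finite mean depth.
-/

open MeasureTheory Filter
open scoped ENNReal Topology

set_option linter.unusedSectionVars false

noncomputable section

namespace Vale.Agent.P147.Planar

variable {B BX BY : Type} [MeasurableSpace B]

lemma Kind.level_add (K : Kind B) (A : ℕ → B) (i j : ℕ) :
    K.level A (i + j) = K.level A i + K.level (shf i A) j :=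
  Finset.sum_range_add _ _ _

lemma Kind.shiftAt_add (K : Kind B) (A : ℕ → B) (i j : ℕ) :
    K.shiftAt A (i + j) = K.shiftAt A i + K.shiftAt (shf i A) j :=
  Finset.sum_range_add _ _ _

lemma Kind.level_succ (K : Kind B) (A : ℕ → B) (i : ℕ) :
    K.level A (i + 1) = K.level A i + K.depth (A i) :=
  Finset.sum_range_succ _ _

lemma Kind.level_strictMono (K : Kind B) {A : ℕ → B} (h : ∀ r, 1 ≤ K.depth (A r)) :
    StrictMono (K.level A) :=
  strictMono_nat_of_lt_succ fun i => by
    rw [K.level_succ]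
    have := h i
    omega

lemma Kind.level_mono (K : Kind B) (A : ℕ → B) : Monotone (K.level A) :=
  monotone_nat_of_le_succ fun i => by rw [K.level_succ]; omega

lemma Kind.level_congr (K : Kind B) {A A' : ℕ → B} {i j : ℕ} (h : ∀ r < i, A r = A' r)
    (hj : j ≤ i) : K.level A j = K.level A' j :=
  Finset.sum_congr rfl fun r hr => by rw [h r (by have := Finset.mem_range.1 hr; omega)]

lemma Kind.shiftAt_congr (K : Kind B) {A A' : ℕ → B} {i j : ℕ} (h : ∀ r < i, A r = A' r)
    (hj : j ≤ i) : K.shiftAt A j = K.shiftAt A' j :=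
  Finset.sum_congr rfl fun r hr => by rw [h r (by have := Finset.mem_range.1 hr; omega)]

variable [MeasurableSpace BX] [MeasurableSpace BY] (X : Kind BX) (Y : Kind BY) (a : BX)

/-- The block `a` is straight, and its only bottom site is below its top. -/
structure Straight : Prop where
  pos : X.law {a} ≠ 0
  depth : X.depth a = 1
  disp : X.disp a = 0
  top : ∀ y ∈ X.sites a, y.1 = 1 → y.2 = 0

/-- Both streams consist of blocks as in `Pairing`. -/
structure Ok (q : (ℕ → BX) × (ℕ → BY)) : Prop where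
  depX : ∀ r, 1 ≤ X.depth (q.1 r)
  depY : ∀ r, 1 ≤ Y.depth (q.2 r)
  origX : ∀ r, ((0, 0) : ℕ × Z2) ∈ X.sites (q.1 r)
  origY : ∀ r, ((0, 0) : ℕ × Z2) ∈ Y.sites (q.2 r)
  leX : ∀ r, ∀ y ∈ X.sites (q.1 r), y.1 ≤ X.depth (q.1 r)
  leY : ∀ r, ∀ y ∈ Y.sites (q.2 r), y.1 ≤ Y.depth (q.2 r)
  bot : ∀ r, ∀ y ∈ Y.sites (q.2 r), y.1 = Y.depth (q.2 r) → y.2 = Y.disp (q.2 r)

/-- The blocks `i` and `k` start at the same depth, right below a straight block. -/
def Cut (q : (ℕ → BX) × (ℕ → BY)) (i k : ℕ) : Prop :=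
  1 ≤ i ∧ X.level q.1 i = Y.level q.2 k ∧ q.1 (i - 1) = a

/-- No cut up to the start of block `i` of the first stream. -/
def noCutX (i : ℕ) : Set ((ℕ → BX) × (ℕ → BY)) := {q | ∀ i' ≤ i, ∀ k, ¬ Cut X Y a q i' k}

/-- No cut up to the start of block `k` of the second stream. -/
def noCutY (k : ℕ) : Set ((ℕ → BX) × (ℕ → BY)) := {q | ∀ k' ≤ k, ∀ i, ¬ Cut X Y a q i k'}

/-- No cut among the first `i` and `k` blocks. -/
def boxFree (i k : ℕ) : Set ((ℕ → BX) × (ℕ → BY)) :=
  {q | ∀ i' ≤ i, ∀ k' ≤ k, ¬ Cut X Y a q i' k'}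

/-- No cut up to depth `h`. -/
def noCutH (h : ℕ) : Set ((ℕ → BX) × (ℕ → BY)) :=
  {q | ∀ i k, Cut X Y a q i k → h < X.level q.1 i}

/-- There is a cut. -/
def HasCut (q : (ℕ → BX) × (ℕ → BY)) : Prop := ∃ i k, Cut X Y a q i k

/-- The blocks `i` and `k` start at depth `g`, a cut or the top. -/
def startAt (g i k : ℕ) : Set ((ℕ → BX) × (ℕ → BY)) :=
  {q | X.level q.1 i = g ∧ Y.level q.2 k = g ∧ (i = 0 ∨ q.1 (i - 1) = a)}

lemma det2_cut {i k i' k' : ℕ} (hi : i' ≤ i) (hk : k' ≤ k) :
    Det2 i k fun q => Cut X Y a q i' k' := by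
  intro q q' hX hY
  rcases Nat.eq_zero_or_pos i' with h | h
  · simp [Cut, h]
  · simp only [Cut, X.level_congr hX hi, Y.level_congr hY hk, hX (i' - 1) (by omega)]

lemma det2_startAt (g i k : ℕ) : Det2 i k fun q => q ∈ startAt X Y a g i k := by
  intro q q' hX hY
  simp only [startAt, Set.mem_ofPred_eq, X.level_congr hX le_rfl, Y.level_congr hY le_rfl]
  rcases Nat.eq_zero_or_pos i with h | h
  · simp [h]
  · rw [hX (i - 1) (by omega)]

lemma det2_boxFree (i k : ℕ) : Det2 i k fun q => q ∈ boxFree X Y a i k := fun q q' hX hY => by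
  simp only [boxFree, Set.mem_ofPred_eq]
  exact propext (forall₂_congr fun i' hi => forall₂_congr fun k' hk =>
    not_congr (Iff.of_eq (det2_cut X Y a hi hk q q' hX hY)))

variable [DiscreteMeasurableSpace BX] [Countable BX] [DiscreteMeasurableSpace BY] [Countable BY]

lemma measurableSet_cut (i k : ℕ) : MeasurableSet {q | Cut X Y a q i k} :=
  Det2.measurableSet (det2_cut X Y a le_rfl le_rfl)

lemma measurableSet_noCutX (i : ℕ) : MeasurableSet (noCutX X Y a i) := by
  simp only [noCutX, Set.ofPred_forall]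
  exact MeasurableSet.iInter fun i' => MeasurableSet.iInter fun _ =>
    MeasurableSet.iInter fun k => (measurableSet_cut X Y a i' k).compl

lemma measurableSet_noCutY (k : ℕ) : MeasurableSet (noCutY X Y a k) := by
  simp only [noCutY, Set.ofPred_forall]
  exact MeasurableSet.iInter fun k' => MeasurableSet.iInter fun _ =>
    MeasurableSet.iInter fun i => (measurableSet_cut X Y a i k').compl

lemma measurableSet_noCutH (h : ℕ) : MeasurableSet (noCutH X Y a h) := by
  simp only [noCutH, Set.ofPred_forall]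
  refine MeasurableSet.iInter fun i => MeasurableSet.iInter fun k => ?_
  exact Det2.measurableSet (i := i) (k := k) fun q q' hX hY => propext (by
    simp only [Set.mem_ofPred_eq]
    exact imp_congr (Iff.of_eq (det2_cut X Y a le_rfl le_rfl q q' hX hY))
      (by rw [X.level_congr hX le_rfl]))

variable {X Y a}

lemma Ok.shift {q : (ℕ → BX) × (ℕ → BY)} (h : Ok X Y q) (i k : ℕ) : Ok X Y (shf2 i k q) :=
  ⟨fun r => h.depX (i + r), fun r => h.depY (k + r), fun r => h.origX (i + r),
    fun r => h.origY (k + r), fun r => h.leX (i + r), fun r => h.leY (k + r),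
    fun r => h.bot (k + r)⟩

lemma ok_ae (hP : Pairing X Y) : ∀ᵐ q ∂both X Y, Ok X Y q := by
  have := hP.goodX.prob
  have := hP.goodY.prob
  have : IsProbabilityMeasure X.stream := by unfold Kind.stream; infer_instance
  have : IsProbabilityMeasure Y.stream := by unfold Kind.stream; infer_instance
  have hX : ∀ r, MeasurePreserving (fun q : (ℕ → BX) × (ℕ → BY) => q.1 r) (both X Y) X.law :=
    fun r => (measurePreserving_eval_infinitePi (fun _ => X.law) r).comp measurePreserving_fst
  have hY : ∀ r, MeasurePreserving (fun q : (ℕ → BX) × (ℕ → BY) => q.2 r) (both X Y) Y.law :=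
    fun r => (measurePreserving_eval_infinitePi (fun _ => Y.law) r).comp measurePreserving_snd
  filter_upwards [ae_all_iff.2 fun r => (hX r).quasiMeasurePreserving.ae hP.goodX.depth_pos,
    ae_all_iff.2 fun r => (hY r).quasiMeasurePreserving.ae hP.goodY.depth_pos,
    ae_all_iff.2 fun r => (hX r).quasiMeasurePreserving.ae hP.goodX.start_mem,
    ae_all_iff.2 fun r => (hY r).quasiMeasurePreserving.ae hP.goodY.start_mem,
    ae_all_iff.2 fun r => (hX r).quasiMeasurePreserving.ae hP.goodX.depth_le,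
    ae_all_iff.2 fun r => (hY r).quasiMeasurePreserving.ae hP.goodY.depth_le,
    ae_all_iff.2 fun r => (hY r).quasiMeasurePreserving.ae hP.bottom] with q h1 h2 h3 h4 h5 h6 h7
  exact ⟨h1, h2, h3, h4, h5, h6, h7⟩

lemma measure_iUnion_ok (hP : Pairing X Y) {ι : Type*} [Countable ι]
    {E : ι → Set ((ℕ → BX) × (ℕ → BY))} (hm : ∀ x, MeasurableSet (E x))
    (hd : ∀ q, Ok X Y q → ∀ x x', q ∈ E x → q ∈ E x' → x = x') :
    both X Y (⋃ x, E x) = ∑' x, both X Y (E x) :=
  measure_iUnion₀ (fun x x' hx => measure_mono_null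
    (fun q hq hok => hx (hd q hok x x' hq.1 hq.2)) (ok_ae hP)) fun x => (hm x).nullMeasurableSet

/-- A cut has a positive density. -/
lemma startAt_dense (hP : Pairing X Y) (ha : Straight X a) :
    ∃ c : ℝ≥0∞, c ≠ 0 ∧ ∀ g, c ≤ ∑' m : ℕ × ℕ, both X Y (startAt X Y a g m.1 m.2) := by
  have hpX := hP.goodX.prob
  have hpY := hP.goodY.prob
  have : IsProbabilityMeasure X.stream := by unfold Kind.stream; infer_instance
  have : IsProbabilityMeasure Y.stream := by unfold Kind.stream; infer_instance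
  have := isProb_both X Y hpX hpY
  obtain ⟨cX, hcX, hX⟩ := hP.goodX.dense
  obtain ⟨cY, hcY, hY⟩ := hP.goodY.dense
  refine ⟨min 1 (cX * X.law {a} * cY), ?_, fun g => ?_⟩
  · exact (lt_min one_pos (pos_iff_ne_zero.2 (mul_ne_zero (mul_ne_zero hcX ha.pos) hcY))).ne'
  rcases g with _ | g
  · refine (min_le_left _ _).trans ?_
    refine le_trans (le_of_eq ?_) (ENNReal.le_tsum (0, 0))
    rw [show startAt X Y a 0 0 0 = Set.univ by ext q; simp [startAt, Kind.level], measure_univ]
  refine (min_le_right _ _).trans ?_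
  set L : ℕ → Set ((ℕ → BX) × (ℕ → BY)) := fun i => {q | X.level q.1 i = g}
  have hL : ∀ i, Det2 i 0 fun q => q ∈ L i := fun i q q' h _ => by
    simp [L, X.level_congr h le_rfl]
  have hLm : ∀ i, MeasurableSet {A : ℕ → BX | X.level A i = g} := fun i => by
    have : Measurable fun A : ℕ → BX => X.level A i := by unfold Kind.level; fun_prop
    exact this (measurableSet_singleton g)
  have hXa : cX * X.law {a} ≤ X.stream (⋃ i, {A | X.level A i = g ∧ A i = a}) := by
    have hstep : ∀ i, X.stream {A | X.level A i = g ∧ A i = a}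
        = X.stream {A | X.level A i = g} * X.law {a} := fun i => by
      have h := both_fst X Y hpX hpY (hL i).measurableSet
        (fun B A A' h => hL i (A, B) (A', B) h (fun r hr => rfl)) ({a} : Set BX)
      have hs : ∀ s : Set (ℕ → BX), both X Y (Prod.fst ⁻¹' s) = X.stream s := fun s => by
        rw [both, show (Prod.fst ⁻¹' s : Set ((ℕ → BX) × (ℕ → BY))) = s ×ˢ Set.univ by
          ext; simp, Measure.prod_prod, measure_univ, mul_one]
      rw [← hs, ← hs]
      exact h
    have hdisj : X.stream (⋃ i, {A | X.level A i = g ∧ A i = a})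
        = ∑' i, X.stream {A | X.level A i = g ∧ A i = a} := by
      have hmono : ∀ᵐ A ∂X.stream, StrictMono (X.level A) := by
        filter_upwards [ae_all_iff.2 fun r => (measurePreserving_eval_infinitePi
          (fun _ => X.law) r).quasiMeasurePreserving.ae hP.goodX.depth_pos] with A h
        exact X.level_strictMono h
      refine measure_iUnion₀ (fun i i' hi => measure_mono_null
        (fun A hA (hm : StrictMono (X.level A)) => hi (hm.injective (hA.1.1.trans hA.2.1.symm)))
        hmono) fun i => ?_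
      exact ((hLm i).inter (measurable_pi_apply i (measurableSet_singleton a))).nullMeasurableSet
    rw [hdisj, tsum_congr hstep, ENNReal.tsum_mul_right]
    gcongr
    refine (hX g).trans (le_trans (le_of_eq ?_) (measure_iUnion_le _))
    congr 1
    ext A
    simp
  calc cX * X.law {a} * cY
      ≤ X.stream (⋃ i, {A | X.level A i = g ∧ A i = a}) *
          Y.stream {B | ∃ k, Y.level B k = g + 1} := mul_le_mul' hXa (hY _)
    _ = both X Y ((⋃ i, {A | X.level A i = g ∧ A i = a}) ×ˢ {B | ∃ k, Y.level B k = g + 1}) :=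
        (Measure.prod_prod _ _).symm
    _ ≤ both X Y (⋃ m : ℕ × ℕ, startAt X Y a (g + 1) m.1 m.2) := measure_mono fun q hq => by
        obtain ⟨h1, k, h2⟩ := hq
        obtain ⟨i, hi, hia⟩ := Set.mem_iUnion.1 h1
        refine Set.mem_iUnion.2 ⟨(i + 1, k), ⟨?_, h2, Or.inr (by simpa using hia)⟩⟩
        simp [Kind.level_succ, hi, hia, ha.depth]
    _ ≤ _ := measure_iUnion_le _

/-- The first segment has finite mean depth. -/
theorem tsum_noCutH_ne_top (hP : Pairing X Y) (ha : Straight X a) :
    ∑' h, both X Y (noCutH X Y a h) ≠ ∞ := by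
  have hpX := hP.goodX.prob
  have hpY := hP.goodY.prob
  have := isProb_both X Y hpX hpY
  obtain ⟨c, hc, hdense⟩ := startAt_dense hP ha
  have hn : ∀ n, c * ∑ r ∈ Finset.range n, both X Y (noCutH X Y a r) ≤ 1 := fun n => by
    let E : Fin n × ℕ × ℕ → Set ((ℕ → BX) × (ℕ → BY)) := fun x =>
      startAt X Y a x.1 x.2.1 x.2.2 ∩ shf2 x.2.1 x.2.2 ⁻¹' noCutH X Y a (n - 1 - x.1)
    have hd : ∀ q, Ok X Y q → ∀ x x', q ∈ E x → q ∈ E x' → (x.1 : ℕ) ≤ x'.1 → x = x' := by
      rintro q hq ⟨g, i, k⟩ ⟨g', i', k'⟩ ⟨⟨h1, h2, h3⟩, h4⟩ ⟨⟨h1', h2', h3'⟩, -⟩ (hle : (g : ℕ) ≤ g')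
      dsimp only at h1 h2 h1' h2' h3'
      have mX := X.level_strictMono hq.depX
      have mY := Y.level_strictMono hq.depY
      rcases eq_or_lt_of_le hle with he | he
      · obtain rfl := Fin.ext he
        obtain rfl := mX.injective (h1.trans h1'.symm)
        obtain rfl := mY.injective (h2.trans h2'.symm)
        rfl
      exfalso
      obtain ⟨j, rfl⟩ : ∃ j, i' = i + (j + 1) :=
        ⟨i' - i - 1, by have : i < i' := mX.lt_iff_lt.1 (by omega); omega⟩
      obtain ⟨l, rfl⟩ : ∃ l, k' = k + l :=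
        ⟨k' - k, by have : k < k' := mY.lt_iff_lt.1 (by omega); omega⟩
      rw [X.level_add] at h1'
      rw [Y.level_add] at h2'
      have hlast : (shf i q.1) j = a := by
        rcases h3' with h | h
        · omega
        · exact (congrArg q.1 (by omega)).trans h
      have hcut : Cut X Y a (shf2 i k q) (j + 1) l :=
        ⟨by omega, by show X.level (shf i q.1) (j + 1) = Y.level (shf k q.2) l; omega, hlast⟩
      have h5 : n - 1 - (g : ℕ) < X.level (shf i q.1) (j + 1) := h4 _ _ hcut
      have := g'.2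
      omega
    have hm : ∀ x, MeasurableSet (E x) := fun x => (det2_startAt X Y a _ _ _).measurableSet.inter
      (measurable_shf2 _ _ (measurableSet_noCutH X Y a _))
    have h1 : ∑' x, both X Y (E x) ≤ 1 := by
      rw [← measure_iUnion_ok hP hm fun q hq x x' hx hx' =>
        (le_total (x.1 : ℕ) x'.1).elim (hd q hq x x' hx hx') fun h => (hd q hq x' x hx' hx h).symm]
      exact prob_le_one
    refine le_trans ?_ h1
    calc c * ∑ r ∈ Finset.range n, both X Y (noCutH X Y a r)
        = ∑ g : Fin n, c * both X Y (noCutH X Y a (n - 1 - g)) := by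
          rw [Fin.sum_univ_eq_sum_range (fun g => c * both X Y (noCutH X Y a (n - 1 - g))),
            Finset.sum_range_reflect (fun r => c * both X Y (noCutH X Y a r)), Finset.mul_sum]
      _ ≤ ∑ g : Fin n, ∑' m : ℕ × ℕ, both X Y (E (g, m)) := by
          refine Finset.sum_le_sum fun g _ => ?_
          rw [tsum_congr fun m : ℕ × ℕ => both_split X Y hpX hpY (det2_startAt X Y a g m.1 m.2)
            (measurableSet_noCutH X Y a (n - 1 - g)), ENNReal.tsum_mul_right]
          exact mul_le_mul' (hdense g) le_rfl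
      _ = ∑' x, both X Y (E x) := by
          rw [ENNReal.tsum_prod' (f := fun x => both X Y (E x)), tsum_fintype]
  intro htop
  have h2 : c * ∑' r, both X Y (noCutH X Y a r) ≤ 1 := by
    rw [ENNReal.tsum_eq_iSup_nat, ENNReal.mul_iSup]
    exact iSup_le hn
  rw [htop, ENNReal.mul_top hc] at h2
  simp at h2

lemma hasCut_ae (hP : Pairing X Y) (ha : Straight X a) : ∀ᵐ q ∂both X Y, HasCut X Y a q := by
  rw [ae_iff]
  exact le_antisymm (le_of_tendsto_of_tendsto tendsto_const_nhds
    (ENNReal.tendsto_atTop_zero_of_tsum_ne_top (tsum_noCutH_ne_top hP ha))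
    (Eventually.of_forall fun h => measure_mono fun q hq i k hik => absurd ⟨i, k, hik⟩ hq))
    zero_le

lemma tsum_indicator_le {ι κ : Type*} {S : Set ι} {T : Set κ} (φ : ι → κ)
    (h1 : Set.MapsTo φ S T) (h2 : Set.InjOn φ S) :
    ∑' x, S.indicator (1 : ι → ℝ≥0∞) x ≤ ∑' y, T.indicator (1 : κ → ℝ≥0∞) y := by
  rw [← tsum_subtype S (1 : ι → ℝ≥0∞), ← tsum_subtype T (1 : κ → ℝ≥0∞)]
  simp only [Pi.one_apply]
  exact ENNReal.tsum_comp_le_tsum_of_injective (f := h1.restrict φ S T)
    (fun x y h => Subtype.ext (h2 x.2 y.2 (congrArg Subtype.val h))) fun _ => 1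

lemma tsum_measure_le {Ω ι κ : Type*} [MeasurableSpace Ω] [Countable ι] [Countable κ]
    {μ : Measure Ω} {E : ι → Set Ω} {E' : κ → Set Ω} (hE : ∀ x, MeasurableSet (E x))
    (hE' : ∀ y, MeasurableSet (E' y)) (φ : Ω → ι → κ)
    (h : ∀ᵐ ω ∂μ, Set.MapsTo (φ ω) {x | ω ∈ E x} {y | ω ∈ E' y} ∧
      Set.InjOn (φ ω) {x | ω ∈ E x}) :
    ∑' x, μ (E x) ≤ ∑' y, μ (E' y) := by
  classical
  rw [← tsum_congr fun x => lintegral_indicator_one (μ := μ) (hE x),
    ← tsum_congr fun y => lintegral_indicator_one (μ := μ) (hE' y),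
    ← lintegral_tsum fun x => (measurable_one.indicator (hE x)).aemeasurable,
    ← lintegral_tsum fun y => (measurable_one.indicator (hE' y)).aemeasurable]
  refine lintegral_mono_ae (h.mono fun ω hω => ?_)
  have := tsum_indicator_le (φ ω) hω.1 hω.2
  simpa [Set.indicator_apply] using this

theorem tsum_noCutX_ne_top (hP : Pairing X Y) (ha : Straight X a) :
    ∑' i, both X Y (noCutX X Y a i) ≠ ∞ := by
  refine ne_top_of_le_ne_top (tsum_noCutH_ne_top hP ha) (tsum_measure_le
    (measurableSet_noCutX X Y a) (measurableSet_noCutH X Y a) (fun q i => X.level q.1 i) ?_)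
  filter_upwards [ok_ae hP] with q hq
  have m := X.level_strictMono hq.depX
  refine ⟨fun i (hi : q ∈ noCutX X Y a i) i' k h => lt_of_not_ge fun hle => ?_, m.injective.injOn⟩
  exact hi i' (m.le_iff_le.1 hle) k h

theorem tsum_noCutY_ne_top (hP : Pairing X Y) (ha : Straight X a) :
    ∑' k, both X Y (noCutY X Y a k) ≠ ∞ := by
  refine ne_top_of_le_ne_top (tsum_noCutH_ne_top hP ha) (tsum_measure_le
    (measurableSet_noCutY X Y a) (measurableSet_noCutH X Y a) (fun q k => Y.level q.2 k) ?_)
  filter_upwards [ok_ae hP] with q hq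
  have m := Y.level_strictMono hq.depY
  refine ⟨fun k (hk : q ∈ noCutY X Y a k) i k' h => lt_of_not_ge fun hle => ?_, m.injective.injOn⟩
  exact hk k' (m.le_iff_le.1 (h.2.1.ge.trans hle)) i h

/-- Pairs of blocks without a cut before them and with a given offset of their depths. -/
def boxAt (X : Kind BX) (Y : Kind BY) (a : BX) (u u' : ℕ) (m : ℕ × ℕ) :
    Set ((ℕ → BX) × (ℕ → BY)) :=
  boxFree X Y a m.1 m.2 ∩ {q | X.level q.1 m.1 + u = Y.level q.2 m.2 + u'}

lemma det2_boxAt (u u' : ℕ) (m : ℕ × ℕ) :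
    Det2 m.1 m.2 fun q => q ∈ boxAt X Y a u u' m := fun q q' hX hY => propext (and_congr
  (Iff.of_eq (det2_boxFree X Y a m.1 m.2 q q' hX hY))
  (by simp [X.level_congr hX le_rfl, Y.level_congr hY le_rfl]))

lemma tsum_boxAt_le (hP : Pairing X Y) (u u' : ℕ) :
    ∑' m, both X Y (boxAt X Y a u u' m) ≤ ∑' h, both X Y (noCutH X Y a h) := by
  refine tsum_measure_le (fun m => (det2_boxAt u u' m).measurableSet)
    (measurableSet_noCutH X Y a) (fun q m => min (X.level q.1 m.1) (Y.level q.2 m.2)) ?_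
  filter_upwards [ok_ae hP] with q hq
  have mX := X.level_strictMono hq.depX
  have mY := Y.level_strictMono hq.depY
  refine ⟨fun m hm i' k' h => lt_of_not_ge fun hle => ?_, fun m hm m' hm' he => ?_⟩
  · have h2 := h.2.1
    exact hm.1 i' (mX.le_iff_le.1 (hle.trans (min_le_left _ _))) k'
      (mY.le_iff_le.1 (h2.ge.trans (hle.trans (min_le_right _ _)))) h
  · have e1 : X.level q.1 m.1 + u = Y.level q.2 m.2 + u' := hm.2
    have e2 : X.level q.1 m'.1 + u = Y.level q.2 m'.2 + u' := hm'.2
    simp only at he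
    exact Prod.ext (mX.injective (by omega)) (mY.injective (by omega))

end Vale.Agent.P147.Planar
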