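import Mathlib

/-!
P147: a walk on the planar lattice with forbidden sets attached to its steps, and the interface
between the avoidance bound and the local limit estimates.
-/

open Filter
open scoped ENNReal Topology

noncomputable section

namespace Vale.Agent.P147.Planar

variable {J : Type}

/-- The offsets. -/
abbrev Z2 := ℤ × ℤ

/-- One step of the walk with step law `p` and increments `W`. -/
def free (p : J → ℝ≥0∞) (W : J → Z2) (f : Z2 → ℝ≥0∞) (v : Z2) : ℝ≥0∞ :=
  ∑' j, p j * f (v + W j)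

/-- The chance of being at the origin after `n` steps from `v`. -/
def ret (p : J → ℝ≥0∞) (W : J → Z2) (n : ℕ) : Z2 → ℝ≥0∞ :=
  (free p W)^[n] fun v => if v = 0 then 1 else 0

/-- The chance that none of the first `n` steps uses a forbidden offset. -/
def safe (p : J → ℝ≥0∞) (W : J → Z2) (F : J → Finset Z2) : ℕ → Z2 → ℝ≥0∞
  | 0, _ => 1
  | n + 1, v => ∑' j, p j * if v ∈ F j then 0 else safe p W F n (v + W j)

/-- A step law charging the null step and both unit steps, with finite mean and mean zero. -/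
structure Step0 (p : J → ℝ≥0∞) (W : J → Z2) : Prop where
  total : ∑' j, p j = 1
  null : ∃ j, p j ≠ 0 ∧ W j = 0
  east : ∃ j, p j ≠ 0 ∧ W j = (1, 0)
  north : ∃ j, p j ≠ 0 ∧ W j = (0, 1)
  finite : ∑' j, p j * (((W j).1.natAbs + (W j).2.natAbs : ℕ) : ℝ≥0∞) ≠ ∞
  mean₁ : ∑' j, (p j).toReal * ((W j).1 : ℝ) = 0
  mean₂ : ∑' j, (p j).toReal * ((W j).2 : ℝ) = 0

/-- Module Local, statement: either the local probabilities are `o(1/n)`, or they are `O(1/n)` and
the walk is recurrent. -/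
def LocalStmt : Prop :=
  ∀ (J : Type) [Countable J] (p : J → ℝ≥0∞) (W : J → Z2), Step0 p W →
    ∃ g : ℕ → ℝ≥0∞, (∀ n v, ret p W n v ≤ g n) ∧
      (Tendsto (fun n : ℕ => (n : ℝ≥0∞) * g n) atTop (𝓝 0) ∨
        (∃ C, C ≠ ∞ ∧ ∀ n : ℕ, (n : ℝ≥0∞) * g n ≤ C) ∧ ∑' n, ret p W n 0 = ∞)

end Vale.Agent.P147.Planar
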