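import Mathlib

/-!
P147: Fourier bounds for the point masses of a random walk on the square lattice.
-/

open MeasureTheory Filter
open scoped Topology Real

noncomputable section

namespace Vale.Agent.P147.Planar.Four

/-- A site of the square lattice. -/
abbrev Z2 := ℤ × ℤ

/-- The point masses after `n` steps. -/
def gn (P : Measure Z2) : ℕ → Z2 → ℝ
  | 0, t => if t = 0 then 1 else 0
  | n + 1, t => ∫ x, gn P n (t - x) ∂P

/-- The two unit vectors are differences of two possible steps. -/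
def Nd (P : Measure Z2) : Prop :=
  0 < (P.prod P).real {z | z.1 - z.2 = (1, 0)} ∧ 0 < (P.prod P).real {z | z.1 - z.2 = (0, 1)}

/-- The pairing of a frequency with a site. -/
def pair (θ : ℝ × ℝ) (x : Z2) : ℝ := θ.1 * (x.1 : ℝ) + θ.2 * (x.2 : ℝ)

/-- A plane wave. -/
def ee (θ : ℝ × ℝ) (x : Z2) : ℂ := Complex.exp (Complex.I * (pair θ x : ℂ))

/-- The characteristic function. -/
def chf (P : Measure Z2) (θ : ℝ × ℝ) : ℂ := ∫ x, ee θ x ∂P

/-- The box of frequencies. -/
def box : Set (ℝ × ℝ) := Set.Ioc (-π) π ×ˢ Set.Ioc (-π) π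

/-- One minus the squared modulus of the characteristic function. -/
def gap (P : Measure Z2) (θ : ℝ × ℝ) : ℝ :=
  ∫ z, (1 - Real.cos (pair θ (z.1 - z.2))) ∂P.prod P

lemma pair_add (θ : ℝ × ℝ) (x y : Z2) : pair θ (x + y) = pair θ x + pair θ y := by
  simp only [pair, Prod.fst_add, Prod.snd_add, Int.cast_add]; ring

lemma pair_sub (θ : ℝ × ℝ) (x y : Z2) : pair θ (x - y) = pair θ x - pair θ y := by
  simp only [pair, Prod.fst_sub, Prod.snd_sub, Int.cast_sub]; ring

lemma norm_ee (θ : ℝ × ℝ) (x : Z2) : ‖ee θ x‖ = 1 := Complex.norm_exp_I_mul_ofReal _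

lemma ee_add (θ : ℝ × ℝ) (x y : Z2) : ee θ (x + y) = ee θ x * ee θ y := by
  rw [ee, ee, ee, ← Complex.exp_add, pair_add]; push_cast; ring_nf

lemma ee_zero (θ : ℝ × ℝ) : ee θ 0 = 1 := by simp [ee, pair]

lemma continuous_pair (x : Z2) : Continuous fun θ => pair θ x := by unfold pair; fun_prop

lemma continuous_ee (x : Z2) : Continuous fun θ => ee θ x :=
  Complex.continuous_exp.comp (continuous_const.mul (Complex.continuous_ofReal.comp (continuous_pair x)))

lemma measurableSet_box : MeasurableSet box := measurableSet_Ioc.prod measurableSet_Ioc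

lemma volume_box : (volume : Measure (ℝ × ℝ)) box = ENNReal.ofReal (4 * π ^ 2) := by
  rw [box, Measure.volume_eq_prod, Measure.prod_prod, Real.volume_Ioc,
    ← ENNReal.ofReal_mul (by linarith [Real.pi_pos])]
  congr 1; ring

lemma volume_box_lt : (volume : Measure (ℝ × ℝ)) box < ⊤ := by
  rw [volume_box]; exact ENNReal.ofReal_lt_top

instance : IsFiniteMeasure ((volume : Measure (ℝ × ℝ)).restrict box) :=
  ⟨by rw [Measure.restrict_apply_univ]; exact volume_box_lt⟩

lemma integral_circle (a : ℤ) :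
    ∫ t in Set.Ioc (-π) π, Complex.exp (Complex.I * ((t * (a : ℝ) : ℝ) : ℂ)) =
      if a = 0 then 2 * (π : ℂ) else 0 := by
  rw [← intervalIntegral.integral_of_le (by linarith [Real.pi_pos])]
  split_ifs with h
  · subst h
    simp [two_mul]
  · have hc : Complex.I * (a : ℂ) ≠ 0 := mul_ne_zero Complex.I_ne_zero (Int.cast_ne_zero.mpr h)
    have hfun : (fun t : ℝ => Complex.exp (Complex.I * ((t * (a : ℝ) : ℝ) : ℂ))) =
        fun t : ℝ => Complex.exp (Complex.I * (a : ℂ) * (t : ℂ)) := by
      funext t; push_cast; ring_nf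
    rw [hfun, integral_exp_mul_complex hc]
    have : Complex.exp (Complex.I * (a : ℂ) * (π : ℂ)) =
        Complex.exp (Complex.I * (a : ℂ) * ((-π : ℝ) : ℂ)) := by
      rw [Complex.exp_eq_exp_iff_exists_int]
      exact ⟨a, by push_cast; ring⟩
    rw [this, sub_self, zero_div]

lemma integral_ee (t : Z2) : ∫ θ in box, ee θ t = if t = 0 then 4 * (π : ℂ) ^ 2 else 0 := by
  have h : (fun θ : ℝ × ℝ => ee θ t) = fun θ : ℝ × ℝ =>
      Complex.exp (Complex.I * ((θ.1 * (t.1 : ℝ) : ℝ) : ℂ)) *
        Complex.exp (Complex.I * ((θ.2 * (t.2 : ℝ) : ℝ) : ℂ)) := by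
    funext θ; rw [← Complex.exp_add, ee, pair]; push_cast; ring_nf
  rw [h, box, Measure.volume_eq_prod,
    setIntegral_prod_mul (fun x : ℝ => Complex.exp (Complex.I * ((x * (t.1 : ℝ) : ℝ) : ℂ)))
      (fun x : ℝ => Complex.exp (Complex.I * ((x * (t.2 : ℝ) : ℝ) : ℂ))),
    integral_circle, integral_circle]
  obtain ⟨a, b⟩ := t
  by_cases ha : a = 0 <;> by_cases hb : b = 0 <;> simp [ha, hb]; ring

variable {P : Measure Z2} [IsProbabilityMeasure P]

lemma norm_chf_le (θ : ℝ × ℝ) : ‖chf P θ‖ ≤ 1 := by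
  refine (norm_integral_le_integral_norm _).trans ?_
  simp [norm_ee]

lemma continuous_chf : Continuous (chf P) :=
  continuous_of_dominated (fun θ => (measurable_of_countable _).aestronglyMeasurable)
    (fun θ => ae_of_all _ fun x => (norm_ee θ x).le) (integrable_const 1)
    (ae_of_all _ fun x => continuous_ee x)

lemma chf_pow_integral : ∀ (n : ℕ) (t : Z2),
    (gn P n t : ℂ) * (4 * (π : ℂ) ^ 2) = ∫ θ in box, chf P θ ^ n * ee θ (-t)
  | 0, t => by
    simp only [pow_zero, one_mul, integral_ee, gn, neg_eq_zero]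
    split_ifs <;> simp
  | n + 1, t => by
    have hint : Integrable (Function.uncurry fun (x : Z2) (θ : ℝ × ℝ) =>
        chf P θ ^ n * ee θ (-(t - x))) (P.prod ((volume : Measure (ℝ × ℝ)).restrict box)) := by
      refine Integrable.mono' (integrable_const 1) ?_ (ae_of_all _ fun z => ?_)
      · exact ((measurable_from_prod_countable_left
          (f := fun r : (ℝ × ℝ) × Z2 => chf P r.1 ^ n * ee r.1 (-(t - r.2)))
          fun x => ((continuous_chf.pow n).mul (continuous_ee (-(t - x)))).measurable).comp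
            measurable_swap).aestronglyMeasurable
      · simp only [Function.uncurry, norm_mul, norm_pow, norm_ee, mul_one]
        exact pow_le_one₀ (norm_nonneg _) (norm_chf_le _)
    have hstep : ∀ x, (gn P n (t - x) : ℂ) * (4 * (π : ℂ) ^ 2) =
        ∫ θ in box, chf P θ ^ n * ee θ (-(t - x)) := fun x => chf_pow_integral n (t - x)
    rw [gn, ← integral_complex_ofReal, ← integral_mul_const]
    simp only [hstep]
    rw [integral_integral_swap hint]
    refine integral_congr_ae (ae_of_all _ fun θ => ?_)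
    have : ∀ x, ee θ (-(t - x)) = ee θ x * ee θ (-t) := fun x => by
      rw [← ee_add]; congr 1; abel
    simp only [this]
    rw [integral_const_mul, integral_mul_const, pow_succ, ← mul_assoc]
    rfl

lemma gn_nonneg : ∀ (n : ℕ) (t : Z2), 0 ≤ gn P n t
  | 0, t => by rw [gn]; split_ifs <;> norm_num
  | n + 1, _ => integral_nonneg fun _ => gn_nonneg n _

lemma integrableOn_box {f : ℝ × ℝ → ℂ} (hf : Continuous f) {C : ℝ} (hC : ∀ θ, ‖f θ‖ ≤ C) :
    IntegrableOn f box := Integrable.mono' (integrable_const C) hf.aestronglyMeasurable (ae_of_all _ hC)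

lemma gn_le_integral (n : ℕ) (t : Z2) : gn P n t * (4 * π ^ 2) ≤ ∫ θ in box, ‖chf P θ‖ ^ n := by
  have h := congrArg Complex.re (chf_pow_integral (P := P) n t)
  have e : (gn P n t : ℂ) * (4 * (π : ℂ) ^ 2) = ((gn P n t * (4 * π ^ 2) : ℝ) : ℂ) := by push_cast; ring
  rw [e, Complex.ofReal_re] at h
  rw [h]
  refine (Complex.re_le_norm _).trans ((norm_integral_le_integral_norm _).trans (le_of_eq ?_))
  refine integral_congr_ae (ae_of_all _ fun θ => ?_)
  simp [norm_ee]

lemma integrable_bounded {α : Type*} [MeasurableSpace α] [Countable α]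
    [MeasurableSingletonClass α] {μ : Measure α} [IsFiniteMeasure μ] {f : α → ℝ} {C : ℝ}
    (hC : ∀ z, |f z| ≤ C) : Integrable f μ :=
  Integrable.mono' (integrable_const C) (measurable_of_countable _).aestronglyMeasurable
    (ae_of_all _ hC)

lemma gap_eq (θ : ℝ × ℝ) : gap P θ = 1 - ‖chf P θ‖ ^ 2 := by
  have h1 : chf P θ * (starRingEnd ℂ) (chf P θ) =
      ∫ z, ee θ z.1 * (starRingEnd ℂ) (ee θ z.2) ∂P.prod P := by
    rw [integral_prod_mul (fun x => ee θ x) (fun y => (starRingEnd ℂ) (ee θ y)), chf, integral_conj]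
  have hi : Integrable (fun z : Z2 × Z2 => ee θ z.1 * (starRingEnd ℂ) (ee θ z.2)) (P.prod P) :=
    Integrable.mono' (integrable_const 1) (measurable_of_countable _).aestronglyMeasurable
      (ae_of_all _ fun z => by simp [norm_ee])
  have h2 := congrArg Complex.re h1
  rw [Complex.mul_conj, Complex.ofReal_re, Complex.normSq_eq_norm_sq,
    ← RCLike.re_eq_complex_re, ← integral_re hi] at h2
  rw [h2, gap, integral_sub (integrable_const 1)
    (integrable_bounded fun z => Real.abs_cos_le_one _)]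
  congr 1
  · simp
  refine integral_congr_ae (ae_of_all _ fun z => ?_)
  have : ee θ z.1 * (starRingEnd ℂ) (ee θ z.2) =
      Complex.exp (((pair θ (z.1 - z.2) : ℝ) : ℂ) * Complex.I) := by
    rw [ee, ee, ← Complex.exp_conj, ← Complex.exp_add, pair_sub]
    simp only [map_mul, Complex.conj_I, Complex.conj_ofReal, Complex.ofReal_sub]
    ring_nf
  simp only [RCLike.re_eq_complex_re]
  rw [this, Complex.exp_ofReal_mul_I_re]

lemma pow_chf_le (n : ℕ) (θ : ℝ × ℝ) : ‖chf P θ‖ ^ n ≤ Real.exp (-(n * gap P θ / 2)) := by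
  have h1 : ‖chf P θ‖ ^ 2 ≤ Real.exp (-(gap P θ / 2)) ^ 2 := by
    have h0 := Real.add_one_le_exp (-gap P θ)
    have e : Real.exp (-(gap P θ / 2)) ^ 2 = Real.exp (-gap P θ) := by
      rw [← Real.exp_nat_mul]; congr 1; push_cast; ring
    rw [e]
    linarith [gap_eq (P := P) θ]
  have h2 := (pow_le_pow_iff_left₀ (norm_nonneg _) (Real.exp_nonneg _) two_ne_zero).1 h1
  refine (pow_le_pow_left₀ (norm_nonneg _) h2 n).trans (le_of_eq ?_)
  rw [← Real.exp_nat_mul]; ring_nf

lemma mem_box {θ : ℝ × ℝ} (h : θ ∈ box) : |θ.1| ≤ π ∧ |θ.2| ≤ π :=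
  ⟨abs_le.2 ⟨h.1.1.le, h.1.2⟩, abs_le.2 ⟨h.2.1.le, h.2.2⟩⟩

lemma cos_gap {u : ℝ} (h : |u| ≤ π) : 2 / π ^ 2 * u ^ 2 ≤ 1 - Real.cos u := by
  linarith [Real.cos_le_one_sub_mul_cos_sq h]

/-- A lower bound by a quadratic form. -/
lemma exists_gap_lower (hnd : Nd P) : ∃ δ : ℝ, 0 < δ ∧ ∀ θ ∈ box,
    2 / π ^ 2 * δ * (θ.1 ^ 2 + θ.2 ^ 2) ≤ gap P θ := by
  classical
  set E₁ : Set (Z2 × Z2) := {z | z.1 - z.2 = (1, 0)}
  set E₂ : Set (Z2 × Z2) := {z | z.1 - z.2 = (0, 1)}
  refine ⟨min ((P.prod P).real E₁) ((P.prod P).real E₂), lt_min hnd.1 hnd.2, fun θ hθ => ?_⟩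
  obtain ⟨hb1, hb2⟩ := mem_box hθ
  have m1 : MeasurableSet E₁ := MeasurableSet.of_discrete
  have m2 : MeasurableSet E₂ := MeasurableSet.of_discrete
  have hle : ∀ z, E₁.indicator (fun _ => 1 - Real.cos θ.1) z +
      E₂.indicator (fun _ => 1 - Real.cos θ.2) z ≤ 1 - Real.cos (pair θ (z.1 - z.2)) := by
    intro z
    by_cases h1 : z.1 - z.2 = (1, 0)
    · have h2 : ¬ z.1 - z.2 = (0, 1) := by rw [h1]; simp
      rw [Set.indicator_of_mem (show z ∈ E₁ from h1), Set.indicator_of_notMem (show z ∉ E₂ from h2),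
        h1]
      simp [pair]
    · rw [Set.indicator_of_notMem (show z ∉ E₁ from h1)]
      by_cases h2 : z.1 - z.2 = (0, 1)
      · rw [Set.indicator_of_mem (show z ∈ E₂ from h2), h2]
        simp [pair]
      · rw [Set.indicator_of_notMem (show z ∉ E₂ from h2)]
        linarith [Real.cos_le_one (pair θ (z.1 - z.2))]
  have hi : Integrable (fun z : Z2 × Z2 => 1 - Real.cos (pair θ (z.1 - z.2))) (P.prod P) :=
    (integrable_const 1).sub (integrable_bounded fun z => Real.abs_cos_le_one _)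
  have key := integral_mono (((integrable_const _).indicator m1).add
    ((integrable_const _).indicator m2)) hi hle
  rw [integral_add ((integrable_const _).indicator m1) ((integrable_const _).indicator m2),
    integral_indicator_const _ m1, integral_indicator_const _ m2, smul_eq_mul, smul_eq_mul] at key
  refine le_trans ?_ key
  have a1 := mul_le_mul (min_le_left ((P.prod P).real E₁) ((P.prod P).real E₂)) (cos_gap hb1)
    (by positivity) hnd.1.le
  have a2 := mul_le_mul (min_le_right ((P.prod P).real E₁) ((P.prod P).real E₂)) (cos_gap hb2)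
    (by positivity) hnd.2.le
  linarith

lemma integral_gauss_box {a k m : ℝ} (ha : 0 < a) (hm : 0 < m) :
    ∫ θ in box, Real.exp (-(a * (θ.1 + k * θ.2) ^ 2 + m * θ.2 ^ 2)) ≤ π / Real.sqrt (a * m) := by
  have hcont : Continuous fun θ : ℝ × ℝ =>
      Real.exp (-(a * (θ.1 + k * θ.2) ^ 2 + m * θ.2 ^ 2)) := by fun_prop
  have hint : IntegrableOn (fun θ : ℝ × ℝ =>
      Real.exp (-(a * (θ.1 + k * θ.2) ^ 2 + m * θ.2 ^ 2))) box :=
    Integrable.mono' (integrable_const 1) hcont.aestronglyMeasurable (ae_of_all _ fun θ => by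
      rw [Real.norm_eq_abs, abs_of_pos (Real.exp_pos _), Real.exp_le_one_iff]
      have := mul_nonneg hm.le (sq_nonneg θ.2)
      have := mul_nonneg ha.le (sq_nonneg (θ.1 + k * θ.2))
      linarith)
  have hsw : ∫ θ in box, Real.exp (-(a * (θ.1 + k * θ.2) ^ 2 + m * θ.2 ^ 2)) =
      ∫ s in Set.Ioc (-π) π, ∫ r in Set.Ioc (-π) π,
        Real.exp (-m * s ^ 2) * Real.exp (-a * (r + k * s) ^ 2) := by
    rw [IntegrableOn, box, Measure.volume_eq_prod, ← Measure.prod_restrict] at hint
    rw [box, Measure.volume_eq_prod, ← Measure.prod_restrict, integral_prod_symm _ hint]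
    refine integral_congr_ae (ae_of_all _ fun s => integral_congr_ae (ae_of_all _ fun r => ?_))
    simp only
    rw [← Real.exp_add]; ring_nf
  rw [hsw]
  have hin : ∀ s : ℝ, (∫ r in Set.Ioc (-π) π,
      Real.exp (-m * s ^ 2) * Real.exp (-a * (r + k * s) ^ 2)) ≤
        Real.exp (-m * s ^ 2) * Real.sqrt (π / a) := by
    intro s
    rw [integral_const_mul]
    refine mul_le_mul_of_nonneg_left ?_ (Real.exp_nonneg _)
    refine le_trans (setIntegral_le_integral ((integrable_exp_neg_mul_sq ha).comp_add_right (k * s))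
      (ae_of_all _ fun r => Real.exp_nonneg _)) (le_of_eq ?_)
    rw [integral_add_right_eq_self (fun r => Real.exp (-a * r ^ 2)) (k * s), integral_gaussian]
  calc ∫ s in Set.Ioc (-π) π, ∫ r in Set.Ioc (-π) π,
        Real.exp (-m * s ^ 2) * Real.exp (-a * (r + k * s) ^ 2)
      ≤ ∫ s in Set.Ioc (-π) π, Real.exp (-m * s ^ 2) * Real.sqrt (π / a) :=
        integral_mono_of_nonneg (ae_of_all _ fun s => integral_nonneg fun r => by positivity)
          ((integrable_exp_neg_mul_sq hm).mul_const _).integrableOn (ae_of_all _ hin)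
    _ ≤ ∫ s, Real.exp (-m * s ^ 2) * Real.sqrt (π / a) :=
        setIntegral_le_integral ((integrable_exp_neg_mul_sq hm).mul_const _)
          (ae_of_all _ fun s => by positivity)
    _ = π / Real.sqrt (a * m) := by
        rw [integral_mul_const, integral_gaussian, Real.sqrt_div' _ hm.le, Real.sqrt_div' _ ha.le,
          Real.sqrt_mul ha.le, div_mul_div_comm, ← sq, Real.sq_sqrt Real.pi_pos.le, mul_comm (√m)]

/-- The point masses are at most of order `1 / n`. -/
theorem gn_le (hnd : Nd P) : ∃ C : ℝ, 0 ≤ C ∧ ∀ (n : ℕ) (t : Z2), (n : ℝ) * gn P n t ≤ C := by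
  obtain ⟨δ, hδ, hg⟩ := exists_gap_lower hnd
  refine ⟨π / (4 * δ), by positivity, fun n t => ?_⟩
  rcases Nat.eq_zero_or_pos n with rfl | hn
  · simp only [Nat.cast_zero, zero_mul]; positivity
  have hn' : (0 : ℝ) < n := by exact_mod_cast hn
  set c := (n : ℝ) * δ / π ^ 2
  have hc : 0 < c := by positivity
  have h1 : ∫ θ in box, ‖chf P θ‖ ^ n ≤ π / Real.sqrt (c * c) := by
    refine le_trans (setIntegral_mono_on ?_ ?_ measurableSet_box fun θ hθ => ?_)
      (integral_gauss_box (k := 0) hc hc)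
    · exact Integrable.mono' (integrable_const 1) (continuous_chf.norm.pow n).aestronglyMeasurable
        (ae_of_all _ fun θ => by
          rw [Real.norm_eq_abs, abs_of_nonneg (by positivity)]
          exact pow_le_one₀ (norm_nonneg _) (norm_chf_le _))
    · exact Integrable.mono' (integrable_const 1) (by fun_prop : Continuous fun θ : ℝ × ℝ =>
        Real.exp (-(c * (θ.1 + 0 * θ.2) ^ 2 + c * θ.2 ^ 2))).aestronglyMeasurable
        (ae_of_all _ fun θ => by
          rw [Real.norm_eq_abs, abs_of_pos (Real.exp_pos _), Real.exp_le_one_iff]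
          have := mul_nonneg hc.le (sq_nonneg θ.2)
          have := mul_nonneg hc.le (sq_nonneg (θ.1 + 0 * θ.2))
          linarith)
    · refine (pow_chf_le n θ).trans (Real.exp_le_exp.2 ?_)
      have := mul_le_mul_of_nonneg_left (hg θ hθ) hn'.le
      have e : c * (θ.1 + 0 * θ.2) ^ 2 + c * θ.2 ^ 2 =
          (n : ℝ) * (2 / π ^ 2 * δ * (θ.1 ^ 2 + θ.2 ^ 2)) / 2 := by simp only [c]; ring
      linarith
  rw [Real.sqrt_mul_self hc.le] at h1
  have h2 := (gn_le_integral (P := P) n t).trans h1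
  have h3 : π / c = π ^ 3 / ((n : ℝ) * δ) := by simp only [c]; field_simp
  rw [h3, le_div_iff₀ (by positivity)] at h2
  rw [le_div_iff₀ (by positivity)]
  refine le_of_mul_le_mul_right ?_ (pow_pos Real.pi_pos 2)
  linarith

/-- The squared length of a site. -/
def sq2 (x : Z2) : ℝ := (x.1 : ℝ) ^ 2 + (x.2 : ℝ) ^ 2

lemma not_integrable_diff (h : ¬ Integrable sq2 P) :
    ¬ Integrable (fun z : Z2 × Z2 => sq2 (z.1 - z.2)) (P.prod P) := by
  intro hi
  obtain ⟨x, hx⟩ := (Integrable.prod_right_ae hi).exists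
  refine h (Integrable.mono' ((hx.const_mul 2).add (integrable_const (2 * sq2 x)))
    (measurable_of_countable _).aestronglyMeasurable (ae_of_all _ fun y => ?_))
  simp only [sq2, Pi.add_apply, Prod.fst_sub, Prod.snd_sub, Int.cast_sub]
  rw [Real.norm_eq_abs, abs_of_nonneg (by positivity)]
  linarith [sq_nonneg ((y.1 : ℝ) - 2 * x.1), sq_nonneg ((y.2 : ℝ) - 2 * x.2)]

/-- Pairs of steps with difference of size at most `R`. -/
def near (R : ℕ) : Set (Z2 × Z2) :=
  {z | (z.1.1 - z.2.1).natAbs + (z.1.2 - z.2.2).natAbs ≤ R}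

lemma exists_big (h : ¬ Integrable sq2 P) (B : ℝ) :
    ∀ᶠ R in atTop, B < ∫ z in near R, sq2 (z.1 - z.2) ∂P.prod P := by
  have hcover : AECover (P.prod P) atTop near :=
    ⟨ae_of_all _ fun z => eventually_atTop.2 ⟨(z.1.1 - z.2.1).natAbs + (z.1.2 - z.2.2).natAbs,
      fun R hR => hR⟩, fun _ => MeasurableSet.of_discrete⟩
  have hfin : ∀ R, IntegrableOn (fun z : Z2 × Z2 => sq2 (z.1 - z.2)) (near R) (P.prod P) := fun R =>
    Integrable.mono' (integrable_const ((2 : ℝ) * (R : ℝ) ^ 2))
      (measurable_of_countable _).aestronglyMeasurable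
      (ae_restrict_of_forall_mem MeasurableSet.of_discrete fun z hz => by
        rw [Real.norm_eq_abs, abs_of_nonneg (by simp only [sq2]; positivity)]
        simp only [sq2, Prod.fst_sub, Prod.snd_sub]
        have h' : (z.1.1 - z.2.1).natAbs + (z.1.2 - z.2.2).natAbs ≤ R := hz
        have h1 : |((z.1.1 - z.2.1 : ℤ) : ℝ)| ≤ R := by
          rw [← Int.cast_abs, ← Nat.cast_natAbs]
          exact_mod_cast (Nat.le_add_right _ _).trans h'
        have h2 : |((z.1.2 - z.2.2 : ℤ) : ℝ)| ≤ R := by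
          rw [← Int.cast_abs, ← Nat.cast_natAbs]
          exact_mod_cast (Nat.le_add_left _ _).trans h'
        have := (sq_le_sq₀ (abs_nonneg _) (Nat.cast_nonneg R)).2 h1
        have := (sq_le_sq₀ (abs_nonneg _) (Nat.cast_nonneg R)).2 h2
        simp only [sq_abs] at *
        linarith)
  by_contra hcon
  have hfr : ∃ᶠ R in atTop, ∫ z in near R, sq2 (z.1 - z.2) ∂P.prod P ≤ B :=
    (not_eventually.1 hcon).mono fun R hR => not_lt.1 hR
  refine not_integrable_diff h (hcover.integrable_of_integral_norm_bounded B hfin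
    (Eventually.of_forall fun R => ?_))
  obtain ⟨R', hR', hB⟩ := frequently_atTop.1 hfr R
  have e : ∀ z : Z2 × Z2, ‖sq2 (z.1 - z.2)‖ = sq2 (z.1 - z.2) := fun z => by
    rw [Real.norm_eq_abs, abs_of_nonneg (by simp only [sq2]; positivity)]
  simp only [e]
  exact (setIntegral_mono_set (hfin R') (ae_of_all _ fun z => by simp only [sq2]; positivity)
    (ae_of_all _ fun z hz => le_trans hz hR')).trans hB

/-- An infinite second moment makes the point masses `o(1 / n)`. -/
theorem gn_isLittleO (hnd : Nd P) (h : ¬ Integrable sq2 P) :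
    ∀ η : ℝ, 0 < η → ∀ᶠ n : ℕ in atTop, ∀ t, (n : ℝ) * gn P n t ≤ η := by
  intro η hη
  obtain ⟨δ, hδ, hg⟩ := exists_gap_lower hnd
  set e₁ := (P.prod P).real {z : Z2 × Z2 | z.1 - z.2 = (1, 0)}
  set e₂ := (P.prod P).real {z : Z2 × Z2 | z.1 - z.2 = (0, 1)}
  set d₀ := min e₁ e₂ / 2
  have hd₀ : 0 < d₀ := half_pos (lt_min hnd.1 hnd.2)
  set s := π / (4 * η) * 2 with hs
  obtain ⟨R, hR, hR1⟩ :=
    ((exists_big h (2 * d₀ + s ^ 2 / d₀)).and (eventually_ge_atTop 1)).exists
  set f : Z2 × Z2 → ℝ × ℝ := fun z => ((z.1.1 - z.2.1 : ℤ), (z.1.2 - z.2.2 : ℤ))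
  set μR := (P.prod P).restrict (near R)
  have hb : ∀ᵐ z ∂μR, |(f z).1| ≤ R ∧ |(f z).2| ≤ R :=
    ae_restrict_of_forall_mem MeasurableSet.of_discrete fun z hz => by
      have h' : (z.1.1 - z.2.1).natAbs + (z.1.2 - z.2.2).natAbs ≤ R := hz
      constructor
      · simp only [f]
        rw [← Int.cast_abs, ← Nat.cast_natAbs]
        exact_mod_cast (Nat.le_add_right _ _).trans h'
      · simp only [f]
        rw [← Int.cast_abs, ← Nat.cast_natAbs]
        exact_mod_cast (Nat.le_add_left _ _).trans h'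
  have hi : ∀ g : ℝ × ℝ → ℝ, (∀ p : ℝ × ℝ, |p.1| ≤ R → |p.2| ≤ R → |g p| ≤ (R : ℝ) ^ 2) →
      Integrable (fun z => g (f z)) μR := fun g hgb =>
    Integrable.mono' (integrable_const ((R : ℝ) ^ 2))
      (measurable_of_countable _).aestronglyMeasurable
      (hb.mono fun z hz => hgb (f z) hz.1 hz.2)
  have i11 := hi (fun p => p.1 ^ 2) fun p h1 _ => by
    rw [abs_pow]; exact pow_le_pow_left₀ (abs_nonneg _) h1 2
  have i22 := hi (fun p => p.2 ^ 2) fun p _ h2 => by
    rw [abs_pow]; exact pow_le_pow_left₀ (abs_nonneg _) h2 2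
  have i12 := hi (fun p => p.1 * p.2) fun p h1 h2 => by
    rw [abs_mul, sq]; exact mul_le_mul h1 h2 (abs_nonneg _) (Nat.cast_nonneg R)
  set a := ∫ z, (f z).1 ^ 2 ∂μR
  set b := ∫ z, (f z).1 * (f z).2 ∂μR
  set d := ∫ z, (f z).2 ^ 2 ∂μR
  have hQ : ∀ x y : ℝ, ∫ z, (x * (f z).1 + y * (f z).2) ^ 2 ∂μR = a * x ^ 2 + 2 * b * x * y + d * y ^ 2 := by
    intro x y
    have e : (fun z => (x * (f z).1 + y * (f z).2) ^ 2) =
        fun z => (x ^ 2 * (f z).1 ^ 2 + (2 * x * y) * ((f z).1 * (f z).2)) + y ^ 2 * (f z).2 ^ 2 := by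
      funext z; ring
    have hs2 : Integrable (fun z => x ^ 2 * (f z).1 ^ 2 + (2 * x * y) * ((f z).1 * (f z).2)) μR :=
      (i11.const_mul _).add (i12.const_mul _)
    rw [e, integral_add hs2 (i22.const_mul _),
      integral_add (i11.const_mul _) (i12.const_mul _), integral_const_mul, integral_const_mul,
      integral_const_mul]
    ring
  have htr : 2 * d₀ + s ^ 2 / d₀ < a + d := by
    refine lt_of_lt_of_le hR (le_of_eq ?_)
    rw [show a + d = ∫ z, ((f z).1 ^ 2 + (f z).2 ^ 2) ∂μR from (integral_add i11 i22).symm]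
    refine integral_congr_ae (ae_of_all _ fun z => ?_)
    simp [sq2, f]
  -- the form dominates the contribution of the two unit vectors
  have hlow : ∀ x y : ℝ, 2 * d₀ * (x ^ 2 + y ^ 2) ≤ a * x ^ 2 + 2 * b * x * y + d * y ^ 2 := by
    intro x y
    rw [← hQ]
    have m1 : MeasurableSet {z : Z2 × Z2 | z.1 - z.2 = (1, 0)} := MeasurableSet.of_discrete
    have m2 : MeasurableSet {z : Z2 × Z2 | z.1 - z.2 = (0, 1)} := MeasurableSet.of_discrete
    have key : ∀ z, {z : Z2 × Z2 | z.1 - z.2 = (1, 0)}.indicator (fun _ => x ^ 2) z +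
        {z : Z2 × Z2 | z.1 - z.2 = (0, 1)}.indicator (fun _ => y ^ 2) z ≤
        (x * (f z).1 + y * (f z).2) ^ 2 := by
      intro z
      by_cases h1 : z.1 - z.2 = (1, 0)
      · have h2 : ¬ z.1 - z.2 = (0, 1) := by rw [h1]; simp
        have e1 := congrArg Prod.fst h1
        have e2 := congrArg Prod.snd h1
        simp only [Prod.fst_sub, Prod.snd_sub] at e1 e2
        simp [Set.indicator, h1, f, e1, e2]
      · by_cases h2 : z.1 - z.2 = (0, 1)
        · have e1 := congrArg Prod.fst h2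
          have e2 := congrArg Prod.snd h2
          simp only [Prod.fst_sub, Prod.snd_sub] at e1 e2
          simp [Set.indicator, h1, h2, f, e1, e2]
        · simp [Set.indicator, h1, h2]; positivity
    have hsum := integral_mono (μ := μR) (((integrable_const _).indicator m1).add
      ((integrable_const _).indicator m2)) (hi (fun p => (x * p.1 + y * p.2) ^ 2 / ((|x| + |y|) ^ 2 + 1))
        (fun p h1 h2 => ?_) |>.mul_const ((|x| + |y|) ^ 2 + 1) |>.congr (ae_of_all _ fun z => by
          field_simp)) key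
    swap
    · rw [abs_div, abs_pow, abs_of_pos (by positivity : 0 < (|x| + |y|) ^ 2 + 1),
        div_le_iff₀ (by positivity)]
      have : |x * p.1 + y * p.2| ≤ (|x| + |y|) * R := by
        refine (abs_add_le _ _).trans ?_
        rw [abs_mul, abs_mul, add_mul]
        exact add_le_add (mul_le_mul_of_nonneg_left h1 (abs_nonneg _))
          (mul_le_mul_of_nonneg_left h2 (abs_nonneg _))
      have := pow_le_pow_left₀ (abs_nonneg _) this 2
      nlinarith [sq_nonneg (R : ℝ)]
    rw [integral_add ((integrable_const _).indicator m1) ((integrable_const _).indicator m2),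
      integral_indicator_const _ m1, integral_indicator_const _ m2, smul_eq_mul, smul_eq_mul] at hsum
    have s1 : {z : Z2 × Z2 | z.1 - z.2 = (1, 0)} ⊆ near R := fun z hz => by
      have e1 := congrArg Prod.fst (show z.1 - z.2 = (1, 0) from hz)
      have e2 := congrArg Prod.snd (show z.1 - z.2 = (1, 0) from hz)
      simp only [Prod.fst_sub, Prod.snd_sub] at e1 e2
      simp only [near, Set.mem_setOf_eq, e1, e2]
      simpa using hR1
    have s2 : {z : Z2 × Z2 | z.1 - z.2 = (0, 1)} ⊆ near R := fun z hz => by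
      have e1 := congrArg Prod.fst (show z.1 - z.2 = (0, 1) from hz)
      have e2 := congrArg Prod.snd (show z.1 - z.2 = (0, 1) from hz)
      simp only [Prod.fst_sub, Prod.snd_sub] at e1 e2
      simp only [near, Set.mem_setOf_eq, e1, e2]
      simpa using hR1
    simp only [μR, measureReal_restrict_apply m1, measureReal_restrict_apply m2,
      Set.inter_eq_left.2 s1, Set.inter_eq_left.2 s2] at hsum
    refine le_trans ?_ hsum
    have := mul_le_mul_of_nonneg_right (min_le_left e₁ e₂) (sq_nonneg x)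
    have := mul_le_mul_of_nonneg_right (min_le_right e₁ e₂) (sq_nonneg y)
    simp only [d₀]
    linarith
  have had : d₀ < a := by have := hlow 1 0; linarith
  have hdet : s ^ 2 ≤ a * d - b ^ 2 := by
    have h1 := hlow b (d₀ - a)
    have h2 : 0 ≤ (a - d₀) * ((a - d₀) * (d - d₀) - b ^ 2) := by
      have := mul_nonneg hd₀.le (add_nonneg (sq_nonneg b) (sq_nonneg (d₀ - a)))
      linarith
    have h3 : 0 ≤ (a - d₀) * (d - d₀) - b ^ 2 :=
      nonneg_of_mul_nonneg_right h2 (by linarith)
    have h4 : s ^ 2 / d₀ * d₀ = s ^ 2 := div_mul_cancel₀ _ hd₀.ne'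
    have h5 := mul_lt_mul_of_pos_right htr hd₀
    have := mul_pos hd₀ hd₀
    linarith
  have hspos : 0 < s := by positivity
  set D := a * d - b ^ 2
  have hD : 0 < D := lt_of_lt_of_le (pow_pos hspos 2) hdet
  have hR0 : (0 : ℝ) < R := by exact_mod_cast hR1
  have hrate : 0 < δ / (2 * (R : ℝ) ^ 2) := by positivity
  have hsmall : ∀ᶠ n : ℕ in atTop, (n : ℝ) * Real.exp (-((δ / (2 * (R : ℝ) ^ 2)) * n)) ≤ η / 2 := by
    have := (Real.tendsto_pow_mul_exp_neg_atTop_nhds_zero 1).comp
      (tendsto_natCast_atTop_atTop.const_mul_atTop hrate)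
    have := (this.eventually_le_const (show (0 : ℝ) < η / 2 * (δ / (2 * (R : ℝ) ^ 2)) by positivity))
    filter_upwards [this] with n hn
    simp only [Function.comp, pow_one] at hn
    refine le_of_mul_le_mul_left ?_ hrate
    linarith
  filter_upwards [hsmall, eventually_ge_atTop 1] with n hn hn1 t
  have hn' : (0 : ℝ) < n := by exact_mod_cast hn1
  set c := (n : ℝ) / π ^ 2
  have hc : 0 < c := by positivity
  have ha : 0 < a := hd₀.trans had
  set E := fun θ : ℝ × ℝ => Real.exp (-(c * a * (θ.1 + b / a * θ.2) ^ 2 + c * (D / a) * θ.2 ^ 2))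
    with hE
  set K := Real.exp (-((δ / (2 * (R : ℝ) ^ 2)) * n))
  have hpt : ∀ θ ∈ box, ‖chf P θ‖ ^ n ≤ E θ + K := by
    intro θ hθ
    by_cases hsm : (|θ.1| + |θ.2|) * R ≤ π
    · refine le_add_of_le_of_nonneg ((pow_chf_le n θ).trans (Real.exp_le_exp.2 ?_)) (Real.exp_nonneg _)
      have hlowg : 2 / π ^ 2 * (a * θ.1 ^ 2 + 2 * b * θ.1 * θ.2 + d * θ.2 ^ 2) ≤ gap P θ := by
        rw [← hQ, ← integral_const_mul]
        refine le_trans (integral_mono_of_nonneg (ae_of_all _ fun z => by positivity)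
          ((integrable_const 1).sub (integrable_bounded fun z => Real.abs_cos_le_one _)).integrableOn
          (hb.mono fun z hz => ?_)) (setIntegral_le_integral
            ((integrable_const 1).sub (integrable_bounded fun z => Real.abs_cos_le_one _))
            (ae_of_all _ fun z => sub_nonneg.2 (Real.cos_le_one _)))
        have e : pair θ (z.1 - z.2) = θ.1 * (f z).1 + θ.2 * (f z).2 := by simp [pair, f]
        simp only [Pi.sub_apply]
        rw [e]
        refine cos_gap (le_trans ((abs_add_le _ _).trans ?_) hsm)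
        rw [abs_mul, abs_mul, add_mul]
        exact add_le_add (mul_le_mul_of_nonneg_left hz.1 (abs_nonneg _))
          (mul_le_mul_of_nonneg_left hz.2 (abs_nonneg _))
      have e2 : c * a * (θ.1 + b / a * θ.2) ^ 2 + c * (D / a) * θ.2 ^ 2 =
          (n : ℝ) * (2 / π ^ 2 * (a * θ.1 ^ 2 + 2 * b * θ.1 * θ.2 + d * θ.2 ^ 2)) / 2 := by
        simp only [c, D]; field_simp; ring
      have := mul_le_mul_of_nonneg_left hlowg hn'.le
      linarith
    · refine le_add_of_nonneg_of_le (Real.exp_nonneg _) ((pow_chf_le n θ).trans (Real.exp_le_exp.2 ?_))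
      have h1 := hg θ hθ
      have h2 : π ^ 2 / (R : ℝ) ^ 2 ≤ 2 * (θ.1 ^ 2 + θ.2 ^ 2) := by
        rw [← div_pow]
        refine le_trans (pow_le_pow_left₀ (by positivity)
          ((div_le_iff₀ hR0).2 (not_le.1 hsm).le) 2) ?_
        have := sq_nonneg (|θ.1| - |θ.2|)
        rw [← sq_abs θ.1, ← sq_abs θ.2]
        linarith
      have h3 : 2 / π ^ 2 * δ * (π ^ 2 / (R : ℝ) ^ 2 / 2) ≤ gap P θ :=
        le_trans (mul_le_mul_of_nonneg_left (by linarith) (by positivity)) h1
      have h4 : 2 / π ^ 2 * δ * (π ^ 2 / (R : ℝ) ^ 2 / 2) = δ / (R : ℝ) ^ 2 := by field_simp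
      rw [h4] at h3
      have := mul_le_mul_of_nonneg_left h3 hn'.le
      have e5 : δ / (2 * (R : ℝ) ^ 2) * n = (n : ℝ) * (δ / (R : ℝ) ^ 2) / 2 := by field_simp
      linarith
  have hEi : IntegrableOn E box := Integrable.mono' (integrable_const 1)
    (by fun_prop : Continuous E).aestronglyMeasurable (ae_of_all _ fun θ => by
      rw [Real.norm_eq_abs, abs_of_pos (Real.exp_pos _), Real.exp_le_one_iff]
      have := mul_nonneg (mul_nonneg hc.le ha.le) (sq_nonneg (θ.1 + b / a * θ.2))
      have := mul_nonneg (mul_nonneg hc.le (div_nonneg hD.le ha.le)) (sq_nonneg θ.2)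
      linarith)
  have hni : IntegrableOn (fun θ => ‖chf P θ‖ ^ n) box :=
    Integrable.mono' (integrable_const 1) (continuous_chf.norm.pow n).aestronglyMeasurable
      (ae_of_all _ fun θ => by
        rw [Real.norm_eq_abs, abs_of_nonneg (by positivity)]
        exact pow_le_one₀ (norm_nonneg _) (norm_chf_le _))
  have hbox : volume.real box = 4 * π ^ 2 := by
    rw [Measure.real, volume_box, ENNReal.toReal_ofReal (by positivity)]
  have hroot : Real.sqrt (c * a * (c * (D / a))) = c * Real.sqrt D := by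
    rw [show c * a * (c * (D / a)) = c ^ 2 * D by field_simp, Real.sqrt_mul (sq_nonneg c),
      Real.sqrt_sq hc.le]
  have hI := setIntegral_mono_on hni (hEi.add (integrable_const K)) measurableSet_box hpt
  rw [integral_add' hEi (integrable_const K), setIntegral_const, smul_eq_mul, hbox] at hI
  have hG := integral_gauss_box (k := b / a) (mul_pos hc ha) (mul_pos hc (div_pos hD ha))
  rw [hroot] at hG
  have hsD : s ≤ Real.sqrt D := (Real.le_sqrt hspos.le hD.le).2 hdet
  have h2 : π / (c * Real.sqrt D) ≤ π / (c * s) :=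
    div_le_div_of_nonneg_left Real.pi_pos.le (by positivity) (mul_le_mul_of_nonneg_left hsD hc.le)
  have h3 : π / (c * s) * n = 2 * π ^ 2 * η := by simp only [c, s]; field_simp; ring
  have h4 := gn_le_integral (P := P) n t
  have h5 : gn P n t * (4 * π ^ 2) ≤ π / (c * s) + 4 * π ^ 2 * K := by linarith
  have h6 := mul_le_mul_of_nonneg_right h5 hn'.le
  have h7 := mul_le_mul_of_nonneg_left hn (show 0 ≤ 4 * π ^ 2 by positivity)
  refine le_of_mul_le_mul_left ?_ (show 0 < 4 * π ^ 2 by positivity)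
  linarith

/-- The real part of the characteristic function is at most one minus half the gap. -/
lemma re_chf_le (θ : ℝ × ℝ) : (chf P θ).re ≤ 1 - gap P θ / 2 := by
  have h1 := Complex.re_le_norm (chf P θ)
  have h2 := gap_eq (P := P) θ
  linarith [sq_nonneg (‖chf P θ‖ - 1)]

lemma norm_taylor (u : ℝ) :
    ‖Complex.exp (Complex.I * (u : ℂ)) - 1 - Complex.I * (u : ℂ)‖ ≤ 3 * u ^ 2 := by
  have hu : ‖Complex.I * (u : ℂ)‖ = |u| := by simp
  rcases le_or_gt |u| 1 with h | h
  · refine (Complex.norm_exp_sub_one_sub_id_le (hu.le.trans h)).trans ?_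
    rw [hu, sq_abs]
    linarith [sq_nonneg u]
  · refine (norm_sub_le _ _).trans (le_trans (add_le_add (norm_sub_le _ _) le_rfl) ?_)
    rw [Complex.norm_exp_I_mul_ofReal, norm_one, hu]
    have := mul_le_mul_of_nonneg_left h.le (abs_nonneg u)
    rw [← sq_abs u]
    linarith

lemma exists_chf_near_one (h : Integrable sq2 P) (h1 : ∫ x, (x.1 : ℝ) ∂P = 0)
    (h2 : ∫ x, (x.2 : ℝ) ∂P = 0) :
    ∃ B, 0 ≤ B ∧ ∀ θ, ‖1 - chf P θ‖ ≤ B * (θ.1 ^ 2 + θ.2 ^ 2) := by
  refine ⟨3 * ∫ x, sq2 x ∂P, mul_nonneg (by norm_num)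
    (integral_nonneg fun x => by simp only [sq2]; positivity), fun θ => ?_⟩
  have i1 : Integrable (fun x : Z2 => (x.1 : ℝ)) P :=
    Integrable.mono' (h.add (integrable_const 1)) (measurable_of_countable _).aestronglyMeasurable
      (ae_of_all _ fun x => by
        simp only [sq2, Pi.add_apply, Real.norm_eq_abs]
        linarith [sq_nonneg (|(x.1 : ℝ)| - 1), sq_abs (x.1 : ℝ), sq_nonneg (x.2 : ℝ),
          abs_nonneg (x.1 : ℝ)])
  have i2 : Integrable (fun x : Z2 => (x.2 : ℝ)) P :=
    Integrable.mono' (h.add (integrable_const 1)) (measurable_of_countable _).aestronglyMeasurable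
      (ae_of_all _ fun x => by
        simp only [sq2, Pi.add_apply, Real.norm_eq_abs]
        linarith [sq_nonneg (|(x.2 : ℝ)| - 1), sq_abs (x.2 : ℝ), sq_nonneg (x.1 : ℝ),
          abs_nonneg (x.2 : ℝ)])
  have ip : Integrable (fun x => pair θ x) P := (i1.const_mul _).add (i2.const_mul _)
  have hp : ∫ x, pair θ x ∂P = 0 := by
    simp only [pair]
    rw [integral_add (i1.const_mul _) (i2.const_mul _), integral_const_mul, integral_const_mul,
      h1, h2]
    ring
  have ie : Integrable (fun x => ee θ x - 1) P :=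
    Integrable.mono' (integrable_const 2) (measurable_of_countable _).aestronglyMeasurable
      (ae_of_all _ fun x => by
        refine (norm_sub_le _ _).trans (le_of_eq ?_)
        rw [norm_ee, norm_one]; norm_num)
  have ic : Integrable (fun x => Complex.I * ((pair θ x : ℝ) : ℂ)) P := ip.ofReal.const_mul _
  have hee : Integrable (fun x => ee θ x) P :=
    Integrable.mono' (integrable_const 1) (measurable_of_countable _).aestronglyMeasurable
      (ae_of_all _ fun x => (norm_ee θ x).le)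
  have e : chf P θ - 1 = ∫ x, (ee θ x - 1 - Complex.I * ((pair θ x : ℝ) : ℂ)) ∂P := by
    rw [integral_sub ie ic, integral_sub hee (integrable_const 1), integral_const_mul,
      integral_complex_ofReal, hp, chf]
    simp
  rw [norm_sub_rev, e]
  refine (norm_integral_le_integral_norm _).trans ?_
  rw [mul_assoc, ← integral_mul_const, ← integral_const_mul]
  refine integral_mono_of_nonneg (ae_of_all _ fun x => norm_nonneg _)
    ((h.mul_const _).const_mul 3) (ae_of_all _ fun x => (norm_taylor _).trans ?_)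
  simp only [sq2, pair]
  linarith [sq_nonneg (θ.1 * (x.2 : ℝ) - θ.2 * (x.1 : ℝ))]

/-- Finite second moment and mean zero make the walk recurrent. -/
theorem sum_gn_unbounded (hnd : Nd P) (h : Integrable sq2 P)
    (h1 : ∫ x, (x.1 : ℝ) ∂P = 0) (h2 : ∫ x, (x.2 : ℝ) ∂P = 0) :
    ∀ B : ℝ, ∃ N, B < ∑ n ∈ Finset.range N, gn P n 0 := by
  intro B₀
  obtain ⟨δ, hδ, hg⟩ := exists_gap_lower hnd
  obtain ⟨B, hB, hbd⟩ := exists_chf_near_one h h1 h2
  set L := 2 / π ^ 2 * δ
  have hL : 0 < L := by positivity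
  set κ := L / (32 * (1 + 2 * B) ^ 2)
  have hκ : 0 < κ := by positivity
  obtain ⟨K₀, hK₀⟩ := exists_nat_gt (4 * π ^ 2 * (|B₀| + 1) / κ)
  set K := K₀ + 1
  have hK : 4 * π ^ 2 * (|B₀| + 1) < K * κ := by
    rw [div_lt_iff₀ hκ] at hK₀
    simp only [K]; push_cast; linarith
  set q := ((1 : ℝ) / 4) ^ K
  have hq : 0 < q := by positivity
  have hq' : q ≤ 1 / 4 :=
    (pow_le_pow_of_le_one (by norm_num : (0 : ℝ) ≤ 1 / 4) (by norm_num)
      (show 1 ≤ K by omega)).trans_eq (pow_one _)
  set r := 1 - q with hr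
  have hr0 : 0 ≤ r := by linarith
  obtain ⟨N, hN⟩ := exists_pow_lt_of_lt_one hq (show r < 1 by linarith)
  refine ⟨N, ?_⟩
  set z : ℝ × ℝ → ℂ := fun θ => 1 - (r : ℂ) * chf P θ with hz
  have hzre : ∀ θ, q ≤ (z θ).re := fun θ => by
    simp only [hz, Complex.sub_re, Complex.one_re, Complex.mul_re, Complex.ofReal_re,
      Complex.ofReal_im, zero_mul, sub_zero]
    have := mul_le_mul_of_nonneg_left ((Complex.re_le_norm _).trans (norm_chf_le (P := P) θ)) hr0
    linarith
  have hz0 : ∀ θ, z θ ≠ 0 := fun θ hzero => by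
    have := hzre θ
    rw [hzero] at this
    simp at this
    linarith
  have hcz : Continuous z := continuous_const.sub (continuous_const.mul continuous_chf)
  have hcinv : Continuous fun θ => ((z θ)⁻¹).re :=
    Complex.continuous_re.comp (hcz.inv₀ hz0)
  have hzn : ∀ θ, q ≤ ‖z θ‖ := fun θ => (hzre θ).trans (Complex.re_le_norm _)
  have hinvnn : ∀ θ, 0 ≤ ((z θ)⁻¹).re := fun θ => by
    rw [Complex.inv_re]; exact div_nonneg (hq.le.trans (hzre θ)) (Complex.normSq_nonneg _)
  have hfi : IntegrableOn (fun θ => ((z θ)⁻¹).re) box :=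
    Integrable.mono' (integrable_const q⁻¹) hcinv.aestronglyMeasurable (ae_of_all _ fun θ => by
      refine (Complex.abs_re_le_norm _).trans ?_
      rw [norm_inv]
      exact inv_anti₀ hq (hzn θ))
  -- the generating function near the origin
  set u : ℕ → ℝ := fun j => ((1 : ℝ) / 2) ^ (j + 1)
  set Q : ℕ → Set (ℝ × ℝ) := fun j => Set.Ioc (u j / 2) (u j) ×ˢ Set.Ioc 0 (u j)
  have hu : ∀ j, 0 < u j := fun j => by positivity
  have hu1 : ∀ j, u j ≤ 1 := fun j => pow_le_one₀ (by norm_num) (by norm_num)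
  have hQbox : ∀ j, Q j ⊆ box := fun j θ hθ => by
    have := hu j; have := hu1 j; have := Real.two_le_pi
    exact ⟨⟨by linarith [hθ.1.1], by linarith [hθ.1.2]⟩, ⟨by linarith [hθ.2.1], by linarith [hθ.2.2]⟩⟩
  have hQm : ∀ j, MeasurableSet (Q j) := fun j => measurableSet_Ioc.prod measurableSet_Ioc
  have hQd : Set.PairwiseDisjoint ((Finset.range K : Finset ℕ) : Set ℕ) Q := by
    intro i _ j _ hij
    wlog hlt : i < j generalizing i j
    · exact (this ‹_› ‹_› hij.symm (by omega)).symm
    refine Set.disjoint_left.2 fun θ hi hj => ?_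
    have : u j ≤ u i / 2 := by
      rw [show u i / 2 = ((1 : ℝ) / 2) ^ (i + 2) by simp only [u, pow_succ]; ring]
      exact pow_le_pow_of_le_one (by norm_num) (by norm_num) (by omega)
    linarith [hi.1.1, hj.1.2]
  have hcell : ∀ j < K, κ ≤ ∫ θ in Q j, ((z θ)⁻¹).re := by
    intro j hj
    have hvol : volume.real (Q j) = u j ^ 2 / 2 := by
      simp only [Q]
      rw [Measure.real, Measure.volume_eq_prod, Measure.prod_prod, Real.volume_Ioc, Real.volume_Ioc,
        ← ENNReal.ofReal_mul (by linarith [hu j]), ENNReal.toReal_ofReal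
          (mul_nonneg (by linarith [hu j]) (by linarith [hu j]))]
      ring
    have hconst : ∀ θ ∈ Q j, L / (16 * ((1 + 2 * B) ^ 2 * u j ^ 2)) ≤ ((z θ)⁻¹).re := by
      intro θ hθ
      have hq2 : q ≤ u j ^ 2 := by
        rw [show u j ^ 2 = ((1 : ℝ) / 4) ^ (j + 1) by
          simp only [u]; rw [← pow_mul, mul_comm (j + 1) 2, pow_mul]; norm_num]
        exact pow_le_pow_of_le_one (by norm_num) (by norm_num) (by omega)
      have a1 := pow_le_pow_left₀ (by linarith [hu j]) hθ.1.1.le 2
      have a2 := pow_le_pow_left₀ (by linarith [hu j, hθ.1.1]) hθ.1.2 2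
      have a3 := pow_le_pow_left₀ hθ.2.1.le hθ.2.2 2
      have hlo : u j ^ 2 / 4 ≤ θ.1 ^ 2 + θ.2 ^ 2 := by linarith [sq_nonneg θ.2]
      have hre : L * u j ^ 2 / 16 ≤ (z θ).re := by
        simp only [hz, Complex.sub_re, Complex.one_re, Complex.mul_re, Complex.ofReal_re,
          Complex.ofReal_im, zero_mul, sub_zero]
        have b1 := mul_le_mul_of_nonneg_left hlo hL.le
        have b2 := mul_le_mul_of_nonneg_left
          (show L * u j ^ 2 / 8 ≤ 1 - (chf P θ).re by
            linarith [re_chf_le (P := P) θ, hg θ (hQbox j hθ)]) hr0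
        have b3 := mul_le_mul_of_nonneg_right (show (1 : ℝ) / 2 ≤ r by linarith)
          (show 0 ≤ L * u j ^ 2 / 8 by positivity)
        linarith
      have hno : ‖z θ‖ ≤ (1 + 2 * B) * u j ^ 2 := by
        have e : z θ = ((q : ℝ) : ℂ) + (r : ℂ) * (1 - chf P θ) := by
          simp only [hz, hr]; push_cast; ring
        rw [e]
        refine (norm_add_le _ _).trans ?_
        rw [norm_mul, Complex.norm_real, Complex.norm_real, Real.norm_eq_abs, Real.norm_eq_abs,
          abs_of_pos hq, abs_of_nonneg hr0]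
        have c1 := mul_le_mul (show r ≤ 1 by linarith) (hbd θ) (norm_nonneg _) zero_le_one
        have c2 := mul_le_mul_of_nonneg_left (show θ.1 ^ 2 + θ.2 ^ 2 ≤ 2 * u j ^ 2 by linarith) hB
        linarith
      rw [Complex.inv_re, Complex.normSq_eq_norm_sq]
      have hpos : 0 < ‖z θ‖ := hq.trans_le (hzn θ)
      refine le_trans (le_of_eq ?_) (div_le_div₀ ((hq.le.trans (hzre θ))) hre (by positivity)
        (pow_le_pow_left₀ hpos.le hno 2))
      have := hu j
      field_simp
    refine le_trans (le_of_eq ?_) (setIntegral_ge_of_const_le_real (hQm j)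
      (ne_top_of_le_ne_top volume_box_lt.ne (measure_mono (hQbox j))) hconst
      (hfi.mono_set (hQbox j)))
    have := hu j
    rw [hvol]; simp only [κ]; field_simp; ring
  have hlower : (K : ℝ) * κ ≤ ∫ θ in box, ((z θ)⁻¹).re := by
    calc (K : ℝ) * κ = ∑ _j ∈ Finset.range K, κ := by simp
      _ ≤ ∑ j ∈ Finset.range K, ∫ θ in Q j, ((z θ)⁻¹).re :=
          Finset.sum_le_sum fun j hj => hcell j (Finset.mem_range.1 hj)
      _ = ∫ θ in ⋃ j ∈ Finset.range K, Q j, ((z θ)⁻¹).re :=
          (integral_biUnion_finset _ (fun j _ => hQm j) hQd fun j _ => hfi.mono_set (hQbox j)).symm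
      _ ≤ _ := setIntegral_mono_set hfi (ae_of_all _ hinvnn)
          (ae_of_all _ (Set.iUnion₂_subset fun j _ => hQbox j))
  -- the finite sums
  have hterm : ∀ n, gn P n 0 * (4 * π ^ 2) = ∫ θ in box, (chf P θ ^ n).re := by
    intro n
    have e := congrArg Complex.re (chf_pow_integral (P := P) n 0)
    simp only [neg_zero, ee_zero, mul_one] at e
    rw [show (gn P n 0 : ℂ) * (4 * (π : ℂ) ^ 2) = ((gn P n 0 * (4 * π ^ 2) : ℝ) : ℂ) by
      push_cast; ring, Complex.ofReal_re, ← RCLike.re_eq_complex_re, ← integral_re] at e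
    · simpa using e
    · exact integrableOn_box (continuous_chf.pow n) (C := 1) fun θ => by
        simp only [norm_pow]; exact pow_le_one₀ (norm_nonneg _) (norm_chf_le _)
  have hpre : ∀ n, IntegrableOn (fun θ => r ^ n * (chf P θ ^ n).re) box := fun n =>
    (Integrable.mono' (integrable_const 1)
      (Complex.continuous_re.comp (continuous_chf.pow n)).aestronglyMeasurable
      (ae_of_all _ fun θ => (Complex.abs_re_le_norm _).trans (by
        simp only [Pi.pow_apply, norm_pow]; exact pow_le_one₀ (norm_nonneg _) (norm_chf_le _)))).const_mul (r ^ n)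
  have hsum : ∫ θ in box, ∑ n ∈ Finset.range N, r ^ n * (chf P θ ^ n).re ≤
      (∑ n ∈ Finset.range N, gn P n 0) * (4 * π ^ 2) := by
    rw [integral_finsetSum _ fun n _ => hpre n, Finset.sum_mul]
    refine Finset.sum_le_sum fun n _ => ?_
    rw [integral_const_mul, ← hterm]
    exact mul_le_of_le_one_left (mul_nonneg (gn_nonneg n 0) (by positivity))
      (pow_le_one₀ hr0 (by linarith))
  have hpt : ∀ θ, ((z θ)⁻¹).re - 1 ≤ ∑ n ∈ Finset.range N, r ^ n * (chf P θ ^ n).re := by
    intro θ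
    have e : ∑ n ∈ Finset.range N, r ^ n * (chf P θ ^ n).re =
        (∑ n ∈ Finset.range N, ((r : ℂ) * chf P θ) ^ n).re := by
      rw [Complex.re_sum]
      refine Finset.sum_congr rfl fun n _ => ?_
      rw [mul_pow, ← Complex.ofReal_pow, Complex.re_ofReal_mul]
    have g : ∑ n ∈ Finset.range N, ((r : ℂ) * chf P θ) ^ n =
        (z θ)⁻¹ - ((r : ℂ) * chf P θ) ^ N * (z θ)⁻¹ := by
      rw [← one_sub_mul, eq_mul_inv_iff_mul_eq₀ (hz0 θ)]
      exact geom_sum_mul_neg _ _
    rw [e, g, Complex.sub_re]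
    have : (((r : ℂ) * chf P θ) ^ N * (z θ)⁻¹).re ≤ 1 := by
      refine (Complex.re_le_norm _).trans ?_
      rw [norm_mul, norm_pow, norm_inv, norm_mul, Complex.norm_real, Real.norm_eq_abs,
        abs_of_nonneg hr0, ← div_eq_mul_inv, div_le_one (hq.trans_le (hzn θ))]
      exact ((pow_le_pow_left₀ (by positivity)
        (mul_le_of_le_one_right hr0 (norm_chf_le θ)) N).trans hN.le).trans (hzn θ)
    linarith
  have hbox : volume.real box = 4 * π ^ 2 := by
    rw [Measure.real, volume_box, ENNReal.toReal_ofReal (by positivity)]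
  have h3 := (integral_mono (hfi.sub (integrable_const 1))
    (integrable_finsetSum _ fun n _ => hpre n) hpt).trans hsum
  rw [integral_sub' hfi (integrable_const 1), setIntegral_const, smul_eq_mul, mul_one, hbox] at h3
  refine lt_of_mul_lt_mul_right ?_ (show (0 : ℝ) ≤ 4 * π ^ 2 by positivity)
  have := mul_le_mul_of_nonneg_right (le_abs_self B₀) (show (0 : ℝ) ≤ 4 * π ^ 2 by positivity)
  linarith

end Vale.Agent.P147.Planar.Four
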