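import Vale.Agent.P147.Planar.Axis
import Vale.Agent.P147.Switch

/-!
P147: the blocks of two walks escaping along one axis with finite mean block times form a pairing,
and the switch bounds the sum of their chances of not meeting.
-/

open MeasureTheory Filter
open scoped ENNReal Topology

noncomputable section

namespace Vale.Agent.P147.Planar

variable {d : ℕ} [NeZero d] {μ : Measure (Step d → ℝ)} {δ : Step d} {j₁ j₂ : Fin d}

/-- What is known of one side: regeneration with a finite mean block time. -/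
structure Side (μ : Measure (Step d → ℝ)) (δ : Step d) : Prop where
  regen : Dir.Regen μ (ax δ)
  time : ∫⁻ η, (Dir.tau (ax δ) η : ℝ≥0∞) ∂Dir.fwdLaw μ (ax δ) ≠ ∞

omit [NeZero d] in
lemma level_blks {K : Kind (Blk d)}
    (hd : ∀ η, K.depth (blk (ax δ) η) = (hgt δ η (Dir.tau (ax δ) η)).toNat) {η : ℕ → Step d}
    (hb : ∀ k, ∃ t, Dir.RegT (ax δ) ((Dir.next (ax δ))^[k] η) t) (i : ℕ) :
    (K.level (blks (ax δ) η) i : ℤ) = hgt δ η (Dir.ctime (ax δ) i η) := by
  induction i with
  | zero => simp [Kind.level, Dir.ctime]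
  | succ i ih =>
    rw [Kind.level, Finset.sum_range_succ]
    push_cast
    have h1 := (cand_ax.mp (Dir.tau_spec (hb i)).1).1
    rw [show (∑ r ∈ Finset.range i, (K.depth (blks (ax δ) η r) : ℤ)) = (K.level (blks (ax δ) η) i : ℤ)
      from by simp [Kind.level], ih, blks, hd, Int.toNat_of_nonneg (by omega), Dir.ctime_succ,
      hgt_add, ← Dir.next_iterate]

lemma dense_of (hμ : Elliptic μ) (hR : Dir.Regen μ (ax δ)) {K : Kind (Blk d)}
    (hlaw : K.law = (Dir.fwdLaw μ (ax δ)).map (blk (ax δ)))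
    (hd : ∀ η, K.depth (blk (ax δ) η) = (hgt δ η (Dir.tau (ax δ) η)).toNat) :
    ∃ c : ℝ≥0∞, c ≠ 0 ∧ ∀ h : ℕ, c ≤ K.stream {A | ∃ i, K.level A i = h} := by
  have := hR.prob
  have := isProbability_blk hR
  have := isProbabilityMeasure_nu hμ
  refine ⟨nu μ (Dir.Fwd (ax δ)), hR.pos.ne', fun h => ?_⟩
  rcases Nat.eq_zero_or_pos h with rfl | h1
  · have hu : {A : ℕ → Blk d | ∃ i, K.level A i = 0} = Set.univ :=
      Set.eq_univ_of_forall fun A => ⟨0, by simp [Kind.level]⟩
    have : IsProbabilityMeasure K.stream := by rw [Kind.stream, hlaw]; infer_instance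
    rw [hu, measure_univ]
    exact prob_le_one
  · rw [Kind.stream, hlaw, ← map_blks hR]
    refine le_trans ((regen_at hμ hR h h1).trans (measure_mono_ae ?_))
      (Measure.le_map_apply (measurable_blks hR).aemeasurable _)
    filter_upwards [hR.exists_regT] with η hη hp
    obtain ⟨p, hp1, hp2⟩ := hp
    obtain ⟨k, rfl⟩ := cand_mem hη.2 hp2
    refine ⟨k, ?_⟩
    have := level_blks hd hη.2 k
    omega

lemma goodX (hμ : Elliptic μ) (h : Side μ δ) : (kindX μ δ j₁ j₂).Good := by
  have hR := h.regen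
  have := hR.prob
  refine ⟨isProbability_blk hR, ae_law hR ?_, ae_law hR ?_, ae_law hR ?_, ?_, ?_, ?_,
    dense_of hμ hR rfl depth_blk⟩
  · filter_upwards [ae_blk hR] with η hη
    rw [depth_blk]
    have := (cand_ax.mp hη.2.1).1
    omega
  · filter_upwards with η
    exact mem_sitesX.mpr ⟨_, le_rfl, by simp [pr_zero]⟩
  · filter_upwards [ae_blk hR] with η hη y hy
    obtain ⟨s, hs, rfl⟩ := mem_sitesX.mp hy
    rw [depth_blk]
    have := fwd_ax δ hη.1 s
    simp only
    omega
  · refine ne_top_of_le_ne_top h.time ?_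
    rw [show (kindX μ δ j₁ j₂).law = (Dir.fwdLaw μ (ax δ)).map (blk (ax δ)) from rfl, lintegral_law hR]
    refine lintegral_mono fun η => Nat.cast_le.mpr ?_
    rw [depth_blk]
    have := hgt_le δ η (Dir.tau (ax δ) η)
    omega
  · refine ne_top_of_le_ne_top (ENNReal.mul_ne_top ENNReal.ofNat_ne_top h.time : 2 * _ ≠ ∞) ?_
    rw [show (kindX μ δ j₁ j₂).law = (Dir.fwdLaw μ (ax δ)).map (blk (ax δ)) from rfl, lintegral_law hR,
      ← lintegral_const_mul' 2 _ ENNReal.ofNat_ne_top]
    refine lintegral_mono fun η => ?_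
    rw [disp_blk]
    have : len (-pr j₁ j₂ (pos η (Dir.tau (ax δ) η))) ≤ 2 * Dir.tau (ax δ) η := by
      have := len_pos (j₁ := j₁) (j₂ := j₂) η (Dir.tau (ax δ) η)
      simpa [len] using this
    exact le_trans (Nat.cast_le.mpr this) (le_of_eq (by push_cast; rfl))
  · refine ne_top_of_le_ne_top (ENNReal.add_ne_top.mpr ⟨h.time, ENNReal.one_ne_top⟩ :
      (_ : ℝ≥0∞) + 1 ≠ ∞) ?_
    rw [show (kindX μ δ j₁ j₂).law = (Dir.fwdLaw μ (ax δ)).map (blk (ax δ)) from rfl, lintegral_law hR]
    refine le_trans (lintegral_mono (g := fun η => (Dir.tau (ax δ) η : ℝ≥0∞) + 1) fun η => ?_)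
      (le_of_eq (by rw [lintegral_add_right _ measurable_const, lintegral_const, measure_univ, mul_one]))
    have : ((kindX μ δ j₁ j₂).sites (blk (ax δ) η)).card ≤ Dir.tau (ax δ) η + 1 := by
      simp only [kindX]
      exact Finset.card_image_le.trans (by simp [blen_blk])
    exact le_trans (Nat.cast_le.mpr this) (le_of_eq (by push_cast; rfl))

lemma goodY (hμ : Elliptic μ) (h : Side μ (opp δ)) : (kindY μ δ j₁ j₂).Good := by
  have hR := h.regen
  have := hR.prob
  refine ⟨isProbability_blk hR, ae_law hR ?_, ae_law hR ?_, ae_law hR ?_, ?_, ?_, ?_,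
    dense_of hμ hR rfl depthY_blk⟩
  · filter_upwards [ae_blk hR] with η hη
    rw [depthY_blk]
    have := (cand_ax.mp hη.2.1).1
    omega
  · filter_upwards with η
    exact mem_sitesY.mpr ⟨0, Nat.zero_le _, by simp [pr_zero, pos]⟩
  · filter_upwards [ae_blk hR] with η hη y hy
    obtain ⟨s, hs, rfl⟩ := mem_sitesY.mp hy
    rw [depthY_blk]
    simp only
    rcases hs.eq_or_lt with rfl | hlt
    · exact le_rfl
    · have := (cand_ax.mp hη.2.1).2 s hlt
      omega
  · refine ne_top_of_le_ne_top h.time ?_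
    rw [show (kindY μ δ j₁ j₂).law = (Dir.fwdLaw μ (ax (opp δ))).map (blk (ax (opp δ))) from rfl,
      lintegral_law hR]
    refine lintegral_mono fun η => Nat.cast_le.mpr ?_
    rw [depthY_blk]
    have := hgt_le (opp δ) η (Dir.tau (ax (opp δ)) η)
    omega
  · refine ne_top_of_le_ne_top (ENNReal.mul_ne_top ENNReal.ofNat_ne_top h.time : 2 * _ ≠ ∞) ?_
    rw [show (kindY μ δ j₁ j₂).law = (Dir.fwdLaw μ (ax (opp δ))).map (blk (ax (opp δ))) from rfl,
      lintegral_law hR, ← lintegral_const_mul' 2 _ ENNReal.ofNat_ne_top]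
    refine lintegral_mono fun η => ?_
    rw [dispY_blk]
    exact le_trans (Nat.cast_le.mpr (len_pos η _)) (le_of_eq (by push_cast; rfl))
  · refine ne_top_of_le_ne_top (ENNReal.add_ne_top.mpr ⟨h.time, ENNReal.one_ne_top⟩ :
      (_ : ℝ≥0∞) + 1 ≠ ∞) ?_
    rw [show (kindY μ δ j₁ j₂).law = (Dir.fwdLaw μ (ax (opp δ))).map (blk (ax (opp δ))) from rfl,
      lintegral_law hR]
    refine le_trans (lintegral_mono (g := fun η => (Dir.tau (ax (opp δ)) η : ℝ≥0∞) + 1) fun η => ?_)
      (le_of_eq (by rw [lintegral_add_right _ measurable_const, lintegral_const, measure_univ, mul_one]))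
    have : ((kindY μ δ j₁ j₂).sites (blk (ax (opp δ)) η)).card ≤ Dir.tau (ax (opp δ)) η + 1 := by
      simp only [kindY]
      exact Finset.card_image_le.trans (by simp [blen_blk])
    exact le_trans (Nat.cast_le.mpr this) (le_of_eq (by push_cast; rfl))

lemma slope_blk (h : Side μ δ) {v : Fin d → ℝ} (hv : Dir.HasDir μ (ax δ) v) (i : Fin d) :
    (∫ η, (pos η (Dir.tau (ax δ) η) i : ℝ) ∂Dir.fwdLaw μ (ax δ)) =
      v i * ∫ η, Dir.blkH (ax δ) η ∂Dir.fwdLaw μ (ax δ) := by
  have hR := h.regen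
  have := hR.prob
  have hd : Integrable (Dir.disp (ax δ) i) (Dir.fwdLaw μ (ax δ)) := by
    have hT : Integrable (fun η => (Dir.tau (ax δ) η : ℝ)) (Dir.fwdLaw μ (ax δ)) := by
      refine ⟨((measurable_of_countable fun n : ℕ => (n : ℝ)).comp hR.measurable_tau).aestronglyMeasurable, ?_⟩
      rw [hasFiniteIntegral_iff_ofReal (Eventually.of_forall fun η => Nat.cast_nonneg _)]
      simpa using lt_top_iff_ne_top.mpr h.time
    refine hT.mono' (Dir.measurable_disp hR.measurable_tau i).aestronglyMeasurable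
      (Eventually.of_forall fun η => ?_)
    have : ∀ n, (pos η n i).natAbs ≤ n := fun n => by
      induction n with
      | zero => simp [pos]
      | succ n ih =>
        simp only [pos, Pi.add_apply]
        have h1 : (vec (η n) i).natAbs ≤ 1 := by
          rcases eq_or_ne i (η n).1 with rfl | hne
          · simp [vec]; split <;> simp
          · simp [vec, Pi.single_eq_of_ne hne]
        have := Int.natAbs_add_le (pos η n i) (vec (η n) i)
        omega
    rw [Real.norm_eq_abs, Dir.disp, ← Int.cast_abs, ← Nat.cast_natAbs]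
    exact_mod_cast this _
  have hae : ∀ᵐ η ∂Dir.fwdLaw μ (ax δ), η ∈ Dir.Escape (ax δ) → ∀ i,
      Tendsto (fun n => (pos η n i : ℝ) / Dir.lh (ax δ) η n) atTop (𝓝 (v i)) :=
    Measure.ae_smul_measure (ae_restrict_of_ae hv.2) _
  obtain ⟨η, hb, hH, hX, hdir⟩ := (hR.blocks.and ((hR.slln (Dir.measurable_blkH hR.measurable_tau)
    Dir.blockFun_blkH hR.integrable_blkH).and ((hR.slln (Dir.measurable_disp hR.measurable_tau i)
      (Dir.blockFun_disp i) hd).and hae))).exists
  have hbk : ∀ k, ∃ t, Dir.RegT (ax δ) ((Dir.next (ax δ))^[k] η) t := fun k => (hb k).2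
  have h1 := (hdir (by simpa using (hb 0).1.2) i).comp (Dir.ctime_strictMono hbk).tendsto_atTop
  have h2 := h1.mul hH
  refine tendsto_nhds_unique hX ((h2.congr' ?_))
  filter_upwards [eventually_gt_atTop 0] with k hk
  have h0 := Dir.le_lh_ctime hbk k
  have hk' : (0 : ℝ) < k := by exact_mod_cast hk
  simp only [Function.comp_apply, ← Dir.lh_ctime_eq, ← Dir.coord_ctime_eq]
  have : (0 : ℝ) < Dir.lh (ax δ) η (Dir.ctime (ax δ) k η) := lt_of_lt_of_le hk' h0
  field_simp

/-- The block with the given steps. -/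
def mk (n : ℕ) (ρ : ℕ → Step d) : Blk d := List.ofFn fun i : Fin n => ρ i

lemma pairing (hμ : Elliptic μ) (hX : Side μ δ) (hY : Side μ (opp δ)) (h1 : j₁ ≠ δ.1)
    (h2 : j₂ ≠ δ.1) (h12 : j₁ ≠ j₂) {v : Fin d → ℝ} (hv : Dir.HasDir μ (ax δ) v)
    (hv' : Dir.HasDir μ (ax (opp δ)) (-v)) :
    Pairing (kindX μ δ j₁ j₂) (kindY μ δ j₁ j₂) := by
  have hδ1 : ∀ j : Fin d, j ≠ δ.1 → vec δ j = 0 := fun j hj => by simp [vec, Pi.single_eq_of_ne hj]
  have hδ2 : ∀ j : Fin d, j ≠ δ.1 → vec (opp δ) j = 0 := fun j hj => by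
    simp [vec, opp, Pi.single_eq_of_ne hj]
  have hlawY : ∀ (n : ℕ) (ρ : ℕ → Step d), 1 ≤ hgt (opp δ) ρ n →
      (∀ s < n, 0 ≤ hgt (opp δ) ρ s ∧ hgt (opp δ) ρ s < 1) →
      (kindY μ δ j₁ j₂).law {mk n ρ} ≠ 0 := fun n ρ ha hb => by
    rw [show (kindY μ δ j₁ j₂).law = (Dir.fwdLaw μ (ax (opp δ))).map (blk (ax (opp δ))) from rfl,
      Measure.map_apply (measurable_blk hY.regen.measurable_tau) MeasurableSet.of_discrete]
    exact blk_pos hμ hY.regen n ρ ha hb
  have hb : ∀ (n : ℕ) (ρ : ℕ → Step d) (s : ℕ), s ≤ n →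
      bpos δ (mk n ρ) s = pos ρ s := fun n ρ s hs =>
    pos_congr fun t ht' => by
      have h : t < List.length (List.ofFn fun i : Fin n => ρ i) := by rw [List.length_ofFn]; omega
      show List.getD (List.ofFn fun i : Fin n => ρ i) t δ = ρ t
      rw [List.getD_eq_getElem _ _ h, List.getElem_ofFn]
  have hlen : ∀ (n : ℕ) (ρ : ℕ → Step d),
      blen (mk n ρ) = n := fun n ρ => List.length_ofFn
  refine ⟨goodX hμ hX, goodY hμ hY, ?_, ?_, ?_, ?_, ?_⟩
  · refine ⟨mk 1 (fun _ => δ), ?_, ?_, ?_, ?_⟩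
    · rw [show (kindX μ δ j₁ j₂).law = (Dir.fwdLaw μ (ax δ)).map (blk (ax δ)) from rfl,
        Measure.map_apply (measurable_blk hX.regen.measurable_tau) MeasurableSet.of_discrete]
      exact blk_pos hμ hX.regen 1 (fun _ => δ) (by simp [hgt, pos, ht_vec_self])
        (fun s hs => by obtain rfl : s = 0 := by omega
                        simp)
    · simp only [kindX, hlen, hb 1 (fun _ => δ) 1 le_rfl]
      simp [pos, ht_vec_self]
    · simp only [kindX, hlen, hb 1 (fun _ => δ) 1 le_rfl]
      simp [pos, pr, hδ1 j₁ h1, hδ1 j₂ h2]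
    · intro y hy hy1
      simp only [kindX, hlen, Finset.mem_image, Finset.mem_range] at hy
      obtain ⟨s, hs, rfl⟩ := hy
      rw [hb 1 (fun _ => δ) 1 le_rfl, hb 1 (fun _ => δ) s (by omega)] at hy1 ⊢
      interval_cases s
      · simp [pos, pr, hδ1 j₁ h1, hδ1 j₂ h2]
      · simp at hy1
  · refine ae_law hY.regen ?_
    filter_upwards [ae_blk hY.regen] with η hη y hy hy1
    obtain ⟨s, hs, rfl⟩ := mem_sitesY.mp hy
    rw [depthY_blk] at hy1
    rw [dispY_blk]
    simp only at hy1 ⊢
    rcases hs.eq_or_lt with rfl | hlt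
    · rfl
    · have := (cand_ax.mp hη.2.1).2 s hlt
      have := fwd_ax (opp δ) hη.1 s
      omega
  · intro u hu
    simp only [Finset.mem_insert, Finset.mem_singleton] at hu
    have key : ∀ j : Fin d, j ≠ δ.1 → ∃ b : Blk d, (kindY μ δ j₁ j₂).law {b} ≠ 0 ∧
        (kindY μ δ j₁ j₂).depth b = 1 ∧
        (kindY μ δ j₁ j₂).disp b = pr j₁ j₂ (vec ((j, false) : Step d)) := fun j hj => by
      set ρ : ℕ → Step d := fun t => if t = 0 then (j, false) else opp δ with hρ
      have e1 : hgt (opp δ) ρ 1 = 0 := by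
        simp [hgt, pos, hρ, ht_vec_lat (δ := opp δ) (e := (j, false)) (by simpa [opp] using hj)]
      have e2 : hgt (opp δ) ρ 2 = 1 := by
        rw [hgt_succ, e1]; simp [hρ, ht_vec_self]
      refine ⟨mk 2 ρ, hlawY 2 ρ (by rw [e2]) (fun s hs => ?_),
        ?_, ?_⟩
      · interval_cases s
        · simp
        · simp [e1]
      · simp only [kindY, hlen, hb 2 ρ 2 le_rfl]
        rw [show ht (opp δ) (pos ρ 2) = hgt (opp δ) ρ 2 from rfl, e2]
        rfl
      · simp only [kindY, hlen, hb 2 ρ 2 le_rfl]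
        simp [pos, hρ, pr, hδ2 j₁ h1, hδ2 j₂ h2]
    rcases hu with rfl | rfl | rfl
    · refine ⟨mk 1 (fun _ => opp δ),
        hlawY 1 (fun _ => opp δ) (by simp [hgt, pos, ht_vec_self]) (fun s hs => by
          obtain rfl : s = 0 := by omega
          simp), ?_, ?_⟩
      · simp only [kindY, hlen, hb 1 (fun _ => opp δ) 1 le_rfl]
        simp [pos, ht_vec_self]
      · simp only [kindY, hlen, hb 1 (fun _ => opp δ) 1 le_rfl]
        simp [pos, pr, hδ2 j₁ h1, hδ2 j₂ h2]
    · obtain ⟨b, hb1, hb2, hb3⟩ := key j₁ h1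
      exact ⟨b, hb1, hb2, by rw [hb3]; simp [pr, vec, Pi.single_eq_of_ne h12.symm]⟩
    · obtain ⟨b, hb1, hb2, hb3⟩ := key j₂ h2
      exact ⟨b, hb1, hb2, by rw [hb3]; simp [pr, vec, Pi.single_eq_of_ne h12]⟩
  all_goals
    have mX := measurable_blk hX.regen.measurable_tau
    have mY := measurable_blk hY.regen.measurable_tau
    rw [show (kindX μ δ j₁ j₂).law = (Dir.fwdLaw μ (ax δ)).map (blk (ax δ)) from rfl,
      show (kindY μ δ j₁ j₂).law = (Dir.fwdLaw μ (ax (opp δ))).map (blk (ax (opp δ))) from rfl,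
      integral_map mX.aemeasurable (AEStronglyMeasurable.of_discrete),
      integral_map mY.aemeasurable (AEStronglyMeasurable.of_discrete),
      integral_map mY.aemeasurable (AEStronglyMeasurable.of_discrete),
      integral_map mX.aemeasurable (AEStronglyMeasurable.of_discrete)]
    simp only [disp_blk, dispY_blk, depth_blk, depthY_blk]
    have hdX : (∫ η, ((hgt δ η (Dir.tau (ax δ) η)).toNat : ℝ) ∂Dir.fwdLaw μ (ax δ))
        = ∫ η, Dir.blkH (ax δ) η ∂Dir.fwdLaw μ (ax δ) := integral_congr_ae <| by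
      filter_upwards [ae_blk hX.regen] with η hη
      rw [blkH_eq]
      have := (cand_ax.mp hη.2.1).1
      exact_mod_cast Int.toNat_of_nonneg (by omega)
    have hdY : (∫ η, ((hgt (opp δ) η (Dir.tau (ax (opp δ)) η)).toNat : ℝ)
          ∂Dir.fwdLaw μ (ax (opp δ)))
        = ∫ η, Dir.blkH (ax (opp δ)) η ∂Dir.fwdLaw μ (ax (opp δ)) := integral_congr_ae <| by
      filter_upwards [ae_blk hY.regen] with η hη
      rw [blkH_eq]
      have := (cand_ax.mp hη.2.1).1
      exact_mod_cast Int.toNat_of_nonneg (by omega)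
    simp only [pr, Prod.neg_mk, Int.cast_neg, integral_neg, hdX, hdY,
      slope_blk hX hv, slope_blk hY hv', Pi.neg_apply]
    ring

/-- The order reversing the first `N` indices. -/
def rev (N : ℕ) : Equiv.Perm ℕ :=
  Function.Involutive.toPerm (fun i => if i < N then N - 1 - i else i) fun i => by
    by_cases h : i < N
    · simp only [h, if_true, if_pos (show N - 1 - i < N by omega)]; omega
    · simp [h]

lemma measurableSet_noMeet {BX BY : Type} [MeasurableSpace BX] [DiscreteMeasurableSpace BX]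
    [Countable BX] [MeasurableSpace BY] [DiscreteMeasurableSpace BY] [Countable BY]
    (X : Kind BX) (Y : Kind BY) (N : ℕ) (v : Z2) :
    MeasurableSet {q : (ℕ → BX) × (ℕ → BY) | NoMeet X Y N v q.1 q.2} := by
  classical
  have hu : ∀ {B : Type} [MeasurableSpace B] [DiscreteMeasurableSpace B] [Countable B]
      (K : Kind B) (i : ℕ) (z : ℕ × Z2), MeasurableSet {A : ℕ → B | K.Uses A i z} := by
    intro B _ _ _ K i z
    have hm : Measurable fun A : ℕ → B => (A i, K.level A i, K.shiftAt A i) :=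
      (measurable_pi_apply i).prodMk ((Finset.measurable_sum _ fun r _ =>
        Measurable.of_discrete.comp (measurable_pi_apply r)).prodMk
          (Finset.measurable_sum _ fun r _ =>
            (Measurable.of_discrete (f := K.disp)).comp (measurable_pi_apply r)))
    exact hm (t := {r : B × ℕ × Z2 | ∃ y ∈ K.sites r.1, z = (r.2.1 + y.1, r.2.2 + y.2)})
      (Set.to_countable _).measurableSet
  have : {q : (ℕ → BX) × (ℕ → BY) | NoMeet X Y N v q.1 q.2} = ⋂ i, ⋂ (_ : i < N), ⋂ k,
      ⋂ z : ℕ × Z2, ⋂ w : ℕ × Z2, ⋂ (_ : z.1 = w.1 ∧ z.2 + v = w.2),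
        ((Prod.fst ⁻¹' {A | X.Uses A i z}) ∩ (Prod.snd ⁻¹' {B | Y.Uses B k w}))ᶜ := by
    ext q
    simp only [NoMeet, Set.mem_iInter, Set.mem_compl_iff, Set.mem_inter_iff, Set.mem_preimage,
      Set.mem_ofPred_eq, not_and]
    exact ⟨fun h i hi k z w hzw hz hw => h i hi k z w hz hw hzw.1 hzw.2,
      fun h i hi k z w hz hw h1 h2 => h i hi k z w ⟨h1, h2⟩ hz hw⟩
  rw [this]
  exact MeasurableSet.iInter fun i => MeasurableSet.iInter fun _ => MeasurableSet.iInter fun k =>
    MeasurableSet.iInter fun z => MeasurableSet.iInter fun w => MeasurableSet.iInter fun _ =>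
      ((measurable_fst (hu X i z)).inter (measurable_snd (hu Y k w))).compl

omit [NeZero d] in
lemma route_pos {j : Fin d} (hj : j ≠ δ.1) (l : ℕ) :
    pos (route δ j l) (l + 3) = vec δ + (l : ℤ) • vec ((j, true) : Step d) := by
  have key : ∀ u, u ≤ l → pos (route δ j l) (2 + u) = 2 • vec δ + (u : ℤ) • vec ((j, true) : Step d) := by
    intro u
    induction u with
    | zero => simp [pos, route, two_smul]
    | succ u ih =>
      intro hu
      rw [← add_assoc, pos, ih (by omega), route, if_neg (by omega), if_pos (by omega)]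
      push_cast
      rw [add_smul, one_smul, add_assoc]
  rw [show l + 3 = (2 + l) + 1 by omega, pos, key l le_rfl, route, if_neg (by omega),
    if_neg (by omega)]
  have hopp : vec (opp δ) = -vec δ := by
    rcases δ with ⟨a, b⟩
    cases b <;> simp [vec, opp, ← Pi.single_neg]
  rw [hopp, two_smul]
  abel

/-- One switched avoidance dominates the chance that the blocks do not meet. -/
lemma noMeet_le (hμ : Elliptic μ) (hY : Side μ (opp δ)) (h1 : j₁ ≠ δ.1) (h12 : j₁ ≠ j₂) {l : ℕ} (hl : 1 ≤ l)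
    {η : ℕ → Step d} (hb : ∀ k, ∃ t, Dir.RegT (ax δ) ((Dir.next (ax δ))^[k] η) t)
    (N : ℕ) :
    w μ 1 (fun _ => opp δ) * nu μ (Dir.Fwd (ax (opp δ))) * (kindY μ δ j₁ j₂).stream
        {B | NoMeet (kindX μ δ j₁ j₂) (kindY μ δ j₁ j₂) (N + 1) ((-(l : ℤ), 0) : Z2)
          (fun i => blks (ax δ) η (rev (N + 1) i)) B} ≤
      levelAvoid μ δ j₁ l (hgt δ η (Dir.ctime (ax δ) (N + 1) η)).toNat η := by
  have := isProbabilityMeasure_nu hμ
  have := hY.regen.prob
  set lY := ax (opp δ)
  set X := kindX μ δ j₁ j₂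
  set Y := kindY μ δ j₁ j₂
  set p := Dir.ctime (ax δ) (N + 1) η with hp
  set A := fun i => blks (ax δ) η (rev (N + 1) i) with hA
  have hstrict : ∀ s < p, hgt δ η s < hgt δ η p := fun s hs => by
    have := Dir.lh_lt_ctime hb (N + 1) hs
    rw [lh_ax, lh_ax] at this
    exact_mod_cast this
  have hnn : 0 ≤ hgt δ η p := by
    have := Dir.le_lh_ctime hb (N + 1)
    rw [lh_ax] at this
    have : (0 : ℝ) ≤ (hgt δ η p : ℝ) := le_trans (Nat.cast_nonneg _) this
    exact_mod_cast this
  have hle : ∀ t ≤ p, hgt δ η t ≤ hgt δ η p := fun t ht' =>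
    ht'.eq_or_lt.elim (fun e => by rw [e]) fun h => (hstrict t h).le
  have hplace : ∀ i, i ≤ N + 1 →
      (X.level A i : ℤ) = hgt δ η p - hgt δ η (Dir.ctime (ax δ) (N + 1 - i) η) ∧
      X.shiftAt A i = pr j₁ j₂ (pos η (Dir.ctime (ax δ) (N + 1 - i) η) - pos η p) := by
    intro i
    induction i with
    | zero => intro _; simp [Kind.level, Kind.shiftAt, pr_zero, hp]
    | succ i ih =>
      intro hi
      obtain ⟨ih1, ih2⟩ := ih (by omega)
      have hrev : rev (N + 1) i = N - i := by
        show (if i < N + 1 then N + 1 - 1 - i else i) = N - i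
        rw [if_pos (by omega)]
        omega
      have hct : Dir.ctime (ax δ) (N + 1 - i) η = Dir.ctime (ax δ) (N - i) η
          + Dir.tau (ax δ) ((Dir.next (ax δ))^[N - i] η) := by
        rw [show N + 1 - i = (N - i) + 1 by omega, Dir.ctime_succ]
      set η' := (Dir.next (ax δ))^[N - i] η with hη'
      have hsh : η' = shift (Dir.ctime (ax δ) (N - i) η) η := Dir.next_iterate _ _
      have h1' : 1 ≤ hgt δ η' (Dir.tau (ax δ) η') := (cand_ax.mp (Dir.tau_spec (hb (N - i))).1).1
      constructor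
      · rw [Kind.level, Finset.sum_range_succ, Nat.cast_add, ← Kind.level, ih1,
          show X.depth (A i) = (hgt δ η' (Dir.tau (ax δ) η')).toNat from by
            simp only [hA, blks, hrev, ← hη']; exact depth_blk _,
          Int.toNat_of_nonneg (by omega), show N + 1 - (i + 1) = N - i by omega, hct, hgt_add,
          ← hsh]
        ring
      · rw [Kind.shiftAt, Finset.sum_range_succ, ← Kind.shiftAt, ih2,
          show X.disp (A i) = -pr j₁ j₂ (pos η' (Dir.tau (ax δ) η')) from by
            simp only [hA, blks, hrev, ← hη']; exact disp_blk _,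
          show N + 1 - (i + 1) = N - i by omega, hct, pos_add, ← hsh, ← pr_neg, ← pr_add]
        congr 1
        abel
  have hX : ∀ t ≤ p, ∃ i < N + 1, X.Uses A i
      ((hgt δ η p - hgt δ η t).toNat, pr j₁ j₂ (pos η t - pos η p)) := by
    intro t htp
    obtain ⟨k, hk, hk1, hk2⟩ : ∃ k < N + 1, Dir.ctime (ax δ) k η ≤ t ∧
        t ≤ Dir.ctime (ax δ) (k + 1) η := by
      rcases htp.eq_or_lt with rfl | hlt
      · exact ⟨N, by omega, (Dir.ctime_strictMono hb).monotone (by omega), le_rfl⟩
      · obtain ⟨k, h1', h2'⟩ := Dir.exists_block hb t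
        refine ⟨k, ?_, h1', h2'.le⟩
        by_contra hc
        have : p ≤ Dir.ctime (ax δ) k η := (Dir.ctime_strictMono hb).monotone (by omega)
        omega
    refine ⟨N - k, by omega, ?_⟩
    obtain ⟨e1, e2⟩ := hplace (N - k) (by omega)
    rw [show N + 1 - (N - k) = k + 1 by omega] at e1 e2
    obtain ⟨u, rfl⟩ := Nat.exists_eq_add_of_le hk1
    rw [Dir.ctime_succ] at hk2 e1 e2
    set η' := (Dir.next (ax δ))^[k] η with hη'
    have hsh : η' = shift (Dir.ctime (ax δ) k η) η := Dir.next_iterate _ _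
    have hrev : rev (N + 1) (N - k) = k := by
      show (if N - k < N + 1 then N + 1 - 1 - (N - k) else N - k) = k
      rw [if_pos (by omega)]
      omega
    refine ⟨((hgt δ η' (Dir.tau (ax δ) η') - hgt δ η' u).toNat,
      pr j₁ j₂ (pos η' u - pos η' (Dir.tau (ax δ) η'))), ?_, ?_⟩
    · simp only [hA, blks, hrev, ← hη']
      exact mem_sitesX.mpr ⟨u, by omega, rfl⟩
    · rw [hgt_add, ← hsh] at e1
      rw [pos_add, ← hsh] at e2
      have h3 := hle _ htp
      have h4 : hgt δ η' u ≤ hgt δ η' (Dir.tau (ax δ) η') := by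
        rcases (show u ≤ Dir.tau (ax δ) η' by omega).eq_or_lt with e | e
        · rw [e]
        · exact ((cand_ax.mp (Dir.tau_spec (hb k)).1).2 u e).le
      rw [hgt_add, ← hsh] at h3 ⊢
      rw [pos_add, ← hsh, e2, ← pr_add]
      refine Prod.ext ?_ ?_
      · simp only
        omega
      · simp only
        congr 1
        abel
  set S : Set (ℕ → Step d) := {ζ | ∀ s, ∀ t ≤ p,
    pos ζ s + (pos η p + (l : ℤ) • vec ((j₁, true) : Step d)) ≠ pos η t} with hS
  have hSm : MeasurableSet S := by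
    rw [show S = ⋂ s, ⋂ t, ⋂ (_ : t ≤ p), (fun ζ : ℕ → Step d => pos ζ s) ⁻¹'
      {x | x + (pos η p + (l : ℤ) • vec ((j₁, true) : Step d)) ≠ pos η t} from by ext ζ; simp [hS]]
    exact MeasurableSet.iInter fun s => MeasurableSet.iInter fun t => MeasurableSet.iInter fun _ =>
      measurable_pos s MeasurableSet.of_discrete
  have hmeas : MeasurableSet {B | NoMeet X Y (N + 1) ((-(l : ℤ), 0) : Z2) A B} :=
    measurable_prodMk_left (x := A) (measurableSet_noMeet X Y (N + 1) ((-(l : ℤ), 0) : Z2))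
  have hstep1 : Y.stream {B | NoMeet X Y (N + 1) ((-(l : ℤ), 0) : Z2) A B} ≤
      Dir.fwdLaw μ lY S := by
    rw [Kind.stream, show Y.law = (Dir.fwdLaw μ lY).map (blk lY) from rfl, ← map_blks hY.regen,
      Measure.map_apply (measurable_blks hY.regen) hmeas]
    refine measure_mono_ae ?_
    filter_upwards [hY.regen.exists_regT] with ζ hζ hno
    intro s t htp heq
    obtain ⟨i, hi, hz⟩ := hX t htp
    obtain ⟨k, hk1, hk2⟩ := Dir.exists_block hζ.2 s
    obtain ⟨u, rfl⟩ := Nat.exists_eq_add_of_le hk1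
    rw [Dir.ctime_succ] at hk2
    have hlev := level_blks (K := Y) depthY_blk hζ.2 k
    have hshY : ∀ k, Y.shiftAt (blks lY ζ) k = pr j₁ j₂ (pos ζ (Dir.ctime lY k ζ)) := fun k => by
      induction k with
      | zero => simp [Kind.shiftAt, Dir.ctime, pos, pr_zero]
      | succ k ih =>
        rw [Kind.shiftAt, Finset.sum_range_succ, ← Kind.shiftAt, ih, blks, dispY_blk,
          Dir.ctime_succ, pos_add, pr_add, ← Dir.next_iterate]
    set ζ' := (Dir.next lY)^[k] ζ with hζ'
    have hsh : ζ' = shift (Dir.ctime lY k ζ) ζ := Dir.next_iterate _ _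
    have hu : Y.Uses (blks lY ζ) k (Y.level (blks lY ζ) k + (hgt (opp δ) ζ' u).toNat,
        Y.shiftAt (blks lY ζ) k + pr j₁ j₂ (pos ζ' u)) :=
      ⟨_, mem_sitesY.mpr ⟨u, by simp only [lY, hζ'] at hk2 ⊢; omega, rfl⟩, rfl⟩
    have hh := congrArg (ht δ) heq
    rw [ht_add, ht_add] at hh
    have hlat : ht δ ((l : ℤ) • vec ((j₁, true) : Step d)) = 0 := by
      simp [ht, vec, Pi.single_eq_of_ne h1.symm]
    rw [hlat, pos_add, ← hsh, ht_add] at hh
    have hnonneg : 0 ≤ hgt (opp δ) ζ' u := by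
      refine fwd_ax (opp δ) ?_ u
      rcases k with _ | k
      · simpa [hζ'] using hζ.1
      · rw [hζ', Function.iterate_succ_apply']
        exact (Dir.tau_spec (hζ.2 k)).2
    have htl := hle t htp
    refine hno i hi k _ _ hz hu ?_ ?_
    · simp only [hgt, ht_opp, lY] at hlev hnonneg htl ⊢
      omega
    · rw [hshY, ← pr_add, hsh, ← pos_add]
      show pr j₁ j₂ (pos η t - pos η p) + (-(l : ℤ), 0) = _
      rw [← heq]
      have hpr : pr j₁ j₂ ((l : ℤ) • vec ((j₁, true) : Step d)) = ((l : ℤ), 0) := by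
        simp [pr, vec, Pi.single_eq_of_ne h12.symm]
      rw [show pos ζ (Dir.ctime lY k ζ + u) + (pos η p + (l : ℤ) • vec ((j₁, true) : Step d))
        - pos η p = pos ζ (Dir.ctime lY k ζ + u) + (l : ℤ) • vec ((j₁, true) : Step d) by abel,
        pr_add, add_assoc]
      rw [hpr]; simp
  calc _ ≤ w μ 1 (fun _ => opp δ) * nu μ (Dir.Fwd lY) * Dir.fwdLaw μ lY S :=
        mul_le_mul' le_rfl hstep1
    _ = w μ 1 (fun _ => opp δ) * nu μ (S ∩ Dir.Fwd lY) := by
        rw [Dir.RegenPf.fwdLaw_apply, mul_assoc, ← mul_assoc (nu μ (Dir.Fwd lY)),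
          ENNReal.mul_inv_cancel hY.regen.pos.ne' (measure_ne_top _ _), one_mul]
    _ = nu μ (cyl 1 (fun _ => opp δ) ∩ shift 1 ⁻¹' (S ∩ Dir.Fwd lY)) := by
        rw [Dir.RegenPf.split_fwd hμ (detBy_cyl le_rfl _) (fun ξ hξ s hs => ?_) hSm]
        · rfl
        · obtain rfl : s = 0 := by omega
          simp [Dir.RegenPf.Above, pos, hξ 0 (by omega), lY, lht_ax]
          rw [← zero_sub (vec (opp δ)), ht_sub, ht_zero, ht_vec_self]
          omega
    _ ≤ avoidProb μ δ j₁ η p l := by
        refine measure_mono ?_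
        rintro ζ ⟨hc, hζS, hζF⟩
        have hrest : restart δ j₁ η p l =
            pos η p + (vec δ + (l : ℤ) • vec ((j₁, true) : Step d)) := by
          rw [restart, route_pos h1]
        have hvec : vec (opp δ) + vec δ = 0 := by
          rcases δ with ⟨a, b⟩
          cases b <;> simp [vec, opp, ← Pi.single_add]
        intro t
        change 0 ≤ ht (opp δ) (pos ζ t) ∧ (∀ t' ≤ p, pos ζ t + restart δ j₁ η p l ≠ pos η t') ∧
          pos ζ t + restart δ j₁ η p l ≠ pos η p + vec δ
        rw [hrest]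
        rcases t with _ | s
        · refine ⟨by simp [pos], fun t' ht' he => ?_, fun he => ?_⟩
          · have hh := congrArg (ht δ) he
            simp only [pos, zero_add, ht_add, ht_vec_self] at hh
            have : ht δ ((l : ℤ) • vec ((j₁, true) : Step d)) = 0 := by
              simp [ht, vec, Pi.single_eq_of_ne h1.symm]
            have := hle t' ht'
            simp only [hgt] at this
            omega
          · have hh := congrFun he j₁
            simp [pos, vec, Pi.single_eq_of_ne h1] at hh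
            omega
        · have hps : pos ζ (s + 1) = vec (opp δ) + pos (shift 1 ζ) s := by
            rw [add_comm s 1, pos_add]
            simp [pos, hc 0 (by omega)]
          have hdown := fwd_ax (opp δ) hζF s
          simp only [hgt] at hdown
          refine ⟨by rw [hps, ht_add, ht_vec_self]; omega, fun t' ht' he => ?_, fun he => ?_⟩
          · refine hζS s t' ht' ?_
            rw [← he, hps]
            linear_combination (norm := abel) -hvec
          · have hh := congrArg (ht δ) he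
            rw [hps] at hh
            have : ht δ ((l : ℤ) • vec ((j₁, true) : Step d)) = 0 := by
              simp [ht, vec, Pi.single_eq_of_ne h1.symm]
            simp only [ht_add, ht_vec_self, ht_vec_opp] at hh
            rw [ht_opp] at hdown
            omega
    _ ≤ _ := by
        refine le_trans (le_of_eq ?_) (ENNReal.le_tsum p)
        rw [Set.indicator_of_mem]
        exact ⟨by rw [Int.toNat_of_nonneg hnn],
          fun s hs => by rw [Int.toNat_of_nonneg hnn]; exact hstrict s hs⟩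

end Vale.Agent.P147.Planar
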