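import Vale.Agent.P147.Planar.Defs
import Vale.Agent.P147.Planar.Fourier

/-!
P147: the local limit estimates for the planar walk.
-/

open MeasureTheory Filter
open scoped ENNReal Topology

noncomputable section

namespace Vale.Agent.P147.Planar

variable {J : Type} {p : J → ℝ≥0∞} {W : J → Z2}

/-- The law of one increment. -/
def stepLaw (p : J → ℝ≥0∞) (W : J → Z2) : Measure Z2 :=
  Measure.sum fun j => p j • Measure.dirac (W j)

lemma lintegral_stepLaw (f : Z2 → ℝ≥0∞) : ∫⁻ x, f x ∂stepLaw p W = ∑' j, p j * f (W j) := by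
  rw [stepLaw, lintegral_sum_measure]
  exact tsum_congr fun j => by rw [lintegral_smul_measure, lintegral_dirac, smul_eq_mul]

lemma isProb_stepLaw (h : Step0 p W) : IsProbabilityMeasure (stepLaw p W) := ⟨by
  rw [← setLIntegral_one, Measure.restrict_univ, lintegral_stepLaw]
  simpa using h.total⟩

lemma stepLaw_pos {j : J} (hj : p j ≠ 0) : stepLaw p W {W j} ≠ 0 := by
  rw [stepLaw, Measure.sum_apply _ (measurableSet_singleton _)]
  intro h0
  have := ENNReal.tsum_eq_zero.1 h0 j
  simp [hj] at this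

lemma nd_stepLaw (h : Step0 p W) : Four.Nd (stepLaw p W) := by
  have := isProb_stepLaw h
  obtain ⟨j₀, hp₀, hw₀⟩ := h.null
  have key : ∀ j e, p j ≠ 0 → W j = e →
      0 < ((stepLaw p W).prod (stepLaw p W)).real {z | z.1 - z.2 = e} := by
    intro j e hj he
    rw [measureReal_def]
    refine ENNReal.toReal_pos ?_ (measure_ne_top _ _)
    refine ne_bot_of_le_ne_bot ?_ (measure_mono (s := {W j} ×ˢ {W j₀}) ?_)
    · rw [Measure.prod_prod]
      exact mul_ne_zero (stepLaw_pos hj) (stepLaw_pos hp₀)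
    · rintro ⟨x, y⟩ ⟨rfl : x = W j, rfl : y = W j₀⟩
      simp [he, hw₀]
  obtain ⟨j₁, hp₁, hw₁⟩ := h.east
  obtain ⟨j₂, hp₂, hw₂⟩ := h.north
  exact ⟨key j₁ _ hp₁ hw₁, key j₂ _ hp₂ hw₂⟩

lemma integrable_stepLaw (h : Step0 p W) {f : Z2 → ℝ}
    (hf : ∀ x, |f x| ≤ ((x.1.natAbs + x.2.natAbs : ℕ) : ℝ)) : Integrable f (stepLaw p W) := by
  refine ⟨(measurable_of_countable f).aestronglyMeasurable, ?_⟩
  rw [hasFiniteIntegral_iff_norm]
  refine lt_of_le_of_lt (lintegral_mono fun x => ENNReal.ofReal_le_ofReal (hf x)) ?_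
  rw [lintegral_stepLaw]
  simp only [ENNReal.ofReal_natCast]
  exact lt_top_iff_ne_top.2 h.finite

lemma integral_stepLaw {f : Z2 → ℝ} (hf : Integrable f (stepLaw p W)) :
    ∫ x, f x ∂stepLaw p W = ∑' j, (p j).toReal * f (W j) := by
  rw [stepLaw, integral_sum_measure hf]
  exact tsum_congr fun j => by rw [integral_smul_measure, integral_dirac, smul_eq_mul]

lemma ret_eq (h : Step0 p W) :
    ∀ (n : ℕ) (v : Z2), ret p W n v = ENNReal.ofReal (Four.gn (stepLaw p W) n (-v))
  | 0, v => by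
    simp only [ret, Function.iterate_zero_apply, Four.gn, neg_eq_zero]
    split_ifs <;> simp
  | n + 1, v => by
    have := isProb_stepLaw h
    have hb : Integrable (fun x => Four.gn (stepLaw p W) n (-v - x)) (stepLaw p W) := by
      obtain ⟨C, hC, hg⟩ := Four.gn_le (nd_stepLaw h)
      rcases Nat.eq_zero_or_pos n with rfl | hn
      · exact Four.integrable_bounded (C := 1) fun x => by simp only [Four.gn]; split_ifs <;> simp
      · have hn' : (0 : ℝ) < n := by exact_mod_cast hn
        exact Four.integrable_bounded (C := C / n) fun x => by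
          rw [abs_of_nonneg (Four.gn_nonneg n _), le_div_iff₀ hn', mul_comm]
          exact hg n _
    rw [ret, Function.iterate_succ_apply', Four.gn,
      ofReal_integral_eq_lintegral_ofReal hb (ae_of_all _ fun x => Four.gn_nonneg n _),
      lintegral_stepLaw]
    refine tsum_congr fun j => ?_
    have := ret_eq h n (v + W j)
    rw [ret] at this
    rw [this, neg_add, sub_eq_add_neg]

/-- Module Local. -/
theorem localStmt : LocalStmt := by
  intro J _ p W h
  have := isProb_stepLaw h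
  have hnd := nd_stepLaw h
  have hle : ∀ (n : ℕ) (C : ℝ), (∀ t, (n : ℝ) * Four.gn (stepLaw p W) n t ≤ C) →
      (n : ℝ≥0∞) * ⨆ v, ret p W n v ≤ ENNReal.ofReal C := by
    intro n C hC
    rw [ENNReal.mul_iSup]
    refine iSup_le fun v => ?_
    rw [ret_eq h, ← ENNReal.ofReal_natCast, ← ENNReal.ofReal_mul (Nat.cast_nonneg n)]
    exact ENNReal.ofReal_le_ofReal (hC _)
  refine ⟨fun n => ⨆ v, ret p W n v, fun n v => le_iSup (fun v => ret p W n v) v, ?_⟩
  by_cases hsq : Integrable Four.sq2 (stepLaw p W)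
  · refine Or.inr ⟨?_, ?_⟩
    · obtain ⟨C, -, hC⟩ := Four.gn_le hnd
      exact ⟨ENNReal.ofReal C, ENNReal.ofReal_ne_top, fun n => hle n C (hC n)⟩
    · have i1 : Integrable (fun x : Z2 => (x.1 : ℝ)) (stepLaw p W) := integrable_stepLaw h fun x => by
        rw [Nat.cast_add, ← Int.cast_abs, ← Nat.cast_natAbs]
        simp
      have i2 : Integrable (fun x : Z2 => (x.2 : ℝ)) (stepLaw p W) := integrable_stepLaw h fun x => by
        rw [Nat.cast_add, ← Int.cast_abs, ← Nat.cast_natAbs]
        simp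
      have m1 : ∫ x, (x.1 : ℝ) ∂stepLaw p W = 0 := by rw [integral_stepLaw i1, h.mean₁]
      have m2 : ∫ x, (x.2 : ℝ) ∂stepLaw p W = 0 := by rw [integral_stepLaw i2, h.mean₂]
      refine ENNReal.eq_top_of_forall_nnreal_le fun B => ?_
      obtain ⟨N, hN⟩ := Four.sum_gn_unbounded hnd hsq m1 m2 B
      refine le_trans ?_ (ENNReal.sum_le_tsum (Finset.range N))
      simp only [ret_eq h, neg_zero]
      rw [← ENNReal.ofReal_sum_of_nonneg fun n _ => Four.gn_nonneg n 0, ← ENNReal.ofReal_coe_nnreal]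
      exact ENNReal.ofReal_le_ofReal hN.le
  · refine Or.inl (ENNReal.tendsto_nhds_zero.2 fun ε hε => ?_)
    have hm : min ε 1 ≠ ⊤ := ne_top_of_le_ne_top ENNReal.one_ne_top (min_le_right _ _)
    have hm0 : 0 < (min ε 1).toReal := ENNReal.toReal_pos (lt_min hε one_pos).ne' hm
    filter_upwards [Four.gn_isLittleO hnd hsq _ hm0] with n hn
    refine (hle n _ hn).trans ?_
    rw [ENNReal.ofReal_toReal hm]
    exact min_le_left _ _

end Vale.Agent.P147.Planar
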