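import Vale.Agent.P147.Planar.Defs

/-!
P147: the planar walk avoids its forbidden sets for `n` steps with chance at least `n ^ (-1/2)`.
-/

open Filter
open scoped ENNReal Topology

noncomputable section

namespace Vale.Agent.P147.Planar

variable {J : Type} {p : J → ℝ≥0∞} {W : J → Z2} {F : J → Finset Z2}

/-- One step avoiding the forbidden set. -/
def killed (p : J → ℝ≥0∞) (W : J → Z2) (F : J → Finset Z2) (f : Z2 → ℝ≥0∞) (v : Z2) : ℝ≥0∞ :=
  ∑' j, p j * if v ∈ F j then 0 else f (v + W j)

/-- The chance to meet a forbidden set within `n` steps. -/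
def hit (p : J → ℝ≥0∞) (W : J → Z2) (F : J → Finset Z2) : ℕ → Z2 → ℝ≥0∞
  | 0, _ => 0
  | n + 1, v => ∑' j, p j * if v ∈ F j then 1 else hit p W F n (v + W j)

/-- The chance to visit the origin within `n` steps. -/
def hit0 (p : J → ℝ≥0∞) (W : J → Z2) : ℕ → Z2 → ℝ≥0∞
  | 0, _ => 0
  | n + 1, v => if v = 0 then 1 else free p W (hit0 p W n) v

/-- The expected number of forbidden sets outside `B` containing the offset. -/
def far (p : J → ℝ≥0∞) (W : J → Z2) (F : J → Finset Z2) (B : Finset Z2) : ℕ → Z2 → ℝ≥0∞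
  | 0, _ => 0
  | n + 1, v => ∑' j, p j * ((if v ∈ F j \ B then 1 else 0) + far p W F B n (v + W j))

lemma safe_eq (n : ℕ) : safe p W F n = (killed p W F)^[n] fun _ => 1 := by
  induction n with
  | zero => rfl
  | succ n ih => rw [Function.iterate_succ_apply', ← ih]; rfl

lemma killed_mono {f g : Z2 → ℝ≥0∞} (h : ∀ v, f v ≤ g v) (v : Z2) :
    killed p W F f v ≤ killed p W F g v :=
  ENNReal.tsum_le_tsum fun j => mul_le_mul' le_rfl (by split_ifs <;> simp [h])

lemma killed_le_free (f : Z2 → ℝ≥0∞) (v : Z2) : killed p W F f v ≤ free p W f v :=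
  ENNReal.tsum_le_tsum fun j => mul_le_mul' le_rfl (by split_ifs <;> simp)

lemma killed_add (f g : Z2 → ℝ≥0∞) (v : Z2) :
    killed p W F (fun x => f x + g x) v = killed p W F f v + killed p W F g v := by
  simp only [killed, ← ENNReal.tsum_add]
  exact tsum_congr fun j => by split_ifs <;> simp [mul_add]

lemma killed_smul (c : ℝ≥0∞) (f : Z2 → ℝ≥0∞) (v : Z2) :
    killed p W F (fun x => c * f x) v = c * killed p W F f v := by
  simp only [killed, ← ENNReal.tsum_mul_left]
  exact tsum_congr fun j => by split_ifs <;> simp [mul_left_comm]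

lemma iter_mono {f g : Z2 → ℝ≥0∞} (h : ∀ v, f v ≤ g v) :
    ∀ (n : ℕ) (v : Z2), (killed p W F)^[n] f v ≤ (killed p W F)^[n] g v := by
  intro n
  induction n with
  | zero => exact h
  | succ n ih => intro v; simp only [Function.iterate_succ_apply']; exact killed_mono ih v

lemma iter_add (f g : Z2 → ℝ≥0∞) (n : ℕ) :
    (killed p W F)^[n] (fun x => f x + g x)
      = fun v => (killed p W F)^[n] f v + (killed p W F)^[n] g v := by
  induction n with
  | zero => rfl
  | succ n ih =>
    funext v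
    simp only [Function.iterate_succ_apply', ih, killed_add]

lemma iter_smul (c : ℝ≥0∞) (f : Z2 → ℝ≥0∞) (n : ℕ) :
    (killed p W F)^[n] (fun x => c * f x) = fun v => c * (killed p W F)^[n] f v := by
  induction n with
  | zero => rfl
  | succ n ih =>
    funext v
    simp only [Function.iterate_succ_apply', ih, killed_smul]

lemma free_mono {f g : Z2 → ℝ≥0∞} (h : ∀ v, f v ≤ g v) (v : Z2) : free p W f v ≤ free p W g v :=
  ENNReal.tsum_le_tsum fun _ => mul_le_mul' le_rfl (h _)

lemma iter_le_free (f : Z2 → ℝ≥0∞) :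
    ∀ (n : ℕ) (v : Z2), (killed p W F)^[n] f v ≤ (free p W)^[n] f v := by
  intro n
  induction n with
  | zero => exact fun v => le_rfl
  | succ n ih =>
    intro v
    simp only [Function.iterate_succ_apply']
    exact (killed_le_free _ v).trans (free_mono ih v)

lemma safe_add_hit (hp : ∑' j, p j = 1) : ∀ (n : ℕ) (v : Z2), safe p W F n v + hit p W F n v = 1 := by
  intro n
  induction n with
  | zero => intro v; simp [safe, hit]
  | succ n ih =>
    intro v
    simp only [safe, hit, ← ENNReal.tsum_add]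
    conv_rhs => rw [← hp]
    refine tsum_congr fun j => ?_
    rw [← mul_add]
    split_ifs <;> simp [ih]

lemma safe_anti (hp : ∑' j, p j = 1) {m n : ℕ} (h : m ≤ n) (v : Z2) :
    safe p W F n v ≤ safe p W F m v := by
  obtain ⟨k, rfl⟩ := Nat.exists_eq_add_of_le h
  rw [safe_eq, safe_eq, Function.iterate_add_apply]
  refine iter_mono (fun x => ?_) m v
  rw [← safe_eq, ← safe_add_hit (W := W) (F := F) hp k x]
  exact le_self_add

lemma tsum_shift (f : Z2 → ℝ≥0∞) (a : Z2) : ∑' v, f (v + a) = ∑' v, f v :=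
  (Equiv.addRight a).tsum_eq f

lemma tsum_free (hp : ∑' j, p j = 1) (f : Z2 → ℝ≥0∞) : ∑' v, free p W f v = ∑' v, f v := by
  simp only [free]
  rw [ENNReal.tsum_comm]
  simp only [ENNReal.tsum_mul_left, tsum_shift, ENNReal.tsum_mul_right, hp, one_mul]

lemma ret_succ (n : ℕ) (v : Z2) : ret p W (n + 1) v = free p W (ret p W n) v := by
  rw [ret, Function.iterate_succ_apply']; rfl

lemma tsum_ret (hp : ∑' j, p j = 1) (n : ℕ) : ∑' v, ret p W n v = 1 := by
  induction n with
  | zero => simp [ret]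
  | succ n ih => simp only [ret_succ, tsum_free hp, ih]

/-- Smoothing by `n` free steps. -/
lemma free_iter_le {g : ℕ → ℝ≥0∞} (hg : ∀ n v, ret p W n v ≤ g n) (f : Z2 → ℝ≥0∞) (n : ℕ)
    (v : Z2) : (free p W)^[n] f v ≤ g n * ∑' x, f x := by
  have key : ∀ (n : ℕ) (v : Z2), (free p W)^[n] f v = ∑' x, ret p W n (v - x) * f x := by
    intro n
    induction n with
    | zero =>
      intro v
      rw [tsum_eq_single v fun x hx => by simp [ret, sub_eq_zero, hx.symm]]
      simp [ret]
    | succ n ih =>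
      intro v
      rw [Function.iterate_succ_apply', free, tsum_congr fun j => by rw [ih]]
      simp only [← ENNReal.tsum_mul_left, ret_succ, free, ← ENNReal.tsum_mul_right]
      rw [ENNReal.tsum_comm]
      exact tsum_congr fun x => tsum_congr fun j => by
        rw [show v - x + W j = v + W j - x by abel, mul_assoc]
  rw [key, ← ENNReal.tsum_mul_left]
  exact ENNReal.tsum_le_tsum fun x => mul_le_mul' (hg n _) le_rfl

/-- The range is small when the walk returns often. -/
lemma hit0_le (n m : ℕ) : ∀ v : Z2, hit0 p W n v * ∑ i ∈ Finset.range m, ret p W i 0 ≤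
    ∑ i ∈ Finset.range (n + m), ret p W i v := by
  induction n with
  | zero => intro v; simp [hit0]
  | succ n ih =>
    intro v
    rw [hit0]
    split_ifs with h
    · subst h
      rw [one_mul]
      exact Finset.sum_le_sum_of_subset (by intro i; simp; omega)
    · rw [free, ← ENNReal.tsum_mul_right, show n + 1 + m = n + m + 1 by omega,
        Finset.sum_range_succ']
      refine le_trans (le_of_le_of_eq (ENNReal.tsum_le_tsum
        (g := fun j => p j * ∑ i ∈ Finset.range (n + m), ret p W i (v + W j)) fun j => ?_) ?_)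
        le_self_add
      · exact le_of_eq_of_le (mul_assoc _ _ _) (mul_le_mul' le_rfl (ih (v + W j)))
      · simp only [ret_succ, free]
        rw [← Summable.tsum_finsetSum fun i _ => ENNReal.summable]
        exact tsum_congr fun j => Finset.mul_sum _ _ _

lemma tsum_hit0_le (hp : ∑' j, p j = 1) (n : ℕ) :
    (∑' v, hit0 p W n v) * ∑ i ∈ Finset.range n, ret p W i 0 ≤ 2 * n := by
  rw [← ENNReal.tsum_mul_right]
  refine (ENNReal.tsum_le_tsum fun v => hit0_le n n v).trans (le_of_eq ?_)
  rw [Summable.tsum_finsetSum fun i _ => ENNReal.summable]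
  simp [tsum_ret hp, two_mul]

lemma tsum_hit0_le_self (hp : ∑' j, p j = 1) : ∀ n : ℕ, ∑' v, hit0 p W n v ≤ n := by
  intro n
  induction n with
  | zero => simp [hit0]
  | succ n ih =>
    refine le_trans (ENNReal.tsum_le_tsum (g := fun v => (if v = 0 then 1 else 0) +
      free p W (hit0 p W n) v) fun v => ?_) ?_
    · rw [hit0]; split_ifs <;> simp
    · rw [ENNReal.tsum_add, tsum_free hp, tsum_ite_eq]
      push_cast
      rw [add_comm]
      exact add_le_add ih le_rfl

lemma hit_le (hp : ∑' j, p j = 1) (B : Finset Z2) :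
    ∀ (n : ℕ) (v : Z2), hit p W F n v ≤ ∑ f ∈ B, hit0 p W n (v - f) + far p W F B n v := by
  intro n
  induction n with
  | zero => intro v; simp [hit]
  | succ n ih =>
    intro v
    by_cases hv : v ∈ B
    · refine le_trans ?_ ((Finset.single_le_sum (f := fun f => hit0 p W (n + 1) (v - f))
        (fun f _ => zero_le) hv).trans le_self_add)
      have h1 := safe_add_hit (W := W) (F := F) hp (n + 1) v
      simp only [hit0, sub_self, if_true]
      exact le_of_le_of_eq le_add_self h1
    · rw [hit, far]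
      refine le_trans (ENNReal.tsum_le_tsum (g := fun j => p j * ∑ f ∈ B, hit0 p W n (v + W j - f) +
        p j * ((if v ∈ F j \ B then 1 else 0) + far p W F B n (v + W j))) fun j => ?_) ?_
      · rw [← mul_add]
        refine mul_le_mul' le_rfl ?_
        by_cases hj : v ∈ F j
        · simp [hj, hv, add_left_comm _ (1 : ℝ≥0∞)]
        · simpa [hj] using ih (v + W j)
      · rw [ENNReal.tsum_add]
        refine add_le_add (le_of_eq ?_) le_rfl
        simp only [Finset.mul_sum]
        rw [Summable.tsum_finsetSum fun i _ => ENNReal.summable]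
        refine Finset.sum_congr rfl fun f hf => ?_
        rw [hit0, if_neg (sub_ne_zero.mpr fun e : v = f => hv (e ▸ hf)), free]
        exact tsum_congr fun j => by rw [show v - f + W j = v + W j - f by abel]

lemma tsum_far (hp : ∑' j, p j = 1) (B : Finset Z2) :
    ∀ n : ℕ, ∑' v, far p W F B n v = n * ∑' j, p j * ((F j \ B).card : ℝ≥0∞) := by
  intro n
  induction n with
  | zero => simp [far]
  | succ n ih =>
    simp only [far, mul_add, ENNReal.tsum_add]
    have h2 : ∑' v, ∑' j, p j * far p W F B n (v + W j) = ∑' v, far p W F B n v := tsum_free hp _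
    rw [h2, ih, Nat.cast_succ, add_mul, one_mul, add_comm]
    congr 1
    rw [ENNReal.tsum_comm]
    refine tsum_congr fun j => ?_
    rw [ENNReal.tsum_mul_left]
    congr 1
    rw [tsum_eq_sum (s := F j \ B) fun v hv => if_neg hv]
    simp +contextual

lemma exists_box (hF : ∑' j, p j * ((F j).card : ℝ≥0∞) ≠ ∞) {ε : ℝ≥0∞} (hε : ε ≠ 0) :
    ∃ B : Finset Z2, ∑' j, p j * ((F j \ B).card : ℝ≥0∞) ≤ ε := by
  have h0 := ENNReal.tendsto_tsum_compl_atTop_zero hF
  obtain ⟨s, hs⟩ := (h0.eventually (eventually_le_nhds (pos_iff_ne_zero.mpr hε))).exists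
  refine ⟨s.biUnion F, ?_⟩
  have hz : ∀ j ∈ s, p j * ((F j \ s.biUnion F).card : ℝ≥0∞) = 0 := fun j hj => by
    have h1 : F j \ s.biUnion F = ∅ :=
      Finset.sdiff_eq_empty_iff_subset.mpr (Finset.subset_biUnion_of_mem F hj)
    simp [h1]
  refine le_trans (le_trans (ENNReal.tsum_le_tsum fun j => ?_)
    (le_of_eq (tsum_subtype {j | j ∉ s} fun j => p j * ((F j).card : ℝ≥0∞)).symm)) hs
  by_cases hj : j ∈ s
  · rw [hz j hj]; exact zero_le
  · rw [Set.indicator_of_mem (show j ∈ {j | j ∉ s} from hj)]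
    exact mul_le_mul' le_rfl (Nat.cast_le.mpr (Finset.card_le_card Finset.sdiff_subset))

/-- Meeting a fixed band after free smoothing is unlikely. -/
theorem band_tendsto (hloc : LocalStmt) [Countable J] (h : Step0 p W)
    (hF : ∑' j, p j * ((F j).card : ℝ≥0∞) ≠ ∞) :
    ∃ g : ℕ → ℝ≥0∞, (∀ n v, ret p W n v ≤ g n) ∧
      Tendsto (fun n : ℕ => g (3 * n) * ∑' v, hit p W F (12 * n) v) atTop (𝓝 0) := by
  classical
  obtain ⟨g, hg, hcase⟩ := hloc J p W h
  refine ⟨g, hg, ?_⟩
  have h3 : Tendsto (fun n : ℕ => 3 * n) atTop atTop :=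
    tendsto_atTop_mono (fun n => by dsimp; omega) tendsto_id
  have h12 : Tendsto (fun n : ℕ => 12 * n) atTop atTop :=
    tendsto_atTop_mono (fun n => by dsimp; omega) tendsto_id
  have hbound : ∀ (B : Finset Z2) (m : ℕ), ∑' v, hit p W F m v ≤
      B.card * ∑' v, hit0 p W m v + m * ∑' j, p j * ((F j \ B).card : ℝ≥0∞) := fun B m => by
    refine (ENNReal.tsum_le_tsum fun v => hit_le h.total B m v).trans (le_of_eq ?_)
    rw [ENNReal.tsum_add, tsum_far h.total, Summable.tsum_finsetSum fun i _ => ENNReal.summable]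
    congr 1
    rw [Finset.sum_congr rfl fun f _ => show ∑' v, hit0 p W m (v - f) = ∑' v, hit0 p W m v from
      (Equiv.subRight f).tsum_eq _]
    simp
  rcases hcase with hz | ⟨⟨C, hC, hCg⟩, hrec⟩
  · set E := ∑' j, p j * ((F j).card : ℝ≥0∞)
    have hlim : Tendsto (fun n : ℕ => 4 * E * (((3 * n : ℕ) : ℝ≥0∞) * g (3 * n))) atTop (𝓝 0) := by
      have := ENNReal.Tendsto.const_mul (hz.comp h3) (Or.inr (ENNReal.mul_ne_top
        (by simp) hF : 4 * E ≠ ∞))
      rwa [mul_zero] at this
    refine tendsto_of_tendsto_of_tendsto_of_le_of_le tendsto_const_nhds hlim (fun _ => zero_le)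
      fun n => ?_
    refine (mul_le_mul' le_rfl (hbound ∅ (12 * n))).trans (le_of_eq ?_)
    simp only [Finset.card_empty, Nat.cast_zero, zero_mul, zero_add, Finset.sdiff_empty]
    push_cast
    ring
  · refine ENNReal.tendsto_nhds_zero.mpr fun ε hε => ?_
    set δ := ε / (4 * C + 1) / 2 with hδdef
    have hfin : 4 * C + 1 ≠ ∞ := by finiteness
    have hδ : δ ≠ 0 := (ENNReal.half_pos (ENNReal.div_pos hε.ne' hfin).ne').ne'
    obtain ⟨B, hB⟩ := exists_box hF hδ
    have hG : Tendsto (fun m : ℕ => ∑ i ∈ Finset.range m, ret p W i 0) atTop (𝓝 ∞) :=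
      hrec ▸ ENNReal.tendsto_nat_tsum _
    have hsmall : Tendsto (fun m : ℕ => (B.card : ℝ≥0∞) * 2 * (∑ i ∈ Finset.range m, ret p W i 0)⁻¹)
        atTop (𝓝 0) := by
      have := ENNReal.Tendsto.const_mul (a := (B.card : ℝ≥0∞) * 2)
        (tendsto_inv_iff.mpr hG) (Or.inr (by finiteness))
      simpa using this
    filter_upwards [h12.eventually (hsmall.eventually (eventually_le_nhds (pos_iff_ne_zero.mpr hδ))),
      h12.eventually (hG.eventually (eventually_gt_nhds (ENNReal.zero_lt_top)))] with n hn hpos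
    have hrange : ∑' v, hit0 p W (12 * n) v ≤
        2 * (12 * n : ℕ) * (∑ i ∈ Finset.range (12 * n), ret p W i 0)⁻¹ := by
      set G := ∑ i ∈ Finset.range (12 * n), ret p W i 0
      rcases eq_or_ne G ∞ with hGt | hGt
      · have h1 := tsum_hit0_le (W := W) h.total (12 * n)
        change (∑' v, hit0 p W (12 * n) v) * G ≤ _ at h1
        rw [hGt] at h1
        rcases eq_or_ne (∑' v, hit0 p W (12 * n) v) 0 with h0 | h0
        · simp [h0]
        · rw [ENNReal.mul_top h0, top_le_iff] at h1
          exact absurd h1 (by finiteness)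
      · rw [← div_eq_mul_inv, ENNReal.le_div_iff_mul_le (Or.inl hpos.ne') (Or.inl hGt)]
        exact_mod_cast tsum_hit0_le h.total (12 * n)
    calc g (3 * n) * ∑' v, hit p W F (12 * n) v
        ≤ g (3 * n) * ((B.card : ℝ≥0∞) * (2 * (12 * n : ℕ) *
            (∑ i ∈ Finset.range (12 * n), ret p W i 0)⁻¹) + (12 * n : ℕ) * δ) :=
          mul_le_mul' le_rfl ((hbound B _).trans (add_le_add (mul_le_mul' le_rfl hrange)
            (mul_le_mul' le_rfl hB)))
      _ = 4 * (((3 * n : ℕ) : ℝ≥0∞) * g (3 * n)) * ((B.card : ℝ≥0∞) * 2 *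
            (∑ i ∈ Finset.range (12 * n), ret p W i 0)⁻¹ + δ) := by push_cast; ring
      _ ≤ (4 * C + 1) * (δ + δ) :=
          mul_le_mul' (le_trans (mul_le_mul' le_rfl (hCg _)) le_self_add) (add_le_add hn le_rfl)
      _ ≤ ε := by
          rw [hδdef, ENNReal.add_halves, mul_comm]
          exact ENNReal.mul_le_of_le_div le_rfl

lemma hit_le_card (hp : ∑' j, p j = 1) (n : ℕ) :
    ∑' v, hit p W F n v ≤ n * ∑' j, p j * ((F j).card : ℝ≥0∞) := by
  classical
  refine (ENNReal.tsum_le_tsum fun v => hit_le hp ∅ n v).trans (le_of_eq ?_)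
  simp [tsum_far hp]

/-- Some offset on every ray is avoided for `n` steps with chances summing to infinity. -/
theorem safe_sum (hloc : LocalStmt) [Countable J] (h : Step0 p W)
    (hF : ∑' j, p j * ((F j).card : ℝ≥0∞) ≠ ∞) {e : Z2} (he : e ≠ 0) :
    ∃ l : ℕ, 1 ≤ l ∧ ∑' N, safe p W F N ((l : ℤ) • e) = ∞ := by
  classical
  obtain ⟨g, hg, hband⟩ := band_tendsto hloc h hF
  obtain ⟨k₀, hk₀⟩ := eventually_atTop.mp (hband.eventually
    (eventually_le_nhds (show (0 : ℝ≥0∞) < 1 / 4 by norm_num)))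
  set N₀ := 4 ^ (k₀ + 1) with hN₀
  have hfin : ∑' v, hit p W F N₀ v ≠ ∞ :=
    ne_top_of_le_ne_top (ENNReal.mul_ne_top (ENNReal.natCast_ne_top _) hF) (hit_le_card h.total N₀)
  obtain ⟨l, hl1, hl⟩ : ∃ l : ℕ, 1 ≤ l ∧ hit p W F N₀ ((l : ℤ) • e) ≤ 1 / 4 := by
    have hinj : Function.Injective fun l : ℕ => ((l : ℤ) + 1) • e := fun a b hab => by
      have := smul_left_injective ℤ he hab
      omega
    have h1 := ENNReal.tendsto_atTop_zero_of_tsum_ne_top (ne_top_of_le_ne_top hfin
      (ENNReal.tsum_comp_le_tsum_of_injective hinj (hit p W F N₀)))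
    obtain ⟨l, hl⟩ := (h1.eventually
      (eventually_le_nhds (show (0 : ℝ≥0∞) < 1 / 4 by norm_num))).exists
    exact ⟨l + 1, by omega, by simpa using hl⟩
  refine ⟨l, hl1, ?_⟩
  set v : Z2 := (l : ℤ) • e
  set a : ℕ → ℝ≥0∞ := fun N => safe p W F N v with ha
  have hstep : ∀ n, k₀ ≤ n → a (4 * n) ≤ a (16 * n) + 1 / 4 * a n := fun n hn => by
    have hq : g (3 * n) * ∑' x, hit p W F (12 * n) x ≤ 1 / 4 := hk₀ n hn
    calc a (4 * n) = (killed p W F)^[4 * n]
          (fun x => safe p W F (12 * n) x + hit p W F (12 * n) x) v := by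
          simp only [ha, safe_eq (4 * n), safe_add_hit h.total]
      _ = a (16 * n) + (killed p W F)^[4 * n] (hit p W F (12 * n)) v := by
          rw [iter_add]
          simp only [ha, safe_eq, ← Function.iterate_add_apply]
          rw [show 4 * n + 12 * n = 16 * n by omega]
      _ ≤ a (16 * n) + (killed p W F)^[n] (fun _ => 1 / 4 * 1) v := by
          refine add_le_add le_rfl ?_
          rw [show 4 * n = n + 3 * n by omega, Function.iterate_add_apply]
          refine iter_mono (fun x => ?_) n v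
          exact (iter_le_free _ _ x).trans ((free_iter_le hg _ _ x).trans (by simpa using hq))
      _ = _ := by
          rw [iter_smul]
          simp only [ha, safe_eq]
  have ha1 : ∀ N, a N ≠ ∞ := fun N => ne_top_of_le_ne_top ENNReal.one_ne_top
    (le_of_le_of_eq le_self_add (safe_add_hit (W := W) (F := F) h.total N v))
  set b : ℕ → ℝ := fun k => (a (4 ^ (k₀ + k))).toReal with hb
  have hb1 : ∀ k, b k ≤ 1 := fun k => ENNReal.toReal_le_of_le_ofReal zero_le_one
    (by simpa using le_of_le_of_eq le_self_add (safe_add_hit (W := W) (F := F) h.total _ v))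
  have hbrec : ∀ k, b (k + 1) ≤ b (k + 2) + b k / 4 := fun k => by
    have h1 := hstep (4 ^ (k₀ + k))
      (le_trans (Nat.le_add_right _ _) (Nat.lt_pow_self (by norm_num)).le)
    rw [show 4 * 4 ^ (k₀ + k) = 4 ^ (k₀ + (k + 1)) by ring,
      show 16 * 4 ^ (k₀ + k) = 4 ^ (k₀ + (k + 2)) by ring] at h1
    have h2 := ENNReal.toReal_mono (ENNReal.add_ne_top.mpr
      ⟨ha1 _, ENNReal.mul_ne_top (by norm_num) (ha1 _)⟩) h1
    rw [ENNReal.toReal_add (ha1 _) (ENNReal.mul_ne_top (by norm_num) (ha1 _)),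
      ENNReal.toReal_mul] at h2
    simp only [hb]
    norm_num at h2
    linarith
  have hb34 : 3 / 4 ≤ b 1 := by
    have h1 : safe p W F N₀ v + hit p W F N₀ v = 1 := safe_add_hit h.total _ v
    have hh : hit p W F N₀ v ≠ ∞ := ne_top_of_le_ne_top (by norm_num) hl
    have h2 := congrArg ENNReal.toReal h1
    rw [ENNReal.toReal_add (ha1 N₀) hh, ENNReal.toReal_one] at h2
    have h3 := ENNReal.toReal_mono (by norm_num) hl
    norm_num at h3
    simp only [hb, ha, hN₀] at h2 ⊢
    linarith
  have hdec : ∀ k, b k / 2 ≤ b (k + 1) := by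
    intro k
    induction k with
    | zero => have := hb1 0; linarith
    | succ k ih => have := hbrec k; linarith
  have hlow : ∀ k, 3 / 4 * (1 / 2 : ℝ) ^ k ≤ b (k + 1) := by
    intro k
    induction k with
    | zero => simpa using hb34
    | succ k ih => have := hdec (k + 1); rw [pow_succ]; linarith
  by_contra hne
  have hk : ∀ k : ℕ, (2 : ℝ) ^ k ≤ (∑' N, a N).toReal * 2 := fun k => by
    set M := 4 ^ (k₀ + (k + 1))
    have h1 : (M : ℝ≥0∞) * a M ≤ ∑' N, a N := by
      refine le_trans ?_ (ENNReal.sum_le_tsum (Finset.range M))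
      refine le_of_eq_of_le (by simp) (Finset.sum_le_sum (f := fun _ => a M) fun N hN =>
        safe_anti h.total (Finset.mem_range.mp hN).le v)
    have h2 := ENNReal.toReal_mono hne h1
    rw [ENNReal.toReal_mul, ENNReal.toReal_natCast] at h2
    have h3 : (4 : ℝ) ^ (k + 1) ≤ M := by
      simp only [M, Nat.cast_pow, Nat.cast_ofNat]
      exact pow_le_pow_right₀ (by norm_num) (by omega)
    have h4 := mul_le_mul h3 (hlow k) (by positivity) (Nat.cast_nonneg _)
    have h5 : (4 : ℝ) ^ (k + 1) * (3 / 4 * (1 / 2) ^ k) = 3 * 2 ^ k := by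
      rw [pow_succ, show (4 : ℝ) = 2 * 2 by norm_num, mul_pow, one_div, inv_pow]
      field_simp
    have h6 : (0 : ℝ) < 2 ^ k := by positivity
    simp only [ha] at h2 h4 ⊢
    linarith
  obtain ⟨k, hk'⟩ := pow_unbounded_of_one_lt ((∑' N, a N).toReal * 2) (one_lt_two (α := ℝ))
  linarith [hk k]

end Vale.Agent.P147.Planar
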