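import Vale.Agent.P147.Planar.Cuts
import Vale.Agent.P147.Planar.Walk

/-!
P147: the law of one segment between two cuts: Wald identities, mean zero, finite forbidden set.
-/

open MeasureTheory Filter
open scoped ENNReal Topology

noncomputable section

set_option linter.unusedSectionVars false
set_option linter.unusedVariables.funArgs false

namespace Vale.Agent.P147.Planar

/-- Wald's identity for a random number of blocks that does not look ahead. -/
theorem wald {Ω β : Type*} [MeasurableSpace Ω] [MeasurableSpace β] [Countable β]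
    [DiscreteMeasurableSpace β] {P : Measure Ω} {ν : Measure β} (ev : ℕ → Ω → β)
    (hev : ∀ r, Measurable (ev r)) {E : ℕ → Set Ω} (hE : ∀ r, MeasurableSet (E r))
    (hind : ∀ r s, P (E r ∩ ev r ⁻¹' s) = P (E r) * ν s) (hsum : ∑' r, P (E r) ≠ ∞)
    {N : Ω → ℕ} (hN : Measurable N) (hNE : ∀ᵐ ω ∂P, ∀ r, r < N ω ↔ ω ∈ E r)
    {φ : β → ℝ} (hφ : Integrable φ ν) :
    Integrable (fun ω => ∑ r ∈ Finset.range (N ω), φ (ev r ω)) P ∧
      ∫ ω, ∑ r ∈ Finset.range (N ω), φ (ev r ω) ∂P = (∫ b, φ b ∂ν) * ∑' r, (P (E r)).toReal := by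
  classical
  set f : ℕ → Ω → ℝ := fun r => (E r).indicator fun ω => φ (ev r ω)
  have hmap : ∀ r, (P.restrict (E r)).map (ev r) = P (E r) • ν := fun r =>
    Measure.ext fun s hs => by
      rw [Measure.map_apply (hev r) hs, Measure.restrict_apply (hev r hs), Set.inter_comm, hind,
        Measure.smul_apply, smul_eq_mul]
  have hφm : Measurable φ := measurable_of_countable φ
  have hfm : ∀ r, Measurable (f r) := fun r => (hφm.comp (hev r)).indicator (hE r)
  have heq : ∀ᵐ ω ∂P, ∑ r ∈ Finset.range (N ω), φ (ev r ω) = ∑' r, f r ω ∧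
      ∀ r ∈ Finset.range (N ω), ‖φ (ev r ω)‖ₑ = ‖f r ω‖ₑ := by
    filter_upwards [hNE] with ω hω
    refine ⟨?_, fun r hr => ?_⟩
    · rw [tsum_eq_sum (s := Finset.range (N ω)) fun r hr => Set.indicator_of_notMem
        (fun h => hr (Finset.mem_range.2 ((hω r).2 h))) _]
      exact Finset.sum_congr rfl fun r hr =>
        (Set.indicator_of_mem ((hω r).1 (Finset.mem_range.1 hr)) fun ω => φ (ev r ω)).symm
    · simp only [f]
      rw [Set.indicator_of_mem ((hω r).1 (Finset.mem_range.1 hr))]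
  have hnorm : ∀ r, ∫⁻ ω, ‖f r ω‖ₑ ∂P = P (E r) * ∫⁻ b, ‖φ b‖ₑ ∂ν := fun r => by
    simp only [f, enorm_indicator_eq_indicator_enorm]
    rw [lintegral_indicator (hE r), ← lintegral_map (f := fun b => ‖φ b‖ₑ) (measurable_of_countable _)
      (hev r), hmap, lintegral_smul_measure, smul_eq_mul]
  have hfin : ∑' r, ∫⁻ ω, ‖f r ω‖ₑ ∂P ≠ ∞ := by
    rw [tsum_congr hnorm, ENNReal.tsum_mul_right]
    exact ENNReal.mul_ne_top hsum hφ.2.ne
  have hm : Measurable fun ω => ∑ r ∈ Finset.range (N ω), φ (ev r ω) :=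
    (measurable_from_prod_countable_left (f := fun x : Ω × ℕ => ∑ r ∈ Finset.range x.2, φ (ev r x.1))
      fun n => Finset.measurable_fun_sum (Finset.range n) (f := fun r ω => φ (ev r ω))
        fun r _ => hφm.comp (hev r)).comp
      (measurable_id.prodMk hN)
  refine ⟨⟨hm.aestronglyMeasurable, ?_⟩, ?_⟩
  · refine lt_of_le_of_lt (lintegral_mono_ae (g := fun ω => ∑' r, ‖f r ω‖ₑ) ?_)
      (by rw [lintegral_tsum fun r => (hfm r).enorm.aemeasurable]; exact hfin.lt_top)
    filter_upwards [heq] with ω hω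
    exact (enorm_sum_le _ _).trans ((Finset.sum_congr rfl hω.2).le.trans (ENNReal.sum_le_tsum _))
  · rw [integral_congr_ae (heq.mono fun ω hω => hω.1),
      integral_tsum (fun r => (hfm r).aestronglyMeasurable) hfin, ← tsum_mul_left]
    refine tsum_congr fun r => ?_
    rw [integral_indicator (hE r), ← integral_map (hev r).aemeasurable hφm.aestronglyMeasurable,
      hmap, integral_smul_measure, smul_eq_mul, mul_comm]

lemma integrable_of_le {β : Type*} [MeasurableSpace β] [Countable β] [DiscreteMeasurableSpace β]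
    {μ : Measure β} {f : β → ℕ} (hf : ∫⁻ b, (f b : ℝ≥0∞) ∂μ ≠ ∞) {g : β → ℝ}
    (hg : ∀ b, |g b| ≤ f b) : Integrable g μ := by
  refine ⟨(measurable_of_countable g).aestronglyMeasurable, ?_⟩
  rw [hasFiniteIntegral_iff_norm]
  refine lt_of_le_of_lt (lintegral_mono fun b => ENNReal.ofReal_le_ofReal (hg b)) ?_
  simp only [ENNReal.ofReal_natCast]
  exact lt_top_iff_ne_top.2 hf

variable {BX BY : Type} [MeasurableSpace BX] [MeasurableSpace BY] (X : Kind BX) (Y : Kind BY)
  (a : BX)

open Classical in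
/-- The number of blocks of the first stream in the first segment. -/
def iOne (q : (ℕ → BX) × (ℕ → BY)) : ℕ :=
  Nat.find (p := fun i => (∃ k, Cut X Y a q i k) ∨ ¬ HasCut X Y a q)
    ((_root_.em (HasCut X Y a q)).elim (fun ⟨i, k, h⟩ => ⟨i, Or.inl ⟨k, h⟩⟩) fun h => ⟨0, Or.inr h⟩)

open Classical in
/-- The number of blocks of the second stream in the first segment. -/
def kOne (q : (ℕ → BX) × (ℕ → BY)) : ℕ :=
  Nat.find (p := fun k => (∃ i, Cut X Y a q i k) ∨ ¬ HasCut X Y a q)
    ((_root_.em (HasCut X Y a q)).elim (fun ⟨i, k, h⟩ => ⟨k, Or.inl ⟨i, h⟩⟩) fun h => ⟨0, Or.inr h⟩)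

/-- Lateral differences of the sites at equal depths of the first `i` and `k` blocks. -/
def diffs (q : (ℕ → BX) × (ℕ → BY)) (i k : ℕ) : Finset Z2 :=
  (Finset.range i).biUnion fun r => (Finset.range k).biUnion fun t =>
    ((X.sites (q.1 r) ×ˢ Y.sites (q.2 t)).filter fun yz =>
      X.level q.1 r + yz.1.1 = Y.level q.2 t + yz.2.1).image fun yz =>
        (Y.shiftAt q.2 t + yz.2.2) - (X.shiftAt q.1 r + yz.1.2)

/-- The step and the forbidden set of the first `i` and `k` blocks. -/
def segVal (q : (ℕ → BX) × (ℕ → BY)) (i k : ℕ) : Z2 × Finset Z2 :=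
  (X.shiftAt q.1 i - Y.shiftAt q.2 k, diffs X Y q i k)

/-- The step and the forbidden set of the first segment. -/
def seg (q : (ℕ → BX) × (ℕ → BY)) : Z2 × Finset Z2 :=
  segVal X Y q (iOne X Y a q) (kOne X Y a q)

/-- The chance of each value of the first segment. -/
def segProb (j : Z2 × Finset Z2) : ℝ≥0∞ := both X Y {q | seg X Y a q = j}

variable {X Y a}

lemma lt_iOne {q : (ℕ → BX) × (ℕ → BY)} (h : HasCut X Y a q) (r : ℕ) :
    r < iOne X Y a q ↔ q ∈ noCutX X Y a r := by
  classical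
  simp only [iOne, Nat.lt_find_iff, h, not_true_eq_false, or_false, not_exists, noCutX,
    Set.mem_ofPred_eq]

lemma lt_kOne {q : (ℕ → BX) × (ℕ → BY)} (h : HasCut X Y a q) (r : ℕ) :
    r < kOne X Y a q ↔ q ∈ noCutY X Y a r := by
  classical
  simp only [kOne, Nat.lt_find_iff, h, not_true_eq_false, or_false, not_exists, noCutY,
    Set.mem_ofPred_eq]

lemma cut_one {q : (ℕ → BX) × (ℕ → BY)} (hq : Ok X Y q) (h : HasCut X Y a q) :
    Cut X Y a q (iOne X Y a q) (kOne X Y a q) := by
  classical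
  have mX := X.level_strictMono hq.depX
  have mY := Y.level_strictMono hq.depY
  have h1 : (∃ k, Cut X Y a q (iOne X Y a q) k) ∨ ¬ HasCut X Y a q := Nat.find_spec
    (p := fun i => (∃ k, Cut X Y a q i k) ∨ ¬ HasCut X Y a q) _
  have h2 : (∃ i, Cut X Y a q i (kOne X Y a q)) ∨ ¬ HasCut X Y a q := Nat.find_spec
    (p := fun k => (∃ i, Cut X Y a q i k) ∨ ¬ HasCut X Y a q) _
  obtain ⟨k, hk⟩ := h1.resolve_right (not_not.2 h)
  obtain ⟨i, hi⟩ := h2.resolve_right (not_not.2 h)
  have hik : kOne X Y a q ≤ k := Nat.find_le (Or.inl ⟨_, hk⟩)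
  have hii : iOne X Y a q ≤ i := Nat.find_le (Or.inl ⟨_, hi⟩)
  have e1 := hk.2.1
  have e2 := hi.2.1
  have l1 := mY.monotone hik
  have l2 := mX.monotone hii
  obtain rfl : k = kOne X Y a q := mY.injective (by omega)
  exact hk

variable [DiscreteMeasurableSpace BX] [Countable BX] [DiscreteMeasurableSpace BY] [Countable BY]

lemma measurableSet_hasCut : MeasurableSet {q | HasCut X Y a q} := by
  simp only [HasCut, Set.ofPred_exists]
  exact MeasurableSet.iUnion fun i => MeasurableSet.iUnion fun k => measurableSet_cut X Y a i k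

lemma measurable_iOne : Measurable (iOne X Y a) := by
  classical
  refine measurable_find _ fun i => ?_
  have : MeasurableSet {q | ∃ k, Cut X Y a q i k} := by
    simp only [Set.ofPred_exists]
    exact MeasurableSet.iUnion fun k => measurableSet_cut X Y a i k
  exact this.union measurableSet_hasCut.compl

lemma measurable_kOne : Measurable (kOne X Y a) := by
  classical
  refine measurable_find _ fun k => ?_
  have : MeasurableSet {q | ∃ i, Cut X Y a q i k} := by
    simp only [Set.ofPred_exists]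
    exact MeasurableSet.iUnion fun i => measurableSet_cut X Y a i k
  exact this.union measurableSet_hasCut.compl

lemma det2_segVal (i k : ℕ) : Det2 i k fun q => segVal X Y q i k := fun q q' hX hY => by
  simp only [segVal, diffs, X.shiftAt_congr hX le_rfl, Y.shiftAt_congr hY le_rfl]
  refine Prod.ext rfl (Finset.biUnion_congr rfl fun r hr => Finset.biUnion_congr rfl fun t ht => ?_)
  rw [Finset.mem_range] at hr ht
  rw [hX r hr, hY t ht, X.level_congr hX hr.le, Y.level_congr hY ht.le, X.shiftAt_congr hX hr.le,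
    Y.shiftAt_congr hY ht.le]

lemma measurable_seg [MeasurableSpace (Finset Z2)] : Measurable (seg X Y a) :=
  (measurable_from_prod_countable_left
    (f := fun x : ((ℕ → BX) × (ℕ → BY)) × ℕ × ℕ => segVal X Y x.1 x.2.1 x.2.2)
    fun m => (det2_segVal m.1 m.2).measurable).comp
    (measurable_id.prodMk (measurable_iOne.prodMk measurable_kOne))

lemma waldX (hP : Pairing X Y) (ha : Straight X a) {φ : BX → ℝ} (hφ : Integrable φ X.law) :
    Integrable (fun q => ∑ r ∈ Finset.range (iOne X Y a q), φ (q.1 r)) (both X Y) ∧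
      ∫ q, ∑ r ∈ Finset.range (iOne X Y a q), φ (q.1 r) ∂both X Y
        = (∫ b, φ b ∂X.law) * ∑' r, (both X Y (noCutX X Y a r)).toReal :=
  wald (fun r q => q.1 r) (fun r => (measurable_pi_apply r).comp measurable_fst)
    (measurableSet_noCutX X Y a)
    (fun r s => both_fst X Y hP.goodX.prob hP.goodY.prob (measurableSet_noCutX X Y a r)
      (fun B A A' h => propext (forall₂_congr fun i hi => forall_congr' fun k =>
        not_congr (Iff.of_eq (det2_cut X Y a hi le_rfl (A, B) (A', B) h fun _ _ => rfl)))) s)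
    (tsum_noCutX_ne_top hP ha) measurable_iOne ((hasCut_ae hP ha).mono fun q h => lt_iOne h) hφ

lemma waldY (hP : Pairing X Y) (ha : Straight X a) {φ : BY → ℝ} (hφ : Integrable φ Y.law) :
    Integrable (fun q => ∑ r ∈ Finset.range (kOne X Y a q), φ (q.2 r)) (both X Y) ∧
      ∫ q, ∑ r ∈ Finset.range (kOne X Y a q), φ (q.2 r) ∂both X Y
        = (∫ b, φ b ∂Y.law) * ∑' r, (both X Y (noCutY X Y a r)).toReal :=
  wald (fun r q => q.2 r) (fun r => (measurable_pi_apply r).comp measurable_snd)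
    (measurableSet_noCutY X Y a)
    (fun r s => both_snd X Y hP.goodX.prob hP.goodY.prob (measurableSet_noCutY X Y a r)
      (fun A B B' h => propext (forall₂_congr fun k hk => forall_congr' fun i =>
        not_congr (Iff.of_eq (det2_cut X Y a le_rfl hk (A, B) (A, B') (fun _ _ => rfl) h)))) s)
    (tsum_noCutY_ne_top hP ha) measurable_kOne ((hasCut_ae hP ha).mono fun q h => lt_kOne h) hφ

/-- The mean step of a segment vanishes in a coordinate where the slopes agree. -/
lemma mean_zero (hP : Pairing X Y) (ha : Straight X a) {f : BX → ℝ} {g : BY → ℝ}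
    (hf : Integrable f X.law) (hg : Integrable g Y.law)
    (hs : (∫ b, f b ∂X.law) * (∫ b, (Y.depth b : ℝ) ∂Y.law)
      = (∫ b, g b ∂Y.law) * (∫ b, (X.depth b : ℝ) ∂X.law)) :
    Integrable (fun q => (∑ r ∈ Finset.range (iOne X Y a q), f (q.1 r))
        - ∑ r ∈ Finset.range (kOne X Y a q), g (q.2 r)) (both X Y) ∧
      ∫ q, (∑ r ∈ Finset.range (iOne X Y a q), f (q.1 r))
        - (∑ r ∈ Finset.range (kOne X Y a q), g (q.2 r)) ∂both X Y = 0 := by
  have := hP.goodY.prob
  have hdX : Integrable (fun b => (X.depth b : ℝ)) X.law :=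
    integrable_of_le hP.goodX.depth_mean fun b => by simp
  have hdY : Integrable (fun b => (Y.depth b : ℝ)) Y.law :=
    integrable_of_le hP.goodY.depth_mean fun b => by simp
  obtain ⟨iX, eX⟩ := waldX hP ha hf
  obtain ⟨iY, eY⟩ := waldY hP ha hg
  obtain ⟨-, eA⟩ := waldX hP ha hdX
  obtain ⟨-, eB⟩ := waldY hP ha hdY
  refine ⟨iX.sub iY, ?_⟩
  rw [integral_sub iX iY, eX, eY]
  have hlev : ∀ᵐ q ∂both X Y, ∑ r ∈ Finset.range (iOne X Y a q), (X.depth (q.1 r) : ℝ)
      = ∑ r ∈ Finset.range (kOne X Y a q), (Y.depth (q.2 r) : ℝ) := by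
    filter_upwards [ok_ae hP, hasCut_ae hP ha] with q hq h
    exact_mod_cast (cut_one hq h).2.1
  have h := integral_congr_ae hlev
  rw [eA, eB] at h
  have hpos : 1 ≤ ∫ b, (Y.depth b : ℝ) ∂Y.law := by
    have h1 := integral_mono_ae (integrable_const (1 : ℝ)) hdY
      (hP.goodY.depth_pos.mono fun b hb => show (1 : ℝ) ≤ Y.depth b by exact_mod_cast hb)
    simpa using h1
  refine sub_eq_zero.2 (mul_right_cancel₀ (zero_lt_one.trans_le hpos).ne' ?_)
  linear_combination (∑' r, (both X Y (noCutX X Y a r)).toReal) * hs + (∫ b, g b ∂Y.law) * h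

/-- The forbidden set of a segment has finite mean size. -/
theorem diffs_mean (hP : Pairing X Y) (ha : Straight X a) :
    ∫⁻ q, ((seg X Y a q).2.card : ℝ≥0∞) ∂both X Y ≠ ∞ := by
  classical
  have hpX := hP.goodX.prob
  have hpY := hP.goodY.prob
  set T := ∑' h, both X Y (noCutH X Y a h)
  set g : ℕ × ℕ → BX × BY → ((ℕ × Z2) × ℕ × Z2) → Set ((ℕ → BX) × (ℕ → BY)) := fun m ab yz =>
    boxAt X Y a yz.1.1 yz.2.1 m ∩ {q | q.1 m.1 = ab.1 ∧ q.2 m.2 = ab.2}
  set Φ : ℕ × ℕ → (ℕ → BX) × (ℕ → BY) → ℝ≥0∞ := fun m q =>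
    ∑' ab : BX × BY, ∑ yz ∈ X.sites ab.1 ×ˢ Y.sites ab.2, (g m ab yz).indicator 1 q
  have hgm : ∀ m ab yz, MeasurableSet (g m ab yz) := fun m ab yz => by
    have h1 : MeasurableSet {q : (ℕ → BX) × (ℕ → BY) | q.1 m.1 ∈ ({ab.1} : Set BX)} :=
      (measurable_pi_apply m.1).comp measurable_fst MeasurableSet.of_discrete
    have h2 : MeasurableSet {q : (ℕ → BX) × (ℕ → BY) | q.2 m.2 ∈ ({ab.2} : Set BY)} :=
      (measurable_pi_apply m.2).comp measurable_snd MeasurableSet.of_discrete
    exact (det2_boxAt _ _ m).measurableSet.inter (h1.inter h2)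
  have hΦm : ∀ m, Measurable (Φ m) := fun m => Measurable.tsum fun ab =>
    Finset.measurable_fun_sum _ fun yz _ => measurable_one.indicator (hgm m ab yz)
  have hpt : ∀ᵐ q ∂both X Y, ((seg X Y a q).2.card : ℝ≥0∞) ≤ ∑' m, Φ m q := by
    filter_upwards [hasCut_ae hP ha] with q h
    set i := iOne X Y a q with hi
    set k := kOne X Y a q
    have hcard : (seg X Y a q).2.card ≤ ∑ r ∈ Finset.range i, ∑ t ∈ Finset.range k,
        ((X.sites (q.1 r) ×ˢ Y.sites (q.2 t)).filter fun yz =>
          X.level q.1 r + yz.1.1 = Y.level q.2 t + yz.2.1).card :=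
      Finset.card_biUnion_le.trans (Finset.sum_le_sum fun r _ =>
        Finset.card_biUnion_le.trans (Finset.sum_le_sum fun t _ => Finset.card_image_le))
    refine (Nat.cast_le.2 hcard).trans ?_
    push_cast
    rw [← Finset.sum_product']
    refine (Finset.sum_le_sum fun m hm => ?_).trans
      (ENNReal.sum_le_tsum (Finset.range i ×ˢ Finset.range k))
    simp only [Φ]
    refine le_trans ?_ (ENNReal.le_tsum (q.1 m.1, q.2 m.2))
    rw [Finset.card_filter]
    push_cast
    refine Finset.sum_le_sum fun yz _ => ?_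
    split_ifs with he
    · suffices h1 : q ∈ g m (q.1 m.1, q.2 m.2) yz by
        rw [Set.indicator_of_mem h1, Pi.one_apply]
      refine ⟨⟨fun i' hi' k' _ hc => ?_, he⟩, rfl, rfl⟩
      have hr : m.1 < iOne X Y a q := Finset.mem_range.1 (Finset.mem_product.1 hm).1
      exact (lt_iOne h m.1).1 hr i' hi' k' hc
    · exact zero_le
  have hint : ∀ m, ∫⁻ q, Φ m q ∂both X Y = ∑' ab : BX × BY, (X.law {ab.1} * Y.law {ab.2}) *
      ∑ yz ∈ X.sites ab.1 ×ˢ Y.sites ab.2, both X Y (boxAt X Y a yz.1.1 yz.2.1 m) := fun m => by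
    rw [lintegral_tsum fun ab => (Finset.measurable_fun_sum _ fun yz _ =>
      measurable_one.indicator (hgm m ab yz)).aemeasurable]
    refine tsum_congr fun ab => ?_
    rw [lintegral_finsetSum _ fun yz _ => measurable_one.indicator (hgm m ab yz), Finset.mul_sum]
    refine Finset.sum_congr rfl fun yz _ => ?_
    rw [lintegral_indicator_one (hgm m ab yz), both_block X Y hpX hpY (det2_boxAt _ _ m),
      mul_comm]
  refine ne_top_of_le_ne_top ?_ ((lintegral_mono_ae hpt).trans_eq
    (lintegral_tsum fun m => (hΦm m).aemeasurable))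
  rw [tsum_congr hint, ENNReal.tsum_comm]
  refine ne_top_of_le_ne_top ?_ (ENNReal.tsum_le_tsum (g := fun ab : BX × BY =>
    ((X.sites ab.1).card * X.law {ab.1}) * ((Y.sites ab.2).card * Y.law {ab.2}) * T) fun ab => ?_)
  · rw [ENNReal.tsum_mul_right, ENNReal.tsum_prod' (f := fun ab : BX × BY =>
      ((X.sites ab.1).card * X.law {ab.1}) * ((Y.sites ab.2).card * Y.law {ab.2}))]
    simp only [ENNReal.tsum_mul_left, ENNReal.tsum_mul_right, ← lintegral_countable']
    exact ENNReal.mul_ne_top (ENNReal.mul_ne_top hP.goodX.sites_mean hP.goodY.sites_mean)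
      (tsum_noCutH_ne_top hP ha)
  · rw [ENNReal.tsum_mul_left, Summable.tsum_finsetSum fun _ _ => ENNReal.summable]
    refine (mul_le_mul' le_rfl (Finset.sum_le_sum fun yz _ =>
      tsum_boxAt_le hP yz.1.1 yz.2.1)).trans (le_of_eq ?_)
    rw [Finset.sum_const, Finset.card_product, nsmul_eq_mul]
    push_cast
    ring

/-- The segment steps and forbidden sets satisfy the hypotheses of the avoidance bound. -/
theorem seg_step (hP : Pairing X Y) (ha : Straight X a) :
    Step0 (segProb X Y a) Prod.fst ∧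
      ∑' j : Z2 × Finset Z2, segProb X Y a j * (j.2.card : ℝ≥0∞) ≠ ∞ := by
  classical
  let _ : MeasurableSpace (Finset Z2) := ⊤
  have : DiscreteMeasurableSpace (Finset Z2) := ⟨fun _ => trivial⟩
  have hpX := hP.goodX.prob
  have hpY := hP.goodY.prob
  have := isProb_both X Y hpX hpY
  have hsm : Measurable (seg X Y a) := measurable_seg
  set ν : Measure (Z2 × Finset Z2) := (both X Y).map (seg X Y a) with hν
  have : IsProbabilityMeasure ν := Measure.isProbabilityMeasure_map hsm.aemeasurable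
  have hp : ∀ j, segProb X Y a j = ν {j} := fun j => by
    rw [hν, Measure.map_apply hsm (measurableSet_singleton j)]
    rfl
  have hsum : ∀ f : Z2 × Finset Z2 → ℝ≥0∞,
      ∑' j, segProb X Y a j * f j = ∫⁻ q, f (seg X Y a q) ∂both X Y := fun f => by
    rw [← lintegral_map (measurable_of_countable f) hsm, ← hν, lintegral_countable']
    exact tsum_congr fun j => by rw [hp, mul_comm]
  have hreal : ∀ f : Z2 × Finset Z2 → ℝ, Integrable (fun q => f (seg X Y a q)) (both X Y) →
      ∑' j, (segProb X Y a j).toReal * f j = ∫ q, f (seg X Y a q) ∂both X Y := fun f hf => by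
    have hi : Integrable f ν :=
      (integrable_map_measure (measurable_of_countable f).aestronglyMeasurable hsm.aemeasurable).2 hf
    rw [← integral_map hsm.aemeasurable (measurable_of_countable f).aestronglyMeasurable, ← hν,
      integral_countable hi]
    exact tsum_congr fun j => by rw [hp, smul_eq_mul, measureReal_def]
  obtain ⟨i1, e1⟩ := mean_zero (a := a) hP ha
    (integrable_of_le hP.goodX.disp_mean fun b => show |((X.disp b).1 : ℝ)| ≤ len (X.disp b) by
      rw [len, Nat.cast_add, ← Int.cast_abs, ← Nat.cast_natAbs]; simp)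
    (integrable_of_le hP.goodY.disp_mean fun b => show |((Y.disp b).1 : ℝ)| ≤ len (Y.disp b) by
      rw [len, Nat.cast_add, ← Int.cast_abs, ← Nat.cast_natAbs]; simp) hP.slope₁
  obtain ⟨i2, e2⟩ := mean_zero (a := a) hP ha
    (integrable_of_le hP.goodX.disp_mean fun b => show |((X.disp b).2 : ℝ)| ≤ len (X.disp b) by
      rw [len, Nat.cast_add, ← Int.cast_abs, ← Nat.cast_natAbs]; simp)
    (integrable_of_le hP.goodY.disp_mean fun b => show |((Y.disp b).2 : ℝ)| ≤ len (Y.disp b) by
      rw [len, Nat.cast_add, ← Int.cast_abs, ← Nat.cast_natAbs]; simp) hP.slope₂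
  have w1 : ∀ q, ((seg X Y a q).1.1 : ℝ) = (∑ r ∈ Finset.range (iOne X Y a q),
      ((X.disp (q.1 r)).1 : ℝ)) - ∑ r ∈ Finset.range (kOne X Y a q), ((Y.disp (q.2 r)).1 : ℝ) :=
    fun q => by simp [seg, segVal, Kind.shiftAt, Prod.fst_sum]
  have w2 : ∀ q, ((seg X Y a q).1.2 : ℝ) = (∑ r ∈ Finset.range (iOne X Y a q),
      ((X.disp (q.1 r)).2 : ℝ)) - ∑ r ∈ Finset.range (kOne X Y a q), ((Y.disp (q.2 r)).2 : ℝ) :=
    fun q => by simp [seg, segVal, Kind.shiftAt, Prod.snd_sum]
  simp only [← w1] at i1 e1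
  simp only [← w2] at i2 e2
  have hatom : ∀ u ∈ ({0, (-1, 0), (0, -1)} : Finset Z2),
      ∃ j, segProb X Y a j ≠ 0 ∧ j.1 = -u := fun u hu => by
    obtain ⟨b, hb, hbd, hbu⟩ := hP.short u hu
    refine ⟨(-u, diffs X Y (fun _ => a, fun _ => b) 1 1), ?_, rfl⟩
    refine (lt_of_lt_of_le (pos_iff_ne_zero.2 (mul_ne_zero ha.pos hb)) ?_).ne'
    have hev : both X Y (Set.univ ∩ {q | q.1 0 = a ∧ q.2 0 = b}) = X.law {a} * Y.law {b} := by
      rw [both_block X Y hpX hpY (i := 0) (k := 0) (fun _ _ _ _ => rfl), measure_univ, one_mul]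
    rw [← hev, Set.univ_inter]
    refine measure_mono fun q hq => ?_
    obtain ⟨h1, h2⟩ := hq
    have hc : Cut X Y a q 1 1 :=
      ⟨le_rfl, by simp [Kind.level, h1, h2, ha.depth, hbd], h1⟩
    have hi : iOne X Y a q = 1 := (Nat.find_eq_iff _).2 ⟨Or.inl ⟨1, hc⟩, fun n hn => by
      rintro (⟨k, hk⟩ | hn')
      · have := hk.1; omega
      · exact hn' ⟨1, 1, hc⟩⟩
    have hk : kOne X Y a q = 1 := (Nat.find_eq_iff _).2 ⟨Or.inl ⟨1, hc⟩, fun n hn => by
      rintro (⟨i, hik⟩ | hn')
      · have e := hik.2.1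
        have := X.level_mono q.1 hik.1
        obtain rfl : n = 0 := by omega
        have e1 : X.level q.1 1 = 1 := by simp [Kind.level, h1, ha.depth]
        have e0 : Y.level q.2 0 = 0 := rfl
        omega
      · exact hn' ⟨1, 1, hc⟩⟩
    show seg X Y a q = _
    rw [seg, hi, hk]
    have hdet : segVal X Y q 1 1 = segVal X Y (fun _ => a, fun _ => b) 1 1 :=
      det2_segVal 1 1 _ _ (fun r hr => by obtain rfl : r = 0 := by omega
                                          exact h1)
        (fun r hr => by obtain rfl : r = 0 := by omega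
                        exact h2)
    rw [hdet]
    simp [segVal, Kind.shiftAt, ha.disp, hbu]
  refine ⟨⟨?_, ?_, ?_, ?_, ?_, ?_, ?_⟩, ?_⟩
  · simpa using hsum fun _ => 1
  · simpa using hatom 0 (by simp)
  · simpa using hatom (-1, 0) (by simp)
  · simpa using hatom (0, -1) (by simp)
  · rw [hsum]
    refine ne_top_of_le_ne_top (i1.abs.add i2.abs).2.ne (lintegral_mono fun q => le_of_eq ?_)
    simp only [Pi.add_apply]
    rw [Real.enorm_of_nonneg (by positivity), ← ENNReal.ofReal_natCast]
    congr 1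
    rw [Nat.cast_add, Nat.cast_natAbs, Nat.cast_natAbs, Int.cast_abs, Int.cast_abs]
  · exact (hreal _ i1).trans e1
  · exact (hreal _ i2).trans e2
  · rw [hsum]
    exact diffs_mean hP ha

end Vale.Agent.P147.Planar
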