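import Vale.Agent.P147.Planar.SegmentLaw

/-!
P147: avoiding the forbidden sets of the segments avoids every meeting of the two streams.
-/

open MeasureTheory Filter
open scoped ENNReal Topology

noncomputable section

set_option linter.unusedSectionVars false
set_option linter.unusedVariables.funArgs false

namespace Vale.Agent.P147.Planar

variable {BX BY : Type} [MeasurableSpace BX] [MeasurableSpace BY] (X : Kind BX) (Y : Kind BY)
  (a : BX)

/-- The blocks `i` and `k` form the first cut, and the segment before it has value `j`. -/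
def firstVal (m : ℕ × ℕ) (j : Z2 × Finset Z2) : Set ((ℕ → BX) × (ℕ → BY)) :=
  {q | Cut X Y a q m.1 m.2 ∧
    (∀ i ≤ m.1, ∀ k ≤ m.2, Cut X Y a q i k → i = m.1 ∧ k = m.2) ∧ segVal X Y q m.1 m.2 = j}

/-- The first `n` segments exist and avoid their forbidden sets, starting from the offset `v`. -/
def avoided : ℕ → Z2 → Set ((ℕ → BX) × (ℕ → BY))
  | 0, _ => Set.univ
  | n + 1, v => ⋃ x : (ℕ × ℕ) × Z2 × Finset Z2, if v ∈ x.2.2 then ∅ else
      firstVal X Y a x.1 x.2 ∩ shf2 x.1.1 x.1.2 ⁻¹' avoided n (v + x.2.1)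

variable [DiscreteMeasurableSpace BX] [Countable BX] [DiscreteMeasurableSpace BY] [Countable BY]

lemma det2_firstVal (m : ℕ × ℕ) (j : Z2 × Finset Z2) :
    Det2 m.1 m.2 fun q => q ∈ firstVal X Y a m j := fun q q' hX hY => propext (and_congr
  (Iff.of_eq (det2_cut X Y a le_rfl le_rfl q q' hX hY)) (and_congr
    (forall₂_congr fun i hi => forall₂_congr fun k hk =>
      imp_congr (Iff.of_eq (det2_cut X Y a hi hk q q' hX hY)) Iff.rfl)
    (Eq.congr_left (det2_segVal m.1 m.2 q q' hX hY))))

lemma measurableSet_avoided : ∀ n v, MeasurableSet (avoided X Y a n v) := by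
  intro n
  induction n with
  | zero => exact fun _ => MeasurableSet.univ
  | succ n ih =>
    intro v
    refine MeasurableSet.iUnion fun x => ?_
    split_ifs
    · exact MeasurableSet.empty
    · exact (det2_firstVal X Y a x.1 x.2).measurableSet.inter (measurable_shf2 _ _ (ih _))

variable {X Y a}

/-- The streams avoid the forbidden sets at least as often as the walk of segments. -/
lemma safe_le_avoided (hP : Pairing X Y) (ha : Straight X a) :
    ∀ n v, safe (segProb X Y a) Prod.fst Prod.snd n v ≤ both X Y (avoided X Y a n v) := by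
  have hpX := hP.goodX.prob
  have hpY := hP.goodY.prob
  have := isProb_both X Y hpX hpY
  intro n
  induction n with
  | zero => intro v; simp [safe, avoided]
  | succ n ih =>
    intro v
    have hcover : ∀ j, segProb X Y a j ≤ ∑' m, both X Y (firstVal X Y a m j) := fun j => by
      refine le_trans (measure_mono_ae ?_) (measure_iUnion_le _)
      filter_upwards [ok_ae hP, hasCut_ae hP ha] with q hq h (hj : seg X Y a q = j)
      refine Set.mem_iUnion.2 ⟨(iOne X Y a q, kOne X Y a q), cut_one hq h,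
        fun i hi k hk hik => ⟨?_, ?_⟩, hj⟩
      · exact le_antisymm hi (not_lt.1 fun hlt => (lt_iOne h i).1 hlt i le_rfl k hik)
      · exact le_antisymm hk (not_lt.1 fun hlt => (lt_kOne h k).1 hlt k le_rfl i hik)
    have hm : ∀ x : (ℕ × ℕ) × Z2 × Finset Z2, MeasurableSet (if v ∈ x.2.2 then ∅ else
        firstVal X Y a x.1 x.2 ∩ shf2 x.1.1 x.1.2 ⁻¹' avoided X Y a n (v + x.2.1)) := fun x => by
      split_ifs
      · exact MeasurableSet.empty
      · exact (det2_firstVal X Y a x.1 x.2).measurableSet.inter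
          (measurable_shf2 _ _ (measurableSet_avoided X Y a _ _))
    have hd : ∀ q, Ok X Y q → ∀ x x' : (ℕ × ℕ) × Z2 × Finset Z2,
        q ∈ firstVal X Y a x.1 x.2 → q ∈ firstVal X Y a x'.1 x'.2 →
        X.level q.1 x.1.1 ≤ X.level q.1 x'.1.1 → x = x' := fun q hq x x' hx hx' hle => by
      have hk : x.1.2 ≤ x'.1.2 := (Y.level_strictMono hq.depY).le_iff_le.1
        (hx.1.2.1.ge.trans (hle.trans hx'.1.2.1.le))
      have hm' := hx'.2.1 x.1.1 ((X.level_strictMono hq.depX).le_iff_le.1 hle) x.1.2 hk hx.1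
      have h1 : x.1 = x'.1 := Prod.ext hm'.1 hm'.2
      exact Prod.ext h1 (hx.2.2.symm.trans (h1 ▸ hx'.2.2))
    rw [avoided, measure_iUnion_ok hP hm fun q hq x x' hx hx' => ?_,
      ENNReal.tsum_prod' (f := fun x : (ℕ × ℕ) × Z2 × Finset Z2 => both X Y (if v ∈ x.2.2 then ∅
        else firstVal X Y a x.1 x.2 ∩ shf2 x.1.1 x.1.2 ⁻¹' avoided X Y a n (v + x.2.1))),
      ENNReal.tsum_comm]
    · refine ENNReal.tsum_le_tsum fun j => ?_
      split_ifs with hv
      · simp
      · simp only [both_split X Y hpX hpY (det2_firstVal X Y a _ j)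
          (measurableSet_avoided X Y a n (v + j.1)), ENNReal.tsum_mul_right]
        exact mul_le_mul' (hcover j) (ih _)
    · split_ifs at hx hx' with h1 h2
      · exact hx.elim
      · exact hx.elim
      · exact hx'.elim
      · exact (le_total _ _).elim (hd q hq x x' hx.1 hx'.1)
          fun h => (hd q hq x' x hx'.1 hx.1 h).symm

/-- Avoiding the forbidden sets avoids all meetings above the start of block `n`. -/
lemma no_meet_of_avoided (ha : Straight X a) :
    ∀ n v q, Ok X Y q → q ∈ avoided X Y a n v → ∀ i k z w, X.Uses q.1 i z → Y.Uses q.2 k w →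
      z.1 = w.1 → z.1 < X.level q.1 n → z.2 + v ≠ w.2 := by
  intro n
  induction n with
  | zero => intro v q _ _ i k z w _ _ _ hlt; simp [Kind.level] at hlt
  | succ n ih =>
    intro v q hq hav i k z w hz hw hzw hlt heq
    obtain ⟨⟨⟨i₁, k₁⟩, j⟩, hx⟩ := Set.mem_iUnion.1 hav
    dsimp only at hx
    split_ifs at hx with hv
    · exact hx.elim
    obtain ⟨⟨hcut, -, hj⟩, hnext⟩ := hx
    dsimp only at hcut hj hnext
    subst hj
    obtain ⟨hi₁, hlev, hlast⟩ := hcut
    obtain ⟨y, hy, rfl⟩ := hz
    obtain ⟨y', hy', rfl⟩ := hw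
    dsimp only at hzw hlt heq
    have mX := X.level_strictMono hq.depX
    have mY := Y.level_strictMono hq.depY
    by_cases hH : X.level q.1 i + y.1 < X.level q.1 i₁
    · have hi : i < i₁ := mX.lt_iff_lt.1 (by omega)
      have hk : k < k₁ := mY.lt_iff_lt.1 (by omega)
      refine hv (Finset.mem_biUnion.2 ⟨i, Finset.mem_range.2 hi, Finset.mem_biUnion.2
        ⟨k, Finset.mem_range.2 hk, Finset.mem_image.2 ⟨(y, y'), Finset.mem_filter.2
          ⟨Finset.mem_product.2 ⟨hy, hy'⟩, hzw⟩, ?_⟩⟩⟩)
      show Y.shiftAt q.2 k + y'.2 - (X.shiftAt q.1 i + y.2) = v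
      rw [← heq]
      abel
    · obtain ⟨i', u, hu, hzu, hzu2⟩ : ∃ i' u, u ∈ X.sites ((shf i₁ q.1) i') ∧
          X.level q.1 i + y.1 = X.level q.1 i₁ + (X.level (shf i₁ q.1) i' + u.1) ∧
          X.shiftAt q.1 i + y.2 = X.shiftAt q.1 i₁ + (X.shiftAt (shf i₁ q.1) i' + u.2) := by
        rcases le_or_gt i₁ i with h | h
        · obtain ⟨r, rfl⟩ := Nat.exists_eq_add_of_le h
          exact ⟨r, y, hy, by rw [X.level_add]; omega, by rw [X.shiftAt_add, add_assoc]⟩
        · refine ⟨0, (0, 0), hq.origX (i₁ + 0), ?_⟩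
          have h1 := hq.leX i y hy
          have h2 : X.level q.1 (i + 1) ≤ X.level q.1 i₁ := mX.monotone h
          rw [X.level_succ] at h2
          have h3 : i + 1 = i₁ := mX.injective (by rw [X.level_succ]; omega)
          subst h3
          have h4 : q.1 i = a := by simpa using hlast
          rw [h4] at hy h1
          have hd := ha.depth
          have hy1 : y.1 = 1 := by
            rw [X.level_succ, h4] at hH
            omega
          have hy2 := ha.top y hy hy1
          refine ⟨?_, ?_⟩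
          · simp [Kind.level, Finset.sum_range_succ, h4, hd, hy1]
          · simp [Kind.shiftAt, Finset.sum_range_succ, h4, ha.disp, hy2]
      obtain ⟨k', u', hu', hwu, hwu2⟩ : ∃ k' u', u' ∈ Y.sites ((shf k₁ q.2) k') ∧
          Y.level q.2 k + y'.1 = Y.level q.2 k₁ + (Y.level (shf k₁ q.2) k' + u'.1) ∧
          Y.shiftAt q.2 k + y'.2 = Y.shiftAt q.2 k₁ + (Y.shiftAt (shf k₁ q.2) k' + u'.2) := by
        rcases le_or_gt k₁ k with h | h
        · obtain ⟨r, rfl⟩ := Nat.exists_eq_add_of_le h
          exact ⟨r, y', hy', by rw [Y.level_add]; omega, by rw [Y.shiftAt_add, add_assoc]⟩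
        · refine ⟨0, (0, 0), hq.origY (k₁ + 0), ?_⟩
          have h1 := hq.leY k y' hy'
          have h2 : Y.level q.2 (k + 1) ≤ Y.level q.2 k₁ := mY.monotone h
          rw [Y.level_succ] at h2
          have h3 : k + 1 = k₁ := mY.injective (by rw [Y.level_succ]; omega)
          subst h3
          have hy1 : y'.1 = Y.depth (q.2 k) := by
            rw [Y.level_succ] at hlev
            omega
          have hy2 := hq.bot k y' hy' hy1
          refine ⟨?_, ?_⟩
          · simp [Kind.level, Finset.sum_range_succ, hy1]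
          · simp [Kind.shiftAt, Finset.sum_range_succ, hy2]
      refine ih _ (shf2 i₁ k₁ q) (hq.shift i₁ k₁) hnext i' k'
        (X.level (shf i₁ q.1) i' + u.1, X.shiftAt (shf i₁ q.1) i' + u.2)
        (Y.level (shf k₁ q.2) k' + u'.1, Y.shiftAt (shf k₁ q.2) k' + u'.2)
        ⟨u, hu, rfl⟩ ⟨u', hu', rfl⟩ (by dsimp only; omega) ?_ ?_
      · show X.level (shf i₁ q.1) i' + u.1 < X.level (shf i₁ q.1) n
        have h1 := mX.monotone (show n + 1 ≤ i₁ + n by omega)
        rw [X.level_add q.1 i₁ n] at h1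
        omega
      · show X.shiftAt (shf i₁ q.1) i' + u.2 + (v + (X.shiftAt q.1 i₁ - Y.shiftAt q.2 k₁))
          = Y.shiftAt (shf k₁ q.2) k' + u'.2
        rw [hzu2, hwu2] at heq
        rw [← add_left_cancel_iff (a := Y.shiftAt q.2 k₁), ← heq]
        abel

/-- Module Segments. -/
theorem avoid (hloc : LocalStmt) : AvoidStmt := by
  intro BX BY _ _ _ _ _ _ X Y hP e he
  obtain ⟨a, ha1, ha2, ha3, ha4⟩ := hP.straight
  have ha : Straight X a := ⟨ha1, ha2, ha3, ha4⟩
  obtain ⟨hstep, hF⟩ := seg_step hP ha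
  obtain ⟨l, hl, hsum⟩ := safe_sum hloc hstep hF he
  refine ⟨l, hl, eq_top_iff.2 ?_⟩
  rw [tsum_eq_zero_add' ENNReal.summable, ENNReal.add_eq_top] at hsum
  rcases hsum with h | h
  · simp [safe] at h
  rw [← h]
  refine ENNReal.tsum_le_tsum fun N => (safe_le_avoided hP ha (N + 1) _).trans
    (measure_mono_ae ?_)
  filter_upwards [ok_ae hP] with q hq hav i hi k z w hz hw hzw
  refine no_meet_of_avoided ha (N + 1) _ q hq hav i k z w hz hw hzw ?_
  obtain ⟨y, hy, rfl⟩ := hz
  have h1 := hq.leX i y hy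
  have h2 := (X.level_strictMono hq.depX).monotone (show i + 1 ≤ N by omega)
  have h3 : X.level q.1 N < X.level q.1 (N + 1) :=
    X.level_strictMono hq.depX (Nat.lt_succ_self N)
  rw [X.level_succ] at h2
  dsimp only
  omega

end Vale.Agent.P147.Planar
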