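import Vale.Agent.P147.Planar.Strands

/-!
P147: streams of iid blocks: the first blocks are independent of the shifted stream.
-/

open MeasureTheory
open scoped ENNReal

set_option linter.unusedSectionVars false

noncomputable section

namespace Vale.Agent.P147.Planar

variable {B BX BY : Type}

/-- The stream after its first `i` blocks. -/
def shf (i : ℕ) (A : ℕ → B) : ℕ → B := fun r => A (i + r)

/-- A function of the first `i` blocks only. -/
def Det {α : Sort*} (i : ℕ) (f : (ℕ → B) → α) : Prop :=
  ∀ A A', (∀ r < i, A r = A' r) → f A = f A'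

/-- A function of the first `i` and `k` blocks of the two streams only. -/
def Det2 {α : Sort*} (i k : ℕ) (f : (ℕ → BX) × (ℕ → BY) → α) : Prop :=
  ∀ q q' : (ℕ → BX) × (ℕ → BY), (∀ r < i, q.1 r = q'.1 r) → (∀ r < k, q.2 r = q'.2 r) → f q = f q'

/-- The two shifted streams. -/
def shf2 (i k : ℕ) (q : (ℕ → BX) × (ℕ → BY)) : (ℕ → BX) × (ℕ → BY) := (shf i q.1, shf k q.2)

section

variable [MeasurableSpace B] [MeasurableSpace BX] [MeasurableSpace BY]

lemma measurable_shf (i : ℕ) : Measurable (shf (B := B) i) :=
  measurable_pi_iff.2 fun _ => measurable_pi_apply _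

lemma measurable_shf2 (i k : ℕ) : Measurable (shf2 (BX := BX) (BY := BY) i k) :=
  ((measurable_shf i).comp measurable_fst).prodMk ((measurable_shf k).comp measurable_snd)

variable [DiscreteMeasurableSpace B] [Countable B]
  [DiscreteMeasurableSpace BX] [Countable BX] [DiscreteMeasurableSpace BY] [Countable BY]

lemma Det2.measurable {α : Type*} [MeasurableSpace α] {i k : ℕ}
    {f : (ℕ → BX) × (ℕ → BY) → α} (h : Det2 i k f) : Measurable f := by
  rcases isEmpty_or_nonempty ((ℕ → BX) × (ℕ → BY)) with he | ⟨⟨A₀, B₀⟩⟩
  · exact measurable_of_empty f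
  have e : f = (fun x : (Fin i → BX) × (Fin k → BY) =>
      f (fun r => if hr : r < i then x.1 ⟨r, hr⟩ else A₀ r,
        fun r => if hr : r < k then x.2 ⟨r, hr⟩ else B₀ r)) ∘
      fun q => ((fun r : Fin i => q.1 r), fun r : Fin k => q.2 r) := funext fun q =>
    h q _ (fun r hr => by simp [hr]) (fun r hr => by simp [hr])
  rw [e]
  exact (measurable_of_countable _).comp (Measurable.prodMk (by fun_prop) (by fun_prop))

lemma Det2.measurableSet {i k : ℕ} {E : Set ((ℕ → BX) × (ℕ → BY))}
    (h : Det2 i k fun q => q ∈ E) : MeasurableSet E :=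
  measurable_mem.1 h.measurable

end

variable [MeasurableSpace B] [MeasurableSpace BX] [MeasurableSpace BY]

/-- A block put in front of a stream. -/
def cons (b : B) (A : ℕ → B) : ℕ → B
  | 0 => b
  | r + 1 => A r

lemma measurable_cons : Measurable fun p : B × (ℕ → B) => cons p.1 p.2 :=
  measurable_pi_iff.2 fun r => by
    cases r with
    | zero => exact measurable_fst
    | succ r => exact (measurable_pi_apply r).comp measurable_snd

/-- The law of the stream is the law of a first block followed by an independent stream. -/
lemma stream_cons (K : Kind B) (hK : IsProbabilityMeasure K.law) :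
    K.stream = (K.law.prod K.stream).map fun p => cons p.1 p.2 := by
  classical
  have : IsProbabilityMeasure K.stream := by unfold Kind.stream; infer_instance
  refine (Measure.eq_infinitePi _ fun s t ht => ?_).symm
  rw [Measure.map_apply measurable_cons (MeasurableSet.pi s.countable_toSet fun r _ => ht r)]
  set s' := s.preimage Nat.succ Nat.succ_injective.injOn
  have hpre : (fun p : B × (ℕ → B) => cons p.1 p.2) ⁻¹' Set.pi s t
      = (if 0 ∈ s then t 0 else Set.univ) ×ˢ Set.pi s' fun r => t (r + 1) := by
    ext ⟨b, A⟩
    simp only [Set.mem_preimage, Set.mem_pi, Finset.mem_coe, Set.mem_prod, s', Finset.mem_preimage]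
    refine ⟨fun h => ⟨?_, fun r hr => h (r + 1) hr⟩, fun h r hr => ?_⟩
    · split_ifs with h0
      · exact h 0 h0
      · trivial
    · cases r with
      | zero => simpa [hr, cons] using h.1
      | succ r => exact h.2 r hr
  rw [hpre, Measure.prod_prod, Kind.stream, Measure.infinitePi_pi _ fun r _ => ht _]
  have hs : ∏ r ∈ s', K.law (t (r + 1)) = ∏ r ∈ s.erase 0, K.law (t r) :=
    Finset.prod_bij' (fun r _ => r + 1) (fun r _ => r - 1)
      (fun r hr => by simpa [s'] using hr)
      (fun r hr => by
        obtain ⟨h0, hr⟩ := Finset.mem_erase.1 hr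
        simpa [s', Nat.sub_add_cancel (Nat.one_le_iff_ne_zero.2 h0)] using hr)
      (fun r _ => rfl)
      (fun r hr => Nat.sub_add_cancel (Nat.one_le_iff_ne_zero.2 (Finset.mem_erase.1 hr).1))
      (fun r _ => rfl)
  rw [hs]
  split_ifs with h0
  · exact Finset.mul_prod_erase s (fun r => K.law (t r)) h0
  · rw [Finset.erase_eq_of_notMem h0, measure_univ, one_mul]

lemma lintegral_cons (K : Kind B) (hK : IsProbabilityMeasure K.law) {f : (ℕ → B) → ℝ≥0∞}
    (hf : Measurable f) :
    ∫⁻ A, f A ∂K.stream = ∫⁻ b, ∫⁻ A, f (cons b A) ∂K.stream ∂K.law := by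
  have : IsProbabilityMeasure K.stream := by unfold Kind.stream; infer_instance
  conv_lhs => rw [stream_cons K hK, lintegral_map hf measurable_cons]
  exact lintegral_prod (fun p : B × (ℕ → B) => f (cons p.1 p.2))
    (hf.comp measurable_cons).aemeasurable

/-- The first blocks are independent of the shifted stream. -/
lemma lintegral_split (K : Kind B) (hK : IsProbabilityMeasure K.law) {g : (ℕ → B) → ℝ≥0∞}
    (hg : Measurable g) :
    ∀ (i : ℕ) (f : (ℕ → B) → ℝ≥0∞), Det i f → Measurable f →
      ∫⁻ A, f A * g (shf i A) ∂K.stream = (∫⁻ A, f A ∂K.stream) * ∫⁻ A, g A ∂K.stream := by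
  have : IsProbabilityMeasure K.stream := by unfold Kind.stream; infer_instance
  intro i
  induction i with
  | zero =>
    intro f hf hfm
    rcases isEmpty_or_nonempty (ℕ → B) with he | ⟨⟨A₀⟩⟩
    · simp
    · have e : f = fun _ => f A₀ := funext fun A => hf A A₀ (by omega)
      have e' : ∀ A : ℕ → B, shf 0 A = A := fun A => funext fun r => by simp [shf]
      rw [e]
      simp only [e']
      rw [lintegral_const_mul _ hg, lintegral_const, measure_univ, mul_one]
  | succ i ih =>
    intro f hf hfm
    have key : ∀ b : B, ∫⁻ A, f (cons b A) * g (shf (i + 1) (cons b A)) ∂K.stream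
        = (∫⁻ A, f (cons b A) ∂K.stream) * ∫⁻ A, g A ∂K.stream := fun b => by
      have e : ∀ A : ℕ → B, shf (i + 1) (cons b A) = shf i A :=
        fun A => funext fun r => by
          show cons b A (i + 1 + r) = A (i + r)
          rw [show i + 1 + r = (i + r) + 1 by omega]
          rfl
      simp only [e]
      exact ih (fun A => f (cons b A)) (fun A A' h => hf _ _ fun r hr => by
        cases r with
        | zero => rfl
        | succ r => exact h r (by omega))
        (hfm.comp (measurable_cons.comp measurable_prodMk_left))
    rw [lintegral_cons K hK (f := fun A => f A * g (shf (i + 1) A))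
      (hfm.mul (hg.comp (measurable_shf _))), lintegral_cons K hK hfm]
    simp only [key]
    refine lintegral_mul_const _ ?_
    exact Measurable.lintegral_prod_right'
      (f := fun p : B × (ℕ → B) => f (cons p.1 p.2)) (hfm.comp measurable_cons)

lemma stream_eval (K : Kind B) (hK : IsProbabilityMeasure K.law) (r : ℕ) {s : Set B}
    (hs : MeasurableSet s) : K.stream {A | A r ∈ s} = K.law s :=
  (measurePreserving_eval_infinitePi (fun _ => K.law) r).measure_preimage hs.nullMeasurableSet

variable (X : Kind BX) (Y : Kind BY)

/-- The law of the two streams. -/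
def both : Measure ((ℕ → BX) × (ℕ → BY)) := X.stream.prod Y.stream

lemma isProb_both (hX : IsProbabilityMeasure X.law) (hY : IsProbabilityMeasure Y.law) :
    IsProbabilityMeasure (both X Y) := by
  unfold both Kind.stream; infer_instance

variable [DiscreteMeasurableSpace BX] [Countable BX] [DiscreteMeasurableSpace BY] [Countable BY]

/-- The first blocks of both streams are independent of both shifted streams. -/
theorem both_split (hX : IsProbabilityMeasure X.law) (hY : IsProbabilityMeasure Y.law) {i k : ℕ}
    {E S : Set ((ℕ → BX) × (ℕ → BY))} (hE : Det2 i k fun q => q ∈ E) (hS : MeasurableSet S) :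
    both X Y (E ∩ shf2 i k ⁻¹' S) = both X Y E * both X Y S := by
  classical
  have : IsProbabilityMeasure X.stream := by unfold Kind.stream; infer_instance
  have : IsProbabilityMeasure Y.stream := by unfold Kind.stream; infer_instance
  have hEm := hE.measurableSet
  rw [both, Measure.prod_apply_symm (hEm.inter (measurable_shf2 i k hS)),
    Measure.prod_apply_symm hEm, Measure.prod_apply_symm hS]
  have hin : ∀ B : ℕ → BY, X.stream ((fun A => (A, B)) ⁻¹' (E ∩ shf2 i k ⁻¹' S)) =
      X.stream ((fun A => (A, B)) ⁻¹' E) * X.stream ((fun A => (A, shf k B)) ⁻¹' S) := fun B => by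
    have hE' : MeasurableSet ((fun A => (A, B)) ⁻¹' E) := measurable_prodMk_right hEm
    have hS' : MeasurableSet ((fun A => (A, shf k B)) ⁻¹' S) := measurable_prodMk_right hS
    have h := lintegral_split X hX (g := ((fun A => (A, shf k B)) ⁻¹' S).indicator 1)
      (measurable_one.indicator hS') i (((fun A => (A, B)) ⁻¹' E).indicator 1)
      (fun A A' h => by
        have h' : ((A, B) ∈ E) = ((A', B) ∈ E) := hE (A, B) (A', B) h fun r _ => rfl
        simp [Set.indicator_apply, h'])
      (measurable_one.indicator hE')
    rw [lintegral_indicator_one hE', lintegral_indicator_one hS'] at h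
    rw [← h, ← lintegral_indicator_one (measurable_prodMk_right (hEm.inter (measurable_shf2 i k hS)))]
    refine lintegral_congr fun A => ?_
    simp only [Set.indicator_apply, Set.mem_preimage, Set.mem_inter_iff, shf2, Pi.one_apply]
    split_ifs with h1 h2 <;> simp_all
  simp only [hin]
  exact lintegral_split Y hY (g := fun B => X.stream ((fun A => (A, B)) ⁻¹' S))
    (measurable_measure_prodMk_right hS) k (fun B => X.stream ((fun A => (A, B)) ⁻¹' E))
    (fun B B' h => congrArg X.stream (Set.ext fun A => Iff.of_eq (hE (A, B) (A, B') (fun r _ => rfl) h)))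
    (measurable_measure_prodMk_right hEm)

/-- Two fresh blocks are independent of the earlier ones. -/
theorem both_block (hX : IsProbabilityMeasure X.law) (hY : IsProbabilityMeasure Y.law) {i k : ℕ}
    {E : Set ((ℕ → BX) × (ℕ → BY))} (hE : Det2 i k fun q => q ∈ E) (a : BX) (b : BY) :
    both X Y (E ∩ {q | q.1 i = a ∧ q.2 k = b}) = both X Y E * (X.law {a} * Y.law {b}) := by
  have : IsProbabilityMeasure Y.stream := by unfold Kind.stream; infer_instance
  have h := both_split X Y hX hY hE (S := {A : ℕ → BX | A 0 ∈ ({a} : Set BX)} ×ˢ {B : ℕ → BY | B 0 ∈ ({b} : Set BY)})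
    ((measurable_pi_apply 0 (MeasurableSet.of_discrete)).prod
      (measurable_pi_apply 0 (MeasurableSet.of_discrete)))
  rw [both, Measure.prod_prod, stream_eval X hX 0 .of_discrete, stream_eval Y hY 0 .of_discrete,
    ← both] at h
  rw [← h]
  congr 1

/-- A fresh block of the first stream is independent of its earlier blocks and the second. -/
theorem both_fst (hX : IsProbabilityMeasure X.law) (hY : IsProbabilityMeasure Y.law) {i : ℕ}
    {E : Set ((ℕ → BX) × (ℕ → BY))} (hEm : MeasurableSet E)
    (hE : ∀ B, Det i fun A => (A, B) ∈ E) (s : Set BX) :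
    both X Y (E ∩ {q | q.1 i ∈ s}) = both X Y E * X.law s := by
  classical
  have : IsProbabilityMeasure X.stream := by unfold Kind.stream; infer_instance
  have : IsProbabilityMeasure Y.stream := by unfold Kind.stream; infer_instance
  have hs : MeasurableSet {q : (ℕ → BX) × (ℕ → BY) | q.1 i ∈ s} :=
    (measurable_pi_apply i).comp measurable_fst MeasurableSet.of_discrete
  rw [both, Measure.prod_apply_symm (hEm.inter hs), Measure.prod_apply_symm hEm,
    ← lintegral_mul_const _ (measurable_measure_prodMk_right hEm)]
  refine lintegral_congr fun B => ?_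
  have hE' : MeasurableSet ((fun A => (A, B)) ⁻¹' E) := measurable_prodMk_right hEm
  have hS' : MeasurableSet {A : ℕ → BX | A 0 ∈ s} :=
    measurable_pi_apply 0 MeasurableSet.of_discrete
  have h := lintegral_split X hX (g := Set.indicator {A : ℕ → BX | A 0 ∈ s} 1)
    (measurable_one.indicator hS') i (((fun A => (A, B)) ⁻¹' E).indicator 1)
    (fun A A' h => by
      have h' : ((A, B) ∈ E) = ((A', B) ∈ E) := hE B A A' h
      simp [Set.indicator_apply, h'])
    (measurable_one.indicator hE')
  rw [lintegral_indicator_one hE', lintegral_indicator_one hS',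
    stream_eval X hX 0 .of_discrete] at h
  rw [← h, ← lintegral_indicator_one (measurable_prodMk_right (hEm.inter hs))]
  refine lintegral_congr fun A => ?_
  simp only [Set.indicator_apply, Set.mem_preimage, Set.mem_inter_iff, Set.mem_ofPred_eq, shf,
    Pi.one_apply]
  split_ifs with h1 h2 <;> simp_all

/-- A fresh block of the second stream is independent of its earlier blocks and the first. -/
theorem both_snd (hX : IsProbabilityMeasure X.law) (hY : IsProbabilityMeasure Y.law) {k : ℕ}
    {E : Set ((ℕ → BX) × (ℕ → BY))} (hEm : MeasurableSet E)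
    (hE : ∀ A, Det k fun B => (A, B) ∈ E) (s : Set BY) :
    both X Y (E ∩ {q | q.2 k ∈ s}) = both X Y E * Y.law s := by
  have : IsProbabilityMeasure X.stream := by unfold Kind.stream; infer_instance
  have : IsProbabilityMeasure Y.stream := by unfold Kind.stream; infer_instance
  have h := both_fst Y X hY hX (i := k) (E := Prod.swap ⁻¹' E) (measurable_swap hEm) hE s
  have hsw : MeasurePreserving Prod.swap (both Y X) (both X Y) := Measure.measurePreserving_swap
  have hs : MeasurableSet {q : (ℕ → BX) × (ℕ → BY) | q.2 k ∈ s} :=
    (measurable_pi_apply k).comp measurable_snd MeasurableSet.of_discrete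
  rw [← hsw.measure_preimage (hEm.inter hs).nullMeasurableSet,
    ← hsw.measure_preimage hEm.nullMeasurableSet]
  exact h

end Vale.Agent.P147.Planar
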