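import Vale.Agent.P147.Planar.Ballistic
import Vale.Agent.P147.Dir.Bridge
import Vale.Agent.P147.Dir.Velocity

/-!
P147: no two opposite fast escapes, hence one nonzero velocity at most, in dimension at least three.
-/

open MeasureTheory Filter
open scoped ENNReal Topology

noncomputable section

namespace Vale.Agent.P147.Planar

variable {d : ℕ} [NeZero d] {μ : Measure (Step d → ℝ)}

/-- The escapes with positive upper speed in both directions, in the named form. -/
theorem not_both_fast_named (havoid : AvoidStmt) (hdir : ∀ l, Dir.DirectionStmt μ l)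
    (hμ : Elliptic μ) (hd : 3 ≤ d) (l : Fin d → ℝ) :
    ¬ (0 < annealed μ (Dir.AE l ∩
          {q | ∃ c > (0 : ℝ), ∃ᶠ n : ℕ in atTop, c * (n : ℝ) ≤ Dir.proj l q n}) ∧
      0 < annealed μ (Dir.AE (-l) ∩
          {q | ∃ c > (0 : ℝ), ∃ᶠ n : ℕ in atTop, c * (n : ℝ) ≤ Dir.proj (-l) q n})) := by
  have key : ∀ m : Fin d → ℝ, annealed μ (Dir.AE m ∩
      {q | ∃ c > (0 : ℝ), ∃ᶠ n : ℕ in atTop, c * (n : ℝ) ≤ Dir.proj m q n}) ≤ nu μ (Fast m) :=
    fun m => by
      refine le_trans (measure_mono fun q hq => ?_)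
        (Measure.le_map_apply measurable_stepsOf.aemeasurable (Fast m))
      rw [Dir.ae_eq_preimage] at hq
      exact ⟨hq.1, by simpa only [Dir.proj_eq, Set.mem_ofPred_eq] using hq.2⟩
  exact fun ⟨h, h'⟩ => not_both_fast havoid hdir hμ hd (h.trans_le (key l)) (h'.trans_le (key (-l)))

/-- At most one nonzero limit velocity in dimension at least three. -/
theorem velocity_unique3 (havoid : AvoidStmt) (hdir : ∀ l, Dir.DirectionStmt μ l)
    (hμ : Elliptic μ) (hd : 3 ≤ d) {v v' : Fin d → ℝ} (hv : v ≠ 0) (hv' : v' ≠ 0)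
    (hp : 0 < annealed μ (Dir.Speed v)) (hp' : 0 < annealed μ (Dir.Speed v')) : v = v' := by
  have h : ∀ w : Fin d → ℝ, annealed μ (Dir.Speed w) = nu μ (Dir.Vel w) := fun w => by
    rw [nu, Measure.map_apply measurable_stepsOf (Dir.measurableSet_vel w)]
    congr 1
    ext q
    simp [Dir.Vel, Dir.Speed, pos_stepsOf]
  rw [h] at hp hp'
  have hfast : ∀ (l w : Fin d → ℝ), 0 < ∑ i, l i * w i → Dir.Vel w ⊆ Fast l := fun l w hl η hη => by
    refine ⟨Dir.vel_escape hη hl, (∑ i, l i * w i) / 2, half_pos hl,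
      (?_ : ∀ᶠ n : ℕ in atTop, _).frequently⟩
    filter_upwards [(Dir.vel_lh (l := l) hη).eventually_const_lt (half_lt_self hl),
      eventually_gt_atTop 0] with n hn hn0
    rw [lt_div_iff₀ (by exact_mod_cast hn0)] at hn
    exact hn.le
  by_cases hsign : ∃ i, v i * v' i < 0
  · obtain ⟨i, hi⟩ := hsign
    have hne : v i ≠ 0 := fun h0 => by simp [h0] at hi
    set l : Fin d → ℝ := Pi.single i (v i) with hl
    have hsum : ∀ w : Fin d → ℝ, ∑ j, l j * w j = v i * w i := fun w => by
      simp [hl, Pi.single_apply, ite_mul]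
    have h1 : 0 < ∑ j, l j * v j := by rw [hsum]; exact mul_self_pos.mpr hne
    have h2 : 0 < ∑ j, (-l) j * v' j := by
      simp only [Pi.neg_apply, neg_mul, Finset.sum_neg_distrib, hsum]
      linarith
    exact (not_both_fast havoid hdir hμ hd (hp.trans_le (measure_mono (hfast l v h1)))
      (hp'.trans_le (measure_mono (hfast (-l) v' h2)))).elim
  · push Not at hsign
    have sq : ∀ w : Fin d → ℝ, w ≠ 0 → 0 < ∑ i, w i * w i := fun w hw => by
      obtain ⟨i, hi⟩ := Function.ne_iff.mp hw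
      exact Finset.sum_pos' (fun j _ => mul_self_nonneg _)
        ⟨i, Finset.mem_univ i, mul_self_pos.mpr hi⟩
    have h0 : 0 ≤ ∑ i, v i * v' i := Finset.sum_nonneg fun i _ => hsign i
    refine Dir.velocity_eq hμ hdir (v + v') ?_ ?_ hp hp'
    · simp only [Pi.add_apply, add_mul, Finset.sum_add_distrib]
      rw [show (∑ i, v' i * v i) = ∑ i, v i * v' i from Finset.sum_congr rfl fun i _ => mul_comm ..]
      linarith [sq v hv]
    · simp only [Pi.add_apply, add_mul, Finset.sum_add_distrib]
      linarith [sq v' hv']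

end Vale.Agent.P147.Planar
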